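import Vale.Agent.P016.N0.Hensel
import Vale.Agent.P016.N0.Places

/-! BASE: norm, chosen generators, Möbius function (port of P026 Basic and of parts of RecAux). -/

namespace Vale.Agent.P016.N0

open Vale.Agent.P319

open scoped ComplexConjugate Real NumberField

variable {K : Type} [Field K] [NumberField K] [Stp K]

@[simp] theorem nm_zero : nm (0 : R K) = 0 := nm_eq_zero.2 rfl
@[simp] theorem nm_one : nm (1 : R K) = 1 := isUnit_iff_nm.1 isUnit_one
theorem nm_pow (x : R K) (k : ℕ) : nm (x ^ k) = nm x ^ k := by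
  induction k with
  | zero => simp
  | succ k ih => rw [pow_succ, nm_mul, ih, pow_succ]
theorem nm_pos {x : R K} (h : x ≠ 0) : 0 < nm x := by
  exact Nat.pos_of_ne_zero (mt nm_eq_zero.1 h)
theorem one_le_nm {x : R K} (h : x ≠ 0) : (1 : ℝ) ≤ nm x := by
  exact_mod_cast nm_pos h
theorem nm_dvd {x y : R K} (h : x ∣ y) : nm x ∣ nm y := by
  obtain ⟨c, rfl⟩ := h
  exact ⟨nm c, nm_mul _ _⟩
theorem nm_le_of_dvd {x y : R K} (hy : y ≠ 0) (h : x ∣ y) : nm x ≤ nm y := by
  exact Nat.le_of_dvd (nm_pos hy) (nm_dvd h)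
theorem nm_of_associated {x y : R K} (h : Associated x y) : nm x = nm y := by
  exact Nat.dvd_antisymm (nm_dvd h.dvd) (nm_dvd h.symm.dvd)
@[simp] theorem nm_neg (x : R K) : nm (-x) = nm x := nm_of_associated (Associated.refl x).neg_left
theorem nm_unit (u : (R K)ˣ) : nm (u : R K) = 1 := isUnit_iff_nm.1 u.isUnit
theorem nm_unit_mul (u : (R K)ˣ) (x : R K) : nm ((u : R K) * x) = nm x := by
  rw [nm_mul, nm_unit, one_mul]
theorem nm_pos_real {x : R K} (h : x ≠ 0) : (0 : ℝ) < nm x := by exact_mod_cast nm_pos h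
theorem irreducible_of_nm_prime {p : R K} (hp : (nm p).Prime) : Irreducible p := by
  refine ⟨by rw [isUnit_iff_nm]; exact hp.ne_one, fun a b h => ?_⟩
  rw [h, nm_mul] at hp
  rw [isUnit_iff_nm, isUnit_iff_nm]
  exact (Nat.irreducible_iff_nat_prime _ |>.2 hp).isUnit_or_isUnit rfl |>.imp
    Nat.isUnit_iff.1 Nat.isUnit_iff.1
theorem two_le_nm {p : R K} (hp : Prime p) : 2 ≤ nm p := by
  have h1 := nm_pos hp.ne_zero
  have h2 : nm p ≠ 1 := fun h => hp.not_isUnit (isUnit_iff_nm.2 h)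
  omega
theorem Prime.not_dvd_unit {p u : R K} (hp : Prime p) (hu : IsUnit u) : ¬p ∣ u :=
  fun h => hp.not_isUnit (isUnit_of_dvd_unit h hu)
/-- the norm of a prime is a power of the rational prime below it -/
theorem nm_prime {p : R K} (hp : Prime p) :
    ∃ l f : ℕ, l.Prime ∧ ¬l ∣ MM K ∧ 0 < f ∧ p ∣ (l : R K) ∧ nm p = l ^ f := by
  have hmax : (Ideal.span {p}).IsMaximal :=
    PrincipalIdealRing.isMaximal_of_irreducible hp.irreducible
  let _ : Field (R K ⧸ Ideal.span {p}) := Ideal.Quotient.field _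
  have := finite_quot hp.ne_zero
  let _ : Fintype (R K ⧸ Ideal.span {p}) := Fintype.ofFinite _
  obtain ⟨l, hl, f, h1, h2⟩ := FiniteField.card' (R K ⧸ Ideal.span {p})
  have hd : p ∣ (l : R K) := by
    rw [← Ideal.mem_span_singleton, ← Ideal.Quotient.eq_zero_iff_mem, map_natCast]
    exact CharP.cast_eq_zero _ l
  exact ⟨l, f, h1, fun h => Prime.not_dvd_unit hp (isUnit_of_dvd_M h) hd, f.2, hd,
    by rw [← h2, ← card_quot, Nat.card_eq_fintype_card]⟩
theorem nm_coprime_M {n : R K} (hn : n ≠ 0) : (nm n).Coprime (MM K) := by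
  induction n using UniqueFactorizationMonoid.induction_on_prime with
  | h₁ => exact absurd rfl hn
  | h₂ u hu => rw [isUnit_iff_nm.1 hu]; exact Nat.coprime_one_left _
  | h₃ n p h0 hp ih =>
    obtain ⟨l, f, hl, h1, -, -, h2⟩ := nm_prime hp
    rw [nm_mul, h2]
    exact (((Nat.Prime.coprime_iff_not_dvd hl).2 h1).pow_left f).mul_left (ih h0)
theorem nm_natCast {k : ℕ} (h : k.Coprime (MM K)) : nm (k : R K) = k ^ Module.finrank ℚ K := by
  have h1 := nm_int (K := K) (t := k) (Nat.isCoprime_iff_coprime.2 h |>.map (Int.castRingHom _) |>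
    fun h => by simpa using h)
  rw [map_natCast, show ((k : 𝓞 K) : K) = k from map_natCast _ k, nK_natCast] at h1
  exact_mod_cast h1

theorem associated_pp (x : R K) : Associated x (pp x) :=
  letI := UniqueFactorizationMonoid.strongNormalizationMonoid (α := R K)
  associated_normalize x
theorem pp_mul (x y : R K) : pp (x * y) = pp x * pp y :=
  letI := UniqueFactorizationMonoid.strongNormalizationMonoid (α := R K)
  normalize_mul x y
theorem pp_eq_iff {x y : R K} : pp x = pp y ↔ Associated x y :=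
  letI := UniqueFactorizationMonoid.strongNormalizationMonoid (α := R K)
  normalize_eq_normalize_iff_associated
theorem pp_eq_of_associated {x y : R K} (h : Associated x y) : pp x = pp y := pp_eq_iff.2 h
@[simp] theorem pp_zero : pp (0 : R K) = 0 :=
  letI := UniqueFactorizationMonoid.strongNormalizationMonoid (α := R K)
  normalize_zero
@[simp] theorem pp_one : pp (1 : R K) = 1 :=
  letI := UniqueFactorizationMonoid.strongNormalizationMonoid (α := R K)
  normalize_one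
theorem pp_pp (x : R K) : pp (pp x) = pp x := pp_eq_of_associated (associated_pp x).symm
theorem pp_ne_zero {x : R K} (h : x ≠ 0) : pp x ≠ 0 := (associated_pp x).ne_zero_iff.1 h
theorem prim_pp {x : R K} (h : x ≠ 0) : Prim (pp x) := ⟨pp_ne_zero h, pp_pp x⟩
theorem pp_pow (x : R K) (k : ℕ) : pp (x ^ k) = pp x ^ k := by
  induction k with
  | zero => simp
  | succ k ih => rw [pow_succ, pp_mul, ih, pow_succ]
theorem pp_of_isUnit {u : R K} (h : IsUnit u) : pp u = 1 := by
  rw [pp_eq_of_associated (associated_one_iff_isUnit.2 h), pp_one]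
theorem pp_unit_mul (u : (R K)ˣ) (x : R K) : pp ((u : R K) * x) = pp x := by
  rw [pp_mul, pp_of_isUnit u.isUnit, one_mul]
theorem nm_pp (x : R K) : nm (pp x) = nm x := (nm_of_associated (associated_pp x)).symm
theorem pp_dvd_iff {x y : R K} : pp x ∣ y ↔ x ∣ y := (associated_pp x).dvd_iff_dvd_left.symm
theorem dvd_pp_iff {x y : R K} : x ∣ pp y ↔ x ∣ y := (associated_pp y).dvd_iff_dvd_right.symm
theorem exists_unit_pp (x : R K) : ∃ u : (R K)ˣ, x = u * pp x := by
  obtain ⟨u, hu⟩ := (associated_pp x).symm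
  exact ⟨u, by rw [mul_comm, hu]⟩
theorem Prim.ne_zero {a : R K} (ha : Prim a) : a ≠ 0 := ha.1
theorem Prim.pp_eq {a : R K} (ha : Prim a) : pp a = a := ha.2
theorem prim_one : Prim (1 : R K) := ⟨one_ne_zero, pp_one⟩
theorem Prim.mul {a b : R K} (ha : Prim a) (hb : Prim b) : Prim (a * b) :=
  ⟨mul_ne_zero ha.1 hb.1, by rw [pp_mul, ha.2, hb.2]⟩
theorem Prim.pow {a : R K} (ha : Prim a) (k : ℕ) : Prim (a ^ k) := by
  induction k with
  | zero => simpa using prim_one
  | succ k ih => rw [pow_succ]; exact ih.mul ha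
theorem Prim.prod {ι : Type*} {s : Finset ι} {f : ι → R K} (h : ∀ i ∈ s, Prim (f i)) :
    Prim (∏ i ∈ s, f i) := Finset.prod_induction _ _ (fun _ _ => Prim.mul) prim_one h
theorem Prim.of_mul {a b : R K} (ha : Prim a) (hab : Prim (a * b)) : Prim b :=
  ⟨right_ne_zero_of_mul hab.1, mul_left_cancel₀ ha.1 (by rw [← hab.2, pp_mul, ha.2])⟩
theorem Prim.eq_of_associated {a b : R K} (ha : Prim a) (hb : Prim b) (h : Associated a b) :
    a = b := by rw [← ha.2, ← hb.2, pp_eq_of_associated h]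
theorem Prim.eq_one_of_isUnit {a : R K} (ha : Prim a) (h : IsUnit a) : a = 1 :=
  ha.eq_of_associated prim_one (associated_one_iff_isUnit.2 h)
theorem Prim.pp_unit_mul {a : R K} (ha : Prim a) (u : (R K)ˣ) : pp ((u : R K) * a) = a := by
  rw [N0.pp_unit_mul, ha.2]
theorem exists_prim {n : R K} (h : n ≠ 0) : ∃ u c : R K, IsUnit u ∧ Prim c ∧ n = u * c := by
  obtain ⟨u, hu⟩ := exists_unit_pp n
  exact ⟨u, pp n, u.isUnit, prim_pp h, hu⟩
theorem exists_unit_prim {n : R K} (h : n ≠ 0) : ∃ (u : (R K)ˣ) (c : R K), Prim c ∧ n = u * c := by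
  obtain ⟨u, hu⟩ := exists_unit_pp n
  exact ⟨u, pp n, prim_pp h, hu⟩
theorem unit_prim_unique {u u' : (R K)ˣ} {c c' : R K} (hc : Prim c) (hc' : Prim c')
    (h : (u : R K) * c = u' * c') : u = u' ∧ c = c' := by
  obtain rfl : c = c' := by rw [← hc.pp_unit_mul u, h, hc'.pp_unit_mul]
  exact ⟨Units.ext (mul_right_cancel₀ hc.1 h), rfl⟩

theorem mem_pball {X : ℝ} {x : R K} : x ∈ pball K X ↔ Prim x ∧ (nm x : ℝ) ≤ X := by
  rw [pball, dif_pos (finite_prim_le X), Set.Finite.mem_toFinset]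
  rfl
theorem mem_sball {X : ℝ} {x : R K} : x ∈ sball K X ↔ IsS x ∧ (nm x : ℝ) ≤ X := by
  simp only [sball, Finset.mem_filter, mem_pball, IsS]
  tauto
theorem mem_pdiv {n e : R K} (hn : n ≠ 0) : e ∈ pdiv n ↔ Prim e ∧ e ∣ n := by
  simp only [pdiv, Finset.mem_filter, mem_pball]
  exact ⟨fun h => ⟨h.1.1, h.2⟩, fun h => ⟨⟨h.1, by exact_mod_cast nm_le_of_dvd hn h.2⟩, h.2⟩⟩
theorem sball_subset_pball (X : ℝ) : sball K X ⊆ pball K X := fun _ h =>
  mem_pball.2 ⟨(mem_sball.1 h).1.1, (mem_sball.1 h).2⟩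
theorem pball_mono {X Y : ℝ} (h : X ≤ Y) : pball K X ⊆ pball K Y := fun _ hn =>
  mem_pball.2 ⟨(mem_pball.1 hn).1, (mem_pball.1 hn).2.trans h⟩
theorem sball_mono {X Y : ℝ} (h : X ≤ Y) : sball K X ⊆ sball K Y := fun _ hn =>
  mem_sball.2 ⟨(mem_sball.1 hn).1, (mem_sball.1 hn).2.trans h⟩
theorem pball_eq_empty {Z : ℝ} (h : Z < 1) : pball K Z = ∅ :=
  Finset.eq_empty_of_forall_notMem fun _ hn =>
    absurd ((one_le_nm (mem_pball.1 hn).1.1).trans (mem_pball.1 hn).2) (not_le.2 h)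
theorem sball_eq_empty {Z : ℝ} (h : Z < 1) : sball K Z = ∅ :=
  Finset.subset_empty.1 (pball_eq_empty (K := K) h ▸ sball_subset_pball Z)
theorem pdiv_associated {m n : R K} (h : Associated m n) : pdiv m = pdiv n := by
  ext e
  simp only [pdiv, Finset.mem_filter, nm_of_associated h, h.dvd_iff_dvd_right]
theorem pdiv_one : pdiv (1 : R K) = {1} := by
  ext e
  rw [mem_pdiv one_ne_zero, Finset.mem_singleton]
  exact ⟨fun h => h.1.eq_one_of_isUnit (isUnit_of_dvd_one h.2),
    fun h => by subst h; exact ⟨prim_one, dvd_rfl⟩⟩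

/-- `c d³` with `c` squarefree (any generator) and `d` chosen is unique -/
theorem cube_decomp_unique' {c d c' d' : R K} (hs : Squarefree c) (hd : Prim d)
    (hs' : Squarefree c') (hd' : Prim d') (h : c * d ^ 3 = c' * d' ^ 3) : c = c' ∧ d = d' := by
  have key : ∀ {c d c' d' : R K}, d ≠ 0 → Squarefree c → c * d ^ 3 = c' * d' ^ 3 → d' ∣ d := by
    intro c d c' d' hd hs h
    obtain ⟨a, b, g, hab, rfl, rfl⟩ := UniqueFactorizationMonoid.exists_reduced_factors d hd d'
    have hg : g ≠ 0 := left_ne_zero_of_mul hd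
    have h1 : c * a ^ 3 = b * b * (b * c') :=
      mul_left_cancel₀ (pow_ne_zero 3 hg) (by linear_combination h)
    have h2 : IsRelPrime (b * b) (a ^ 3) := (hab.symm.mul_left hab.symm).pow_right
    have h3 : IsUnit b := hs b (h2.dvd_of_dvd_mul_right ⟨_, h1⟩)
    exact mul_dvd_mul_left g h3.dvd
  obtain rfl : d = d' := hd.eq_of_associated hd'
    (associated_of_dvd_dvd (key hd'.ne_zero hs' h.symm) (key hd.ne_zero hs h))
  exact ⟨mul_right_cancel₀ (pow_ne_zero 3 hd.ne_zero) h, rfl⟩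
theorem cube_decomp_unique {c d c' d' : R K} (_hc : Prim c) (hs : Squarefree c) (hd : Prim d)
    (_hc' : Prim c') (hs' : Squarefree c') (hd' : Prim d') (h : c * d ^ 3 = c' * d' ^ 3) :
    c = c' ∧ d = d' := cube_decomp_unique' hs hd hs' hd' h
theorem Prim.induction {P : R K → Prop} (h1 : P 1)
    (hs : ∀ p n, Prime p → Prim p → Prim n → P n → P (p * n)) {n : R K} (hn : Prim n) : P n := by
  induction hk : nm n using Nat.strong_induction_on generalizing n with
  | _ k ih =>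
    by_cases h : IsUnit n
    · rwa [hn.eq_one_of_isUnit h]
    obtain ⟨q, hq, hd⟩ := WfDvdMonoid.exists_irreducible_factor h hn.ne_zero
    obtain ⟨u, p, hu, hp, rfl⟩ := exists_prim hq.ne_zero
    obtain ⟨m, rfl⟩ := (dvd_mul_left p u).trans hd
    have hp' : Prime p := (associated_unit_mul_left _ _ hu).prime hq.prime
    have hm := hp.of_mul hn
    refine hs p m hp' hp hm (ih (nm m) ?_ hm rfl)
    rw [← hk, nm_mul]
    have h1 := nm_pos hm.ne_zero
    have h2 := nm_pos hp.ne_zero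
    have h3 := mt isUnit_iff_nm.2 hp'.not_isUnit
    nlinarith [(by omega : 2 ≤ nm p)]
theorem IsS.induction {P : R K → Prop} (h1 : P 1)
    (hs : ∀ p n, Prime p → IsS p → IsS n → ¬p ∣ n → P n → P (p * n)) {n : R K} (hn : IsS n) :
    P n := by
  refine Prim.induction (P := fun n => IsS n → P n) (fun _ => h1) (fun p n hp hp' hn' ih h => ?_)
    hn.1 hn
  have h2 : IsS n := ⟨hn', h.2.of_mul_right⟩
  exact hs p n hp ⟨hp', h.2.of_mul_left⟩ h2
    (fun h' => hp.not_isUnit (h.2 p (mul_dvd_mul_left p h'))) (ih h2)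
theorem exists_prim_gcd' {a : R K} (b : R K) (ha : a ≠ 0) :
    ∃ d, Prim d ∧ d ∣ a ∧ d ∣ b ∧ ∀ e, e ∣ a → e ∣ b → e ∣ d := by
  have h1 := IsBezout.gcd_dvd_left a b
  exact ⟨pp (IsBezout.gcd a b), prim_pp (ne_zero_of_dvd_ne_zero ha h1), pp_dvd_iff.2 h1,
    pp_dvd_iff.2 (IsBezout.gcd_dvd_right a b),
    fun x h2 h3 => dvd_pp_iff.2 (IsBezout.dvd_gcd h2 h3)⟩
theorem exists_prim_gcd {a : R K} (b : R K) (ha : Prim a) :
    ∃ d, Prim d ∧ d ∣ a ∧ d ∣ b ∧ ∀ e, e ∣ a → e ∣ b → e ∣ d := exists_prim_gcd' b ha.1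
/-- `a = g a'`, `b = g b'` with `a', b'` coprime -/
theorem exists_gcd_decomp {a : R K} (b : R K) (ha : a ≠ 0) :
    ∃ g a' b', Prim g ∧ IsCoprime a' b' ∧ a = g * a' ∧ b = g * b' := by
  obtain ⟨g, hg, ⟨a', h1⟩, ⟨b', h2⟩, h3⟩ := exists_prim_gcd' b ha
  refine ⟨g, a', b', hg, IsRelPrime.isCoprime fun x hx hy => isUnit_of_dvd_one ?_, h1, h2⟩
  refine (mul_dvd_mul_iff_left hg.1).1 ?_
  rw [mul_one]
  exact h3 _ (h1 ▸ mul_dvd_mul_left g hx) (h2 ▸ mul_dvd_mul_left g hy)
theorem isS_one : IsS (1 : R K) := ⟨prim_one, squarefree_one⟩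
theorem IsS.ne_zero {a : R K} (ha : IsS a) : a ≠ 0 := ha.1.1
theorem Prim.isS_of_prime {p : R K} (h : Prim p) (hp : Prime p) : IsS p := ⟨h, hp.squarefree⟩
theorem IsS.of_dvd {a e : R K} (ha : IsS a) (he : Prim e) (h : e ∣ a) : IsS e :=
  ⟨he, ha.2.squarefree_of_dvd h⟩
theorem IsS.mul {a b : R K} (ha : IsS a) (hb : IsS b) (h : IsCoprime a b) : IsS (a * b) := by
  exact ⟨ha.1.mul hb.1, squarefree_mul_iff.2 ⟨h.isRelPrime, ha.2, hb.2⟩⟩
theorem IsS.coprime {a b : R K} (h : IsS (a * b)) : IsCoprime a b := by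
  exact (squarefree_mul_iff.1 h.2).1.isCoprime

theorem ind_of {p : Prop} (h : p) : ind p = 1 := by
  simp [ind, h]
theorem ind_of_not {p : Prop} (h : ¬p) : ind p = 0 := by
  simp [ind, h]
theorem ind_and (p q : Prop) : ind (p ∧ q) = ind p * ind q := by
  by_cases hp : p <;> by_cases hq : q <;> simp [ind, hp, hq]
theorem norm_ind_le (p : Prop) : ‖ind p‖ ≤ 1 := by
  by_cases hp : p <;> simp [ind, hp]
theorem ind_congr {p q : Prop} (h : p ↔ q) : ind p = ind q := by rw [propext h]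
theorem conj_ind (p : Prop) : conj (ind p) = ind p := by
  by_cases hp : p <;> simp [ind, hp]
theorem mu_one : mu (1 : R K) = 1 := by
  simp [mu]
theorem mu_prime {p : R K} (hp : Prime p) : mu p = -1 := by
  simp [mu, hp.irreducible.moebius_eq]
theorem mu_mul {a b : R K} (h : IsCoprime a b) : mu (a * b) = mu a * mu b := by
  simp [mu, h.isRelPrime.moebius_mul]
theorem mu_eq_zero {a : R K} (h : ¬Squarefree a) : mu a = 0 := by
  simp [mu, UniqueFactorizationMonoid.moebius_of_not_squarefree h]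
theorem mu_sq {a : R K} (h : Squarefree a) : mu a * mu a = 1 := by
  simp [mu, h.moebius_eq, ← mul_pow]
theorem conj_mu (a : R K) : conj (mu a) = mu a := by
  simp [mu]
theorem norm_mu_le (a : R K) : ‖mu a‖ ≤ 1 := by
  by_cases h : Squarefree a
  · simp [mu, h.moebius_eq]
  · simp [mu_eq_zero h]
theorem mu_associated {a b : R K} (h : Associated a b) : mu a = mu b := by
  rw [mu, mu, h.moebius_eq]
theorem sum_mu_pdiv {n : R K} (hn : Prim n) : ∑ e ∈ pdiv n, mu e = ind (n = 1) := by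
  classical
  refine Prim.induction (P := fun n => ∑ e ∈ pdiv n, mu e = ind (n = 1)) ?_
    (fun p n hp hp' hn _ => ?_) hn
  · rw [pdiv_one, Finset.sum_singleton, mu_one, ind_of rfl]
  have h0 := (hp'.mul hn).ne_zero
  rw [ind_of_not fun h => hp.not_isUnit (IsUnit.of_mul_eq_one _ h),
    ← Finset.sum_filter_add_sum_filter_not _ (p ∣ ·),
    ← Finset.sum_filter_add_sum_filter_not ((pdiv (p * n)).filter (p ∣ ·)) (p * p ∣ ·),
    Finset.sum_eq_zero fun e he => mu_eq_zero fun h => hp.not_isUnit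
      (h p (Finset.mem_filter.1 he).2), zero_add, add_eq_zero_iff_eq_neg,
    ← Finset.sum_neg_distrib]
  symm
  refine Finset.sum_bij (fun e _ => p * e) (fun e he => ?_) (fun a _ b _ h => ?_)
    (fun e he => ?_) fun e he => ?_
  · simp only [Finset.mem_filter, mem_pdiv h0] at he ⊢
    exact ⟨⟨⟨hp'.mul he.1.1, mul_dvd_mul_left p ((hp.irreducible.coprime_iff_not_dvd.2
      he.2).symm.dvd_of_dvd_mul_left he.1.2)⟩, dvd_mul_right _ _⟩,
      fun h => he.2 ((mul_dvd_mul_iff_left hp.ne_zero).1 h)⟩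
  · exact mul_left_cancel₀ hp.ne_zero h
  · simp only [Finset.mem_filter, mem_pdiv h0] at he
    obtain ⟨⟨⟨h1, h2⟩, c, rfl⟩, h3⟩ := he
    refine ⟨c, ?_, rfl⟩
    simp only [Finset.mem_filter, mem_pdiv h0]
    exact ⟨⟨hp'.of_mul h1, (dvd_mul_left c p).trans h2⟩, fun h => h3 (mul_dvd_mul_left p h)⟩
  · rw [mu_mul (hp.irreducible.coprime_iff_not_dvd.2 (Finset.mem_filter.1 he).2), mu_prime hp,
      neg_one_mul]
theorem ind_coprime {D : R K} (hD : Prim D) (h : R K) :
    ind (IsCoprime h D) = ∑ e ∈ pdiv D, mu e * ind (e ∣ h) := by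
  classical
  obtain ⟨d, hd, h1, h2, h3⟩ := exists_prim_gcd h hD
  have e1 : IsCoprime h D ↔ d = 1 := by
    refine ⟨fun hc => hd.eq_one_of_isUnit (hc.isUnit_of_dvd' h2 h1), fun e => ?_⟩
    exact IsRelPrime.isCoprime fun x a b => isUnit_of_dvd_one (e ▸ h3 x b a)
  rw [propext e1, ← sum_mu_pdiv hd]
  have e2 : pdiv d = (pdiv D).filter (· ∣ h) := by
    ext e
    simp only [Finset.mem_filter, mem_pdiv hd.ne_zero, mem_pdiv hD.ne_zero]
    exact ⟨fun a => ⟨⟨a.1, a.2.trans h1⟩, a.2.trans h2⟩, fun a => ⟨a.1.1, h3 e a.1.2 a.2⟩⟩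
  rw [e2, Finset.sum_filter]
  refine Finset.sum_congr rfl fun e _ => ?_
  split_ifs with h4
  · rw [ind_of h4, mul_one]
  · rw [ind_of_not h4, mul_zero]
theorem ind_coprime' {D : R K} (hD : D ≠ 0) (h : R K) :
    ind (IsCoprime h D) = ∑ e ∈ pdiv D, mu e * ind (e ∣ h) := by
  rw [pdiv_associated (associated_pp D), ← ind_coprime (prim_pp hD)]
  exact ind_congr ⟨fun a => a.of_isCoprime_of_dvd_right (associated_pp D).symm.dvd,
    fun a => a.of_isCoprime_of_dvd_right (associated_pp D).dvd⟩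
theorem norm_ang {n : R K} (h : n ≠ 0) : ‖ang n‖ = 1 := by
  rw [ang, norm_prod]
  refine Finset.prod_eq_one fun v _ => ?_
  rw [norm_div, Complex.norm_real, norm_norm,
    div_self (norm_ne_zero_iff.2 (ev_ne_zero v (coe_ne_zero h)))]
theorem ang_mul (a b : R K) : ang (a * b) = ang a * ang b := by
  simp only [ang, map_mul, ev_mul, norm_mul, Complex.ofReal_mul, ← Finset.prod_mul_distrib,
    mul_div_mul_comm]
@[simp] theorem ang_one : ang (1 : R K) = 1 := by simp [ang]
theorem ang_pow (a : R K) (k : ℕ) : ang (a ^ k) = ang a ^ k := by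
  induction k with
  | zero => simp
  | succ k ih => rw [pow_succ, ang_mul, ih, pow_succ]
theorem norm_ang_le (n : R K) : ‖ang n‖ ≤ 1 := by
  by_cases h : n = 0
  · rw [h, ang, norm_prod]
    exact Finset.prod_le_one (fun _ _ => norm_nonneg _) fun v _ => by simp
  · exact (norm_ang h).le
theorem ang_eq (x : R K) : ang x = (∏ v : Pl K, ev v x) / (√(nK (x : K)) : ℝ) := by
  rw [ang, Finset.prod_div_distrib, ← prod_norm_ev, Finset.prod_pow,
    Real.sqrt_sq (Finset.prod_nonneg fun _ _ => norm_nonneg _), Complex.ofReal_prod]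
theorem norm_nt (n : R K) (t : ℝ) : ‖nt n t‖ = 1 := by
  rw [nt, mul_assoc, ← Complex.ofReal_mul, mul_comm, Complex.norm_exp_ofReal_mul_I]
theorem nt_mul {a b : R K} (ha : a ≠ 0) (hb : b ≠ 0) (t : ℝ) : nt (a * b) t = nt a t * nt b t := by
  rw [nt, nt, nt, ← Complex.exp_add, nm_mul, Nat.cast_mul,
    Real.log_mul (by exact_mod_cast (nm_pos ha).ne') (by exact_mod_cast (nm_pos hb).ne')]
  push_cast
  ring_nf
theorem nt_add (a : R K) (t t' : ℝ) : nt a (t + t') = nt a t * nt a t' := by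
  rw [nt, nt, nt, ← Complex.exp_add]
  push_cast
  ring_nf
theorem conj_nt (a : R K) (t : ℝ) : conj (nt a t) = nt a (-t) := by
  rw [nt, nt, ← Complex.exp_conj]
  simp only [map_mul, Complex.conj_I, Complex.conj_ofReal]
  push_cast
  ring_nf
theorem nt_associated {a b : R K} (h : Associated a b) (t : ℝ) : nt a t = nt b t := by
  rw [nt, nt, nm_of_associated h]
@[simp] theorem nt_zero (a : R K) : nt a 0 = 1 := by simp [nt]

end Vale.Agent.P016.N0
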