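import Vale.Agent.P319.N.ZetaGen

/-! # P319, number theory part: shared definitions and interfaces.  See `notes/P319N.md`.

This is the port of P026 from `ℤ[ω]` to an arbitrary number field `K ∋ ω`. -/

namespace Vale.Agent.P016.N0

open Vale.Agent.P319

open scoped ComplexConjugate Real ContDiff NumberField nonZeroDivisors Topology
open MeasureTheory Filter

/-- a number field with a totally non-real integer `io` and an integer `M` that is inverted -/
class Stp (K : Type) [Field K] [NumberField K] where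
  io : 𝓞 K
  io_im : ∀ φ : K →+* ℂ, (φ io).im ≠ 0
  M : ℕ
  M_ne : M ≠ 0
  six_dvd : 6 ∣ M
  disc_dvd : NumberField.discr K ∣ (M : ℤ)
  cls : ∀ c : ClassGroup (𝓞 K), ∃ I : (Ideal (𝓞 K))⁰, ClassGroup.mk0 I = c ∧ (M : 𝓞 K) ∈ I.1

section base

variable (K : Type) [Field K] [NumberField K] [Stp K]

/-- the inverted integer -/
abbrev MM : ℕ := Stp.M K

theorem pow_le : Submonoid.powers (MM K : 𝓞 K) ≤ (𝓞 K)⁰ :=
  powers_le_nonZeroDivisors_of_noZeroDivisors (Nat.cast_ne_zero.2 Stp.M_ne)

/-- `𝓞 K [1/M]` inside `K` -/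
noncomputable def RS : Subalgebra (𝓞 K) K :=
  Localization.subalgebra.ofField K (Submonoid.powers (MM K : 𝓞 K)) (pow_le K)

/-- the ring `R = 𝓞 K [1/M]`; it plays the role of `O` in P026 -/
def R : Type := ↥(RS K)

noncomputable instance : CommRing (R K) := inferInstanceAs (CommRing (RS K))
instance : IsDomain (R K) := inferInstanceAs (IsDomain (RS K))
noncomputable instance : Algebra (𝓞 K) (R K) := inferInstanceAs (Algebra (𝓞 K) (RS K))
noncomputable instance : Algebra (R K) K := inferInstanceAs (Algebra (RS K) K)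
instance : IsScalarTower (𝓞 K) (R K) K := inferInstanceAs (IsScalarTower (𝓞 K) (RS K) K)

/-- the coercion `R K → K` unfolds to `algebraMap (R K) K` -/
noncomputable instance : CoeHead (R K) K := ⟨fun x => algebraMap (R K) K x⟩

instance : IsLocalization (Submonoid.powers (MM K : 𝓞 K)) (R K) :=
  Localization.subalgebra.isLocalization_ofField K _ (pow_le K)

instance : IsFractionRing (R K) K :=
  Localization.subalgebra.isFractionRing_ofField K _ (pow_le K)

theorem mem_RS_iff (x : K) : x ∈ RS K ↔ ∃ y : R K, (y : K) = x :=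
  ⟨fun h => ⟨⟨x, h⟩, rfl⟩, fun ⟨y, h⟩ => h ▸ y.2⟩

theorem algebraMap_R_injective : Function.Injective (algebraMap (𝓞 K) (R K)) :=
  IsLocalization.injective _ (pow_le K)

theorem isUnit_M : IsUnit (algebraMap (𝓞 K) (R K) (MM K)) :=
  IsLocalization.map_units (R K) (⟨_, Submonoid.mem_powers _⟩ : Submonoid.powers (MM K : 𝓞 K))

instance : IsPrincipalIdealRing (R K) where
  principal I := by
    rw [← IsLocalization.map_under (Submonoid.powers (MM K : 𝓞 K)) (R K) I]
    set J := I.under (𝓞 K)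
    by_cases hJ : J = ⊥
    · rw [hJ, Ideal.map_bot]; infer_instance
    obtain ⟨I₀, h1, h2⟩ := Stp.cls (ClassGroup.mk0 ⟨J, mem_nonZeroDivisors_of_ne_zero hJ⟩)
    obtain ⟨x, y, hx, hy, h⟩ := ClassGroup.mk0_eq_mk0_iff.1 h1
    have h3 := congrArg (Ideal.map (algebraMap (𝓞 K) (R K))) h
    rw [Ideal.map_mul, Ideal.map_mul, Ideal.map_span, Ideal.map_span, Set.image_singleton,
      Set.image_singleton, Ideal.eq_top_of_isUnit_mem _ (Ideal.mem_map_of_mem _ h2) (isUnit_M K),
      Ideal.mul_top] at h3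
    have hy' : algebraMap (𝓞 K) (R K) y ≠ 0 :=
      (map_ne_zero_iff _ (algebraMap_R_injective K)).2 hy
    obtain ⟨z, hz, e⟩ := Ideal.mem_span_singleton_mul.1
      (h3 ▸ Ideal.mem_span_singleton_self (algebraMap (𝓞 K) (R K) x))
    refine ⟨⟨z, le_antisymm (fun w hw => ?_) ((Ideal.span_singleton_le_iff_mem _).2 hz)⟩⟩
    obtain ⟨c, hc⟩ := Ideal.mem_span_singleton'.1
      (h3.symm ▸ Ideal.mul_mem_mul (Ideal.mem_span_singleton_self _) hw)
    refine Ideal.mem_span_singleton'.2 ⟨c, mul_left_cancel₀ hy' ?_⟩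
    rw [← hc, ← e]; ring

/-- the complex places: the embeddings that send `io` to the upper half plane -/
def Pl : Type := {φ : K →+* ℂ // 0 < (φ (Stp.io : 𝓞 K)).im}

noncomputable instance : Fintype (Pl K) := open Classical in Subtype.fintype _

noncomputable instance : DecidableEq (Pl K) := Classical.decEq _

end base

variable {K : Type} [Field K] [NumberField K] [Stp K]

/-- the embedding at the place `v` -/
noncomputable def ev (v : Pl K) (x : K) : ℂ := v.1 x

/-- the Minkowski embedding -/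
noncomputable def emb (x : K) : Pl K → ℂ := fun v => ev v x

/-- the absolute norm `|N_{K/ℚ} x| = ∏ ‖ev v x‖²` -/
noncomputable def nK (x : K) : ℝ := ((|Algebra.norm ℚ x| : ℚ) : ℝ)

/-- `x ∈ M ^ a * O_S`, with `O_S` the semilocal ring at the primes above `M` -/
def SIn (a : ℕ) (x : K) : Prop :=
  ∃ s t : 𝓞 K, IsCoprime s (MM K : 𝓞 K) ∧ (s : K) * x = (MM K : K) ^ a * t

/-- `x ≡ 1 mod M ^ q` at the primes above `M` -/
def InUq (q : ℕ) (x : K) : Prop := SIn q (x - 1)

/-- the standard level -/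
abbrev InU (x : K) : Prop := InUq 10 x

/-- the ideals `(x)`, `(y)` of `R` are in the same ray class modulo `M ^ q * m` -/
def Ray (q : ℕ) (m x y : R K) : Prop :=
  x ≠ 0 ∧ y ≠ 0 ∧ ∃ u : (R K)ˣ, InUq q (((u * x : R K) : K) / y) ∧ m ∣ u * x - y

/-- same ray class at the standard level (replaces `72 ∣ x - y` and `Q ∣ x - y` of P026) -/
abbrev Cg (x y : R K) : Prop := Ray 10 1 x y

/-- the chosen representative of the ray class of `x` modulo `M ^ q` -/
noncomputable def crep (q : ℕ) (x : R K) : R K := Quot.out (Quot.mk (Ray q 1) x)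

/-- the representatives of the ray classes modulo `M ^ q` (replaces `res Q`) -/
noncomputable def creps (K : Type) [Field K] [NumberField K] [Stp K] (q : ℕ) : Finset (R K) :=
  open Classical in
  if h : {y | ∃ x : R K, x ≠ 0 ∧ y = crep q x}.Finite then h.toFinset else ∅

/-- normalised generator: associated to `x`, in `crep 10 x * U` -/
noncomputable def ng (x : R K) : R K :=
  open Classical in
  if h : ∃ y : R K, Associated y x ∧ InU ((y : K) / crep 10 x) then h.choose else x

/-- `φ` depends only on the ray class -/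
def ClF (φ : R K → ℂ) : Prop := ∀ x y, Cg x y → φ x = φ y

/-- the multiplicative choice of generators -/
noncomputable def pp (x : R K) : R K :=
  letI := UniqueFactorizationMonoid.strongNormalizationMonoid (α := R K)
  normalize x

/-- `n` is the chosen generator of a nonzero ideal (replaces both `Prim` and `IsP` of P026) -/
def Prim (n : R K) : Prop := n ≠ 0 ∧ pp n = n

/-- chosen generator of a squarefree ideal -/
def IsS (n : R K) : Prop := Prim n ∧ Squarefree n

/-- the norm of the ideal `(x)` of `R` -/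
noncomputable def nm (x : R K) : ℕ := Nat.card (R K ⧸ Ideal.span {x})

/-- chosen generators of norm at most `X` -/
noncomputable def pball (K : Type) [Field K] [NumberField K] [Stp K] (X : ℝ) : Finset (R K) :=
  open Classical in
  if h : {n : R K | Prim n ∧ (nm n : ℝ) ≤ X}.Finite then h.toFinset else ∅

/-- squarefree chosen generators of norm at most `X` -/
noncomputable def sball (K : Type) [Field K] [NumberField K] [Stp K] (X : ℝ) : Finset (R K) :=
  open Classical in (pball K X).filter Squarefree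

/-- divisors -/
noncomputable def pdiv (n : R K) : Finset (R K) :=
  open Classical in (pball K (nm n)).filter fun e => e ∣ n

/-- number of divisors -/
noncomputable def tau (n : R K) : ℝ := (pdiv n).card

/-- a complete residue system mod `n ≠ 0` -/
noncomputable def res (n : R K) : Finset (R K) :=
  open Classical in
  if h : (Set.range (Quotient.out : R K ⧸ Ideal.span {n} → R K)).Finite then h.toFinset else ∅

/-- Möbius function -/
noncomputable def mu (n : R K) : ℂ := (UniqueFactorizationMonoid.moebius n : ℤ)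

/-- indicator -/
noncomputable def ind (p : Prop) : ℂ := open Classical in if p then 1 else 0

/-- `exp (2πi Tr x)` -/
noncomputable def eTr (x : K) : ℂ :=
  Complex.exp (2 * π * Complex.I * ((Algebra.trace ℚ K x : ℚ) : ℂ))

/-- the additive character of `K` trivial on `R`: `eTr y` for any `y ∈ (x + R) ∩ O_S` -/
noncomputable def psiK (x : K) : ℂ :=
  open Classical in
  if h : ∃ y : K, SIn 0 y ∧ x - y ∈ RS K then eTr h.choose else 1

/-- `psiK (x / n)` -/
noncomputable def eq (x n : R K) : ℂ := psiK ((x : K) / n)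

/-- `∏ x_v / |x_v|` -/
noncomputable def ang (x : R K) : ℂ := ∏ v : Pl K, ev v x / (‖ev v (x : K)‖ : ℝ)
/-- `N(n)^{it}` -/
noncomputable def nt (n : R K) (t : ℝ) : ℂ := Complex.exp (Complex.I * t * Real.log (nm n))

/-- `f` has period `q` -/
def Per (q : R K) (f : R K → ℂ) : Prop := ∀ x y, q ∣ x - y → f x = f y

/-- smooth weight supported in `[1/B, B]` -/
def Adm (B : ℝ) (V : ℝ → ℝ) : Prop :=
  1 ≤ B ∧ ContDiff ℝ ∞ V ∧ ∀ x, V x ≠ 0 → 1 / B ≤ x ∧ x ≤ B

/-! ## units, rows, hyperbolic space -/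

/-- the units `≡ 1 mod M ^ 10`; a torsion free subgroup of finite index of `(𝓞 K)ˣ` -/
noncomputable def EU (K : Type) [Field K] [NumberField K] [Stp K] : Subgroup (R K)ˣ :=
  Subgroup.closure {u | InU ((u : R K) : K)}

/-- elements of `K` modulo `EU` -/
abbrev KQ (K : Type) [Field K] [NumberField K] [Stp K] : Type :=
  Quot fun x y : K => ∃ u ∈ EU K, y = ((u : R K) : K) * x

/-- elements of `R` modulo `EU` -/
abbrev RQ (K : Type) [Field K] [NumberField K] [Stp K] : Type :=
  Quot fun x y : R K => ∃ u ∈ EU K, y = (u : R K) * x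

/-- rows modulo `EU` -/
abbrev RowQ (K : Type) [Field K] [NumberField K] [Stp K] : Type :=
  Quot fun r r' : R K × R K => ∃ u ∈ EU K, r' = ((u : R K) * r.1, (u : R K) * r.2)

/-- the principal level `M ^ a` -/
noncomputable def lev (K : Type) [Field K] [NumberField K] [Stp K] (a : ℕ) : Ideal (𝓞 K) :=
  Ideal.span {(MM K : 𝓞 K) ^ a}

/-- primitive rows whose content `𝔟` at the primes above `M` satisfies `M^a ⊆ 𝔟 ⊆ M^(-a)` -/
def Box (a : ℕ) (r : R K × R K) : Prop :=
  IsCoprime r.1 r.2 ∧ SIn 0 ((MM K : K) ^ a * r.1) ∧ SIn 0 ((MM K : K) ^ a * r.2) ∧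
    ∃ s t : K, SIn 0 s ∧ SIn 0 t ∧ s * r.1 + t * r.2 = (MM K : K) ^ a

/-- `z ↦ exp (2πi (z + z̄))`; `eTr x = ∏ v, ecc (ev v x)` -/
noncomputable def ecc (z : ℂ) : ℂ := Complex.exp (2 * π * Complex.I * ((2 * z.re : ℝ) : ℂ))

/-- `P` is a bounded measurable fundamental set for the lattice `𝔪` -/
def Tile (𝔪 : Ideal (𝓞 K)) (P : Set (Pl K → ℂ)) : Prop :=
  MeasurableSet P ∧ (∃ T : ℝ, ∀ z ∈ P, ‖z‖ ≤ T) ∧ ∀ z, ∃! y : 𝓞 K, y ∈ 𝔪 ∧ z + emb (y : K) ∈ P

/-! ## interfaces -/

/-- `∫ f(x) e(-Tr(x ξ)) dx` on `ℂ^r` -/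
noncomputable def FT (f : (Pl K → ℂ) → ℂ) (ξ : Pl K → ℂ) : ℂ :=
  ∫ x, f x * ∏ v, ecc (-(x v * ξ v))

/-- covolume of `𝓞 K` in `ℂ^r` -/
noncomputable def covol (K : Type) [Field K] [NumberField K] [Stp K] : ℝ :=
  √|(NumberField.discr K : ℝ)| / 2 ^ Fintype.card (Pl K)

/-- Poisson summation for a fractional ideal (part LAT) -/
def PoisStmt (K : Type) [Field K] [NumberField K] [Stp K] : Prop :=
  ∀ (I : FractionalIdeal (𝓞 K)⁰ K) (f : (Pl K → ℂ) → ℂ) (C : ℝ), I ≠ 0 → Continuous f →
    (∀ x, ‖f x‖ ≤ C / (1 + ‖x‖) ^ (2 * Fintype.card (Pl K) + 1)) →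
    Summable (fun ξ : FractionalIdeal.dual ℤ ℚ I => FT f (emb (ξ : K))) →
    ∑' x : I, f (emb (x : K)) = ((covol K * (FractionalIdeal.absNorm I : ℚ) : ℝ) : ℂ)⁻¹ *
      ∑' ξ : FractionalIdeal.dual ℤ ℚ I, FT f (emb (ξ : K))

end Vale.Agent.P016.N0
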