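import Vale.Agent.P016.N0.SRing

/-! BASE: Hensel's lemma at the primes above `M` and at the primes of `R`.
PLAN.  One Newton step: `x = 1 + e`, `SIn j e`, `j ≥ 3`, `k ∣ M`: `z = 1 + e / k` has `SIn (j-1) (e/k)` (`SIn.div_nat`) and
`z^k = 1 + e + (e/k)^2 c` with `c ∈ O_S` (`Commute.add_pow`, or induction: `(1+d)^k = 1 + k d + d^2 c`), `2 (j-1) ≥ j + 1`,
so `x / z^k ∈ U_(j+1)`.  Induction on `N`; finally replace `z ∈ K` by an element of `R` in `z U_(max N q)`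
(`exists_R_inUq`).  `hensel_R`: the same step in `R`, where `k` is a unit: `x ≡ z^k mod m^N`,
`z' = z + (x - z^k) w` with `k z^(k-1) w ≡ 1 mod m`. -/

namespace Vale.Agent.P016.N0

open Vale.Agent.P319

open scoped NumberField nonZeroDivisors

variable {K : Type} [Field K] [NumberField K] [Stp K]

theorem one_add_pow_sIn {d : K} (hd : SIn 0 d) (k : ℕ) :
    ∃ c : K, SIn 0 c ∧ (1 + d) ^ k = 1 + k * d + d ^ 2 * c := by
  induction k with
  | zero => exact ⟨0, sIn_zero 0, by simp⟩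
  | succ k ih =>
    obtain ⟨c, hc, e⟩ := ih
    exact ⟨k + c + d * c, ((sIn_natCast k).add hc).add (hd.mul_right hc),
      by rw [pow_succ, e]; push_cast; ring⟩

theorem hensel_step {k j : ℕ} (hk : k ∣ MM K) (hj : 2 ≤ j) {x : K} (hx : InUq (j + 1) x) :
    ∃ z : K, InUq j z ∧ InUq (j + 2) (x / z ^ k) := by
  have hd : SIn j ((x - 1) / k) := SIn.div_nat hk hx
  have hk0 : (k : K) ≠ 0 := Nat.cast_ne_zero.2 (ne_zero_of_dvd_ne_zero Stp.M_ne hk)
  have hz : InUq j (1 + (x - 1) / k) := by unfold InUq; rwa [add_sub_cancel_left]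
  obtain ⟨c, hc, e⟩ := one_add_pow_sIn hd.zero k
  refine ⟨_, hz, ?_⟩
  have h0 := (hz.pow k).ne_zero (by omega)
  have h1 : x / (1 + (x - 1) / k) ^ k - 1 =
      -(((x - 1) / k) ^ 2 * c) * ((1 + (x - 1) / k) ^ k)⁻¹ := by
    rw [div_sub_one h0, div_eq_mul_inv, e, mul_div_cancel₀ _ hk0]
    ring
  unfold InUq
  rw [h1]
  exact ((((hd.pow 2).mono (by omega)).mul_right hc).neg).mul_right
    ((hz.pow k).inv (by omega)).sIn

theorem hensel_K {k q : ℕ} (hk : k ∣ MM K) (hq : 1 ≤ q) (N : ℕ) {x : K} (hx : InUq (q + 2) x) :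
    ∃ z : K, InUq (q + 1) z ∧ InUq N (x / z ^ k) := by
  have key : ∀ n : ℕ, ∃ z : K, InUq (q + 1) z ∧ InUq (q + 1 + n + 1) (x / z ^ k) := fun n => by
    induction n with
    | zero => exact ⟨1, inUq_one _, by simpa using hx⟩
    | succ n ih =>
      obtain ⟨z, hz, h⟩ := ih
      obtain ⟨z', hz', h'⟩ := hensel_step hk (by omega) h
      exact ⟨z * z', hz.mul (hz'.mono (by omega)), by rwa [mul_pow, ← div_div]⟩
  obtain ⟨z, hz, h⟩ := key N
  exact ⟨z, hz, h.mono (by omega)⟩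

/-- `U_(q+2) ⊆ z^k U_N` with `z ∈ R ∩ U_q` in a prescribed class mod `m`; `k ∣ M`, e.g. `k = 2, 3, 6` -/
theorem hensel {k q : ℕ} (hk : k ∣ MM K) (hq : 1 ≤ q) (N : ℕ) {x : K} (hx : InUq (q + 2) x)
    {m : R K} (hm : m ≠ 0) (c : R K) :
    ∃ z : R K, InUq q (z : K) ∧ InUq N (x / (z : K) ^ k) ∧ m ∣ z - c := by
  obtain ⟨z, hz, h⟩ := hensel_K hk hq N hx
  have h0 := hz.ne_zero (by omega)
  obtain ⟨y, hy, hc⟩ := exists_R_inUq (N + q) h0 hm c
  refine ⟨y, ?_, ?_, hc⟩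
  · simpa [h0] using (hy.mono (by omega : q ≤ N + q)).mul (hz.mono (by omega))
  · have := h.mul (((hy.pow k).inv (by omega)).mono (by omega))
    rwa [div_pow, inv_div, div_mul_div_cancel₀ (pow_ne_zero _ h0)] at this

theorem hensel_R {k : ℕ} (hk : k ∣ MM K) (N : ℕ) {m x : R K} (h : m ∣ x - 1) :
    ∃ z : R K, m ∣ z - 1 ∧ m ^ N ∣ x - z ^ k := by
  obtain ⟨u, hu⟩ := (isUnit_of_dvd_M hk).exists_right_inv
  have key : ∀ n : ℕ, ∃ z : R K, m ∣ z - 1 ∧ m ^ (n + 1) ∣ x - z ^ k := fun n => by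
    induction n with
    | zero => exact ⟨1, by simp, by simpa using h⟩
    | succ n ih =>
      obtain ⟨z, hz, he⟩ := ih
      have he1 : m ∣ x - z ^ k := (dvd_pow_self m n.succ_ne_zero).trans he
      obtain ⟨c, hc⟩ := Polynomial.powAddExpansion z ((x - z ^ k) * u) k
      refine ⟨z + (x - z ^ k) * u, ?_, ?_⟩
      · rw [add_sub_right_comm]; exact hz.add (he1.mul_right u)
      · have h1 : m ∣ z ^ (k - 1) - 1 := by
          simpa using hz.trans (sub_dvd_pow_sub_pow z 1 (k - 1))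
        have e : x - (z + (x - z ^ k) * u) ^ k =
            (x - z ^ k) * (-(z ^ (k - 1) - 1) - c * u ^ 2 * (x - z ^ k)) := by
          rw [hc]
          linear_combination -z ^ (k - 1) * (x - z ^ k) * hu
        rw [e, pow_succ]
        exact mul_dvd_mul he (h1.neg_right.sub (he1.mul_left _))
  obtain ⟨z, hz, he⟩ := key N
  exact ⟨z, hz, (pow_dvd_pow m N.le_succ).trans he⟩

theorem hensel_both {k q : ℕ} (hk : k ∣ MM K) (hq : 1 ≤ q) (N : ℕ) {m x : R K} (hm : m ≠ 0)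
    (hx : InUq (q + 2) (x : K)) (h : m ∣ x - 1) :
    ∃ z : R K, InUq q (z : K) ∧ m ∣ z - 1 ∧ InUq N ((x : K) / (z : K) ^ k) ∧ m ^ N ∣ x - z ^ k := by
  obtain ⟨w, hw, he⟩ := hensel_R hk N h
  obtain ⟨z, h1, h2, h3⟩ := hensel hk hq N hx (pow_ne_zero (N + 1) hm) w
  refine ⟨z, h1, ?_, h2, ?_⟩
  · simpa using ((dvd_pow_self m N.succ_ne_zero).trans h3).add hw
  · simpa using he.sub (((pow_dvd_pow m N.le_succ).trans h3).trans (sub_dvd_pow_sub_pow z w k))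

theorem two_dvd_M : 2 ∣ MM K := Dvd.dvd.trans ⟨3, rfl⟩ Stp.six_dvd
theorem three_dvd_M : 3 ∣ MM K := Dvd.dvd.trans ⟨2, rfl⟩ Stp.six_dvd

end Vale.Agent.P016.N0
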