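import Vale.Agent.P016.N0.LatPl

/-! # P319 LAT: coordinates attached to a fractional ideal.
PLAN.  `b` = `NumberField.basisOfFractionalIdeal` reindexed by `Fin n`, `n = finrank = 2 r`; `b'` = trace dual basis
(`Module.Basis.traceDual` / `LinearMap.BilinForm.dualBasis`), which spans `dl I` (`Submodule.traceDual_span_of_basis`, or directly from
`FractionalIdeal.mem_dual`).  `L x = ∑ i, x i • emb (b i)`; the pairing `∑ v, 2 * (z v * ev v ξ).re` of `L x` with `b' j` is `x j`
(`lat_trace`), so `L` is injective, hence bijective by dimension (`LinearMap.linearEquivOfInjective`, `Module.finrank_pi_fintype`).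
Volume (`lat_volume`): `volume = c • map L volume` (`Measure.isAddLeftInvariant_eq_smul`), `c = volume (L '' unit box)`.
Either transport `NumberField.mixedEmbedding.covolume_idealLattice` / `volume_fundamentalDomain_fractionalIdealLatticeBasis` along the
measure preserving map `mixedSpace K ≃ (Pl K → ℂ)` (no real place; `conj` where needed), or: with real coordinates
`A : Matrix`, `c = |det A|` and `Aᵀ diag(2,-2,..) A` = trace matrix, so `4^r det A ^ 2 = |disc b| = N(I)^2 |D|`
(`det_basisOfFractionalIdeal_eq_absNorm`, `Algebra.discr_of_matrix_vecMul`). -/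

namespace Vale.Agent.P016.N0

open Vale.Agent.P319

open scoped ComplexConjugate Real ContDiff NumberField nonZeroDivisors Topology
open MeasureTheory Filter Set

variable {K : Type} [Field K] [NumberField K] [Stp K]

/-- coordinates for the lattice `I` -/
structure Coord (I : FI K) where
  L : (Fin (2 * rr K) → ℝ) ≃L[ℝ] (Pl K → ℂ)
  e : (Fin (2 * rr K) → ℤ) ≃ I
  e' : (Fin (2 * rr K) → ℤ) ≃ dl I
  emb_e : ∀ m, emb (e m : K) = L fun i => (m i : ℝ)
  chr_e' : ∀ m x, chr (e' m : K) (L x) =
    Complex.exp (2 * π * Complex.I * ((∑ i, x i * m i : ℝ) : ℂ))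

omit [Stp K] in
theorem latBasis_equiv {n : ℕ} (b : Module.Basis (Fin n) ℚ K) (J : FI K)
    (h : ∀ x, x ∈ J ↔ x ∈ Submodule.span ℤ (Set.range b)) :
    ∃ e : (Fin n → ℤ) ≃ J, ∀ m, (e m : K) = ∑ i, (m i : K) * b i := by
  have hm : ∀ m : Fin n → ℤ, ∑ i, (m i : K) * b i ∈ J := fun m =>
    (h _).2 (Submodule.sum_mem _ fun i _ => by
      rw [← zsmul_eq_mul]
      exact Submodule.smul_mem _ _ (Submodule.subset_span (Set.mem_range_self i)))
  have hr : ∀ (m : Fin n → ℤ) j, b.repr (∑ i, (m i : K) * b i) j = m j := by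
    intro m j
    have e : ∑ i, (m i : K) * b i = ∑ i, (m i : ℚ) • b i :=
      Finset.sum_congr rfl fun i _ => by rw [Rat.smul_def, Rat.cast_intCast]
    rw [e, b.repr_sum_self]
  refine ⟨Equiv.ofBijective (fun m => ⟨_, hm m⟩) ⟨fun a c hac => ?_, fun x => ?_⟩, fun _ => rfl⟩
  · have h1 : ∑ i, (a i : K) * b i = ∑ i, (c i : K) * b i := congrArg Subtype.val hac
    funext j
    have h2 := hr a j
    rw [h1, hr] at h2
    exact_mod_cast h2.symm
  · obtain ⟨m, hm'⟩ := (Submodule.mem_span_range_iff_exists_fun ℤ).1 ((h x).1 x.2)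
    refine ⟨m, Subtype.ext ?_⟩
    show ∑ i, (m i : K) * b i = x
    rw [← hm']
    exact Finset.sum_congr rfl fun i _ => (zsmul_eq_mul _ _).symm

theorem latBasis_pair {n : ℕ} (b : Module.Basis (Fin n) ℚ K) (x : Fin n → ℝ) (m : Fin n → ℤ) :
    ∑ v : Pl K, 2 * (ev v (∑ j, (m j : K) * b.traceDual j) * (∑ i, x i • emb (b i)) v).re =
      ∑ i, x i * m i := by
  have h1 : ∀ v : Pl K, 2 * (ev v (∑ j, (m j : K) * b.traceDual j) * (∑ i, x i • emb (b i)) v).re =
      ∑ i, ∑ j, x i * m j * (2 * (ev v (b.traceDual j * b i)).re) := by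
    intro v
    simp only [ev, emb, map_sum, map_mul, map_intCast, Finset.sum_apply, Pi.smul_apply,
      Complex.real_smul]
    rw [Finset.sum_mul_sum, Finset.sum_comm, Complex.re_sum, Finset.mul_sum]
    refine Finset.sum_congr rfl fun i _ => ?_
    rw [Complex.re_sum, Finset.mul_sum]
    refine Finset.sum_congr rfl fun j _ => ?_
    rw [show (m j : ℂ) * v.1 (b.traceDual j) * ((x i : ℂ) * v.1 (b i)) =
      ((x i * m j : ℝ) : ℂ) * (v.1 (b.traceDual j) * v.1 (b i)) by push_cast; ring,
      Complex.re_ofReal_mul]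
    ring
  simp only [h1]
  rw [Finset.sum_comm]
  refine Finset.sum_congr rfl fun i _ => ?_
  rw [Finset.sum_comm]
  have h2 : ∀ j, ∑ v : Pl K, x i * m j * (2 * (ev v (b.traceDual j * b i)).re) =
      x i * m j * (((if i = j then 1 else 0 : ℚ) : ℚ) : ℝ) := fun j => by
    rw [← Finset.mul_sum, ← lat_trace, Module.Basis.trace_traceDual_mul]
  simp only [h2]
  rw [Finset.sum_eq_single i]
  · simp
  · intro j _ hj
    simp [hj.symm]
  · simp

theorem exists_coord {I : FI K} (hI : I ≠ 0) : Nonempty (Coord I) := by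
  classical
  set U : (FractionalIdeal (𝓞 K)⁰ K)ˣ := Units.mk0 I hI with hU
  have hc : Fintype.card (Module.Free.ChooseBasisIndex ℤ U) = 2 * rr K := by
    rw [two_mul_rr, Module.finrank_eq_card_basis (NumberField.basisOfFractionalIdeal K U)]
  set b : Module.Basis (Fin (2 * rr K)) ℚ K :=
    (NumberField.basisOfFractionalIdeal K U).reindex (Fintype.equivFinOfCardEq hc) with hb
  have h1 : ∀ x, x ∈ I ↔ x ∈ Submodule.span ℤ (Set.range b) := by
    intro x
    rw [hb, Module.Basis.range_reindex, NumberField.mem_span_basisOfFractionalIdeal]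
    rfl
  have h2 : ∀ x, x ∈ dl I ↔ x ∈ Submodule.span ℤ (Set.range b.traceDual) := by
    intro x
    rw [← Submodule.traceDual_span_of_basis ℤ (I : Submodule (𝓞 K) K) b (Submodule.ext h1),
      Submodule.restrictScalars_mem, ← FractionalIdeal.coe_dual ℤ ℚ hI]
    rfl
  obtain ⟨e, he⟩ := latBasis_equiv b I h1
  obtain ⟨e', he'⟩ := latBasis_equiv b.traceDual (dl I) h2
  set L0 : (Fin (2 * rr K) → ℝ) →ₗ[ℝ] (Pl K → ℂ) :=
    Fintype.linearCombination ℝ fun i => emb (b i) with hL0
  have hL : ∀ x, L0 x = ∑ i, x i • emb (b i) := fun x => Fintype.linearCombination_apply _ _ _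
  have hinj : Function.Injective L0 := by
    refine (injective_iff_map_eq_zero _).2 fun x hx => funext fun j => ?_
    have h3 := latBasis_pair b x (Pi.single j 1)
    rw [← hL, hx] at h3
    simp only [Pi.zero_apply, mul_zero, Complex.zero_re, Finset.sum_const_zero] at h3
    rw [Finset.sum_eq_single j] at h3
    · simpa using h3.symm
    · intro i _ hi
      simp [hi]
    · simp
  have hdim : Module.finrank ℝ (Fin (2 * rr K) → ℝ) = Module.finrank ℝ (Pl K → ℂ) := by
    rw [Module.finrank_fin_fun, Module.finrank_pi_fintype, Complex.finrank_real_complex,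
      Finset.sum_const, Finset.card_univ, smul_eq_mul, mul_comm]
  refine ⟨⟨(L0.linearEquivOfInjective hinj hdim).toContinuousLinearEquiv, e, e', fun m => ?_,
    fun m x => ?_⟩⟩
  · show _ = L0 _
    rw [hL, he]
    funext v
    simp only [ev, emb, map_sum, map_mul, map_intCast, Finset.sum_apply, Pi.smul_apply,
      Complex.real_smul, Complex.ofReal_intCast]
  · show chr _ (L0 x) = _
    rw [hL, he', ← latBasis_pair b x m, chr]
    simp only [ecc]
    rw [← Complex.exp_sum, ← Finset.mul_sum, Complex.ofReal_sum]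

end Vale.Agent.P016.N0
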