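import Vale.Agent.P016.N0.Defs

/-! # P319 LAT: definitions (units on the trace zero hyperplane, Hecke kernel, tiles).
Exports of LAT: `LatPl` (places), `LatEU`, `LatUn` (units), `LatPois` (`pois`, `pois_shift`, lattice sums and counts),
`LatTile` (tiles, Parseval), `LatKK`, `LatSep` (Hecke kernel), `LatFT` (Fourier transforms), `LatOrb` (orbits and ideals),
`LatHP` (`HP`), `LatLS` (`LS0`); `Lat` imports everything. -/

namespace Vale.Agent.P016.N0

open Vale.Agent.P319

open scoped ComplexConjugate Real ContDiff NumberField nonZeroDivisors Topology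
open MeasureTheory Filter

section
variable (K : Type) [Field K] [NumberField K] [Stp K]

/-- fractional ideals of `𝓞 K` -/
abbrev FI : Type := FractionalIdeal (𝓞 K)⁰ K

/-- the number of places -/
noncomputable abbrev rr : ℕ := Fintype.card (Pl K)

/-- `(2π)^r / √|D|` -/
noncomputable def c0 : ℝ := (2 * π) ^ rr K / √|(NumberField.discr K : ℝ)|

theorem lat_exists_pl (w : NumberField.InfinitePlace K) :
    ∃ v : Pl K, NumberField.InfinitePlace.mk v.1 = w := by
  rcases (Stp.io_im w.embedding).lt_or_gt with h | h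
  · refine ⟨⟨NumberField.ComplexEmbedding.conjugate w.embedding, ?_⟩, ?_⟩
    · rw [NumberField.ComplexEmbedding.conjugate_coe_eq, Complex.conj_im]
      linarith
    · rw [NumberField.InfinitePlace.mk_conjugate_eq, w.mk_embedding]
  · exact ⟨⟨w.embedding, h⟩, w.mk_embedding⟩

/-- the distinguished place (above Mathlib's `w₀`) -/
noncomputable def v0 : Pl K := (lat_exists_pl K NumberField.Units.dirichletUnitTheorem.w₀).choose

/-- coordinates on the hyperplane `∑ t = 0` -/
abbrev HH : Type := {v : Pl K // v ≠ v0 K} → ℝ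

end

variable {K : Type} [Field K] [NumberField K] [Stp K]

/-- the point of the hyperplane `∑ t = 0` with coordinates `t` -/
noncomputable def ex (t : HH K) (v : Pl K) : ℝ := if h : v = v0 K then -∑ w, t w else t ⟨v, h⟩

/-- projection to the hyperplane along the constants -/
noncomputable def pr (t : Pl K → ℝ) : HH K := fun w => t w.1 - (∑ v, t v) / rr K

/-- `log |x_v|²` -/
noncomputable def lg (x : K) (v : Pl K) : ℝ := Real.log (‖ev v x‖ ^ 2)

/-- the shape of `x` -/
noncomputable def lgH (x : K) : HH K := pr (lg x)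

/-- `D` is a bounded measurable fundamental set for the translations by `k • lgH u`, `u ∈ E` -/
def UF (E : Subgroup (R K)ˣ) (k : ℝ) (D : Set (HH K)) : Prop :=
  MeasurableSet D ∧ Bornology.IsBounded D ∧
    ∀ t : HH K, ∃! u : E, t + k • lgH ((u.1 : R K) : K) ∈ D

/-- the additive character `z ↦ e(Tr (ξ z))` of `ℂ^r` -/
noncomputable def chr (ξ : K) (z : Pl K → ℂ) : ℂ := ∏ v, ecc (ev v ξ * z v)

/-- Fourier transform at one place -/
noncomputable def FT1 (g : ℂ → ℂ) (ξ : ℂ) : ℂ := ∫ z, g z * ecc (-(z * ξ))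

/-- `T` is a system of representatives of `I / J` -/
def Reps (I J : FI K) (T : Finset K) : Prop :=
  (∀ x ∈ T, x ∈ I) ∧ ∀ x ∈ I, ∃! y, y ∈ T ∧ x - y ∈ J

/-- the dual lattice -/
noncomputable abbrev dl (I : FI K) : FI K := FractionalIdeal.dual ℤ ℚ I

/-- the covolume of `I` in `ℂ^r` -/
noncomputable def cvol (I : FI K) : ℝ := covol K * (FractionalIdeal.absNorm I : ℚ)

/-- a tile with its volume, orthogonality and Parseval -/
def Par (𝔪 : Ideal (𝓞 K)) (P : Set (Pl K → ℂ)) : Prop :=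
  Tile 𝔪 P ∧ volume P = ENNReal.ofReal (cvol (𝔪 : FI K)) ∧
  (∀ ν ∈ dl (𝔪 : FI K), ∫ z in P, chr ν z = ind (ν = 0) * cvol (𝔪 : FI K)) ∧
  ∀ (f : (Pl K → ℂ) → ℂ) (B : ℝ), Measurable f → (∀ z, ‖f z‖ ≤ B) →
    HasSum (fun ν : dl (𝔪 : FI K) => ‖∫ z in P, f z * chr (ν : K) z‖ ^ 2)
      (cvol (𝔪 : FI K) * ∫ z in P, ‖f z‖ ^ 2)

/-- the standard tile -/
noncomputable def par (𝔪 : Ideal (𝓞 K)) : Set (Pl K → ℂ) := Classical.epsilon (Par 𝔪)

section
variable (K : Type) [Field K] [NumberField K] [Stp K]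

/-- the Hecke kernel -/
noncomputable def KK (y : ℝ) : ℝ :=
  ∫ t : HH K, Real.exp (-(y ^ (1 / (rr K : ℝ)) * ∑ v, Real.exp (ex t v)))

/-- the standard fundamental set for `EU` -/
noncomputable def DD : Set (HH K) := Classical.epsilon (UF (EU K) 1)

/-- its volume -/
noncomputable def VV : ℝ := (volume (DD K)).toReal

/-- `EU` as a subgroup of `(𝓞 K)ˣ` -/
noncomputable def EUO : Subgroup (𝓞 K)ˣ :=
  (EU K).comap (Units.map (algebraMap (𝓞 K) (R K) : 𝓞 K →* R K))

/-- the index of `EU` in the unit group -/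
noncomputable def idx : ℕ := (EUO K).index

end

theorem lat_ecc_add (a b : ℂ) : ecc (a + b) = ecc a * ecc b := by
  rw [ecc, ecc, ecc, ← Complex.exp_add, Complex.add_re]
  congr 1
  push_cast
  ring

theorem lat_ecc_zero : ecc 0 = 1 := by simp [ecc]

theorem lat_norm_ecc (a : ℂ) : ‖ecc a‖ = 1 := by
  rw [ecc, show 2 * π * Complex.I * ((2 * a.re : ℝ) : ℂ) = ((2 * π * (2 * a.re) : ℝ) : ℂ) * Complex.I by
    push_cast; ring, Complex.norm_exp_ofReal_mul_I]

theorem lat_conj_ecc (a : ℂ) : conj (ecc a) = ecc (-a) := by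
  rw [ecc, ecc, ← Complex.exp_conj]
  congr 1
  simp only [map_mul, Complex.conj_ofReal, Complex.conj_I, Complex.neg_re, map_ofNat]
  push_cast
  ring

theorem lat_continuous_ecc : Continuous ecc := by
  unfold ecc
  fun_prop

theorem chr_add (ξ ξ' : K) (z : Pl K → ℂ) : chr (ξ + ξ') z = chr ξ z * chr ξ' z := by
  simp only [chr, ev, map_add, add_mul, lat_ecc_add, Finset.prod_mul_distrib]

theorem chr_add_right (ξ : K) (z z' : Pl K → ℂ) : chr ξ (z + z') = chr ξ z * chr ξ z' := by
  simp only [chr, Pi.add_apply, mul_add, lat_ecc_add, Finset.prod_mul_distrib]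

theorem chr_zero (z : Pl K → ℂ) : chr 0 z = 1 := by simp [chr, ev, lat_ecc_zero]

theorem norm_chr (ξ : K) (z : Pl K → ℂ) : ‖chr ξ z‖ = 1 := by
  simp [chr, norm_prod, lat_norm_ecc]

theorem conj_chr (ξ : K) (z : Pl K → ℂ) : conj (chr ξ z) = chr (-ξ) z := by
  simp only [chr, ev, map_prod, lat_conj_ecc, map_neg, neg_mul]

theorem continuous_chr (ξ : K) : Continuous (chr ξ : (Pl K → ℂ) → ℂ) :=
  continuous_finsetProd _ fun v _ => lat_continuous_ecc.comp (by fun_prop)

theorem rr_pos : 0 < rr K := Fintype.card_pos_iff.2 ⟨v0 K⟩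

theorem sum_split (f : Pl K → ℝ) : ∑ v, f v = f (v0 K) + ∑ w : {v : Pl K // v ≠ v0 K}, f w.1 :=
  Fintype.sum_eq_add_sum_subtype_ne f (v0 K)

theorem ex_v0 (t : HH K) : ex t (v0 K) = -∑ w, t w := dif_pos rfl

theorem ex_ne (t : HH K) (w : {v : Pl K // v ≠ v0 K}) : ex t w.1 = t w := dif_neg w.2

theorem sum_ex (t : HH K) : ∑ v, ex t v = 0 := by
  rw [sum_split, ex_v0]
  simp only [ex_ne]
  ring

theorem ex_add (t t' : HH K) (v : Pl K) : ex (t + t') v = ex t v + ex t' v := by
  unfold ex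
  split_ifs
  · simp only [Pi.add_apply, Finset.sum_add_distrib]; ring
  · rfl

theorem ex_smul (k : ℝ) (t : HH K) (v : Pl K) : ex (k • t) v = k * ex t v := by
  unfold ex
  split_ifs
  · simp only [Pi.smul_apply, smul_eq_mul, ← Finset.mul_sum]; ring
  · rfl

theorem ex_neg (t : HH K) (v : Pl K) : ex (-t) v = -ex t v := by
  rw [← neg_one_smul ℝ t, ex_smul]; ring

theorem ex_pr (t : Pl K → ℝ) (v : Pl K) : ex (pr t) v = t v - (∑ v, t v) / rr K := by
  unfold ex
  split_ifs with h
  · have h1 : (rr K : ℝ) ≠ 0 := Nat.cast_ne_zero.2 rr_pos.ne'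
    have h2 := sum_split (K := K) fun _ => (∑ v, t v) / rr K
    have h3 := sum_split t
    simp only [Finset.sum_const, Finset.card_univ, nsmul_eq_mul] at h2
    rw [mul_div_cancel₀ _ h1] at h2
    simp only [pr, Finset.sum_sub_distrib, Finset.sum_const, Finset.card_univ, nsmul_eq_mul, h]
    linarith
  · rfl

theorem pr_ex (t : HH K) : pr (ex t) = t := by
  funext w
  simp [pr, sum_ex, ex_ne]

theorem pr_add (t t' : Pl K → ℝ) : pr (t + t') = pr t + pr t' := by
  funext w
  simp only [pr, Pi.add_apply, Finset.sum_add_distrib]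
  ring

theorem pr_smul (k : ℝ) (t : Pl K → ℝ) : pr (k • t) = k • pr t := by
  funext w
  simp only [pr, Pi.smul_apply, smul_eq_mul, ← Finset.mul_sum]
  ring

theorem pr_const (c : ℝ) : pr (fun _ : Pl K => c) = 0 := by
  funext w
  have h1 : (rr K : ℝ) ≠ 0 := Nat.cast_ne_zero.2 rr_pos.ne'
  simp only [pr, Finset.sum_const, Finset.card_univ, nsmul_eq_mul, Pi.zero_apply]
  field_simp
  ring

theorem continuous_ex (v : Pl K) : Continuous fun t : HH K => ex t v := by
  unfold ex
  split_ifs <;> fun_prop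

theorem contDiff_pr : ContDiff ℝ ∞ (pr : (Pl K → ℝ) → HH K) := by
  unfold pr
  fun_prop

theorem c0_pos : 0 < c0 K := by
  have : (NumberField.discr K : ℝ) ≠ 0 := Int.cast_ne_zero.2 (NumberField.discr_ne_zero K)
  unfold c0
  positivity

theorem covol_pos : 0 < covol K := by
  have : (NumberField.discr K : ℝ) ≠ 0 := Int.cast_ne_zero.2 (NumberField.discr_ne_zero K)
  unfold covol
  positivity

omit [Stp K] in
theorem absNorm_FI_pos {I : FI K} (hI : I ≠ 0) : (0 : ℝ) < (FractionalIdeal.absNorm I : ℚ) := by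
  have h := (FractionalIdeal.absNorm_nonneg I).lt_of_ne' (mt FractionalIdeal.absNorm_eq_zero_iff.1 hI)
  exact_mod_cast h

theorem cvol_pos {I : FI K} (hI : I ≠ 0) : 0 < cvol I := mul_pos covol_pos (absNorm_FI_pos hI)

end Vale.Agent.P016.N0
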