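import Vale.Agent.P016.N0.Val

/-! BASE: ray classes, `creps`, `ng`, the unit group `EU`.
PLAN.  `Ray` calculus from the `InUq` calculus.  `finite_ray`: by `exists_shift 1` move `x` to `y ∈ 𝓞 K` with `M^a / y ∈ O_S`;
if `y' ≡ y mod M^(a+q) idl m` then `Ray q m y' y`; `𝓞 K / (M^(a+q)) idl m` is finite: choose one admissible `y` per residue class.
`crep`: `Quot.out_eq`, `Quot.eq`, `Equivalence.eqvGen_iff` for the relation `x = y ∨ Ray q 1 x y` (or induction on `EqvGen`).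
`ng`: the defining predicate only depends on the associate class of `x`.  `exists_delta`: `δ a b` is the unit with
`ng (c c') = δ ng c ng c'` for `c = crep 10 a`, `c' = crep 10 b`.  `EU`: the set is already a subgroup.  Torsion free:
`u^k = 1` gives `‖ev v u‖ = 1`, `nK (u - 1) ≤ 4^r = 2^n < M^(10 n) ≤ nK (M^10 t)` unless `t = 0`.
Finite index: kernel of `(𝓞 K)ˣ → (𝓞 K / I)ˣ`. -/

namespace Vale.Agent.P016.N0

open Vale.Agent.P319

open scoped NumberField nonZeroDivisors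

variable {K : Type} [Field K] [NumberField K] [Stp K] {q : ℕ} {m x y z : R K}

theorem Ray.left_ne (h : Ray q m x y) : x ≠ 0 := h.1
theorem Ray.right_ne (h : Ray q m x y) : y ≠ 0 := h.2.1
theorem ray_refl (q : ℕ) (m : R K) (hx : x ≠ 0) : Ray q m x x := by
  refine ⟨hx, hx, 1, ?_, by simp⟩
  rw [Units.val_one, one_mul, div_self (coe_ne_zero hx)]
  exact inUq_one q
theorem Ray.symm (hq : 1 ≤ q) (h : Ray q m x y) : Ray q m y x := by
  obtain ⟨hx, hy, u, h1, c, h2⟩ := h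
  refine ⟨hy, hx, u⁻¹, ?_, -(u⁻¹ : (R K)ˣ) * c, ?_⟩
  · have := h1.div_symm hq
    convert this using 1
    rw [map_mul, map_mul, coe_unit_inv]
    ring
  · have := u.inv_mul
    linear_combination (-(u⁻¹ : (R K)ˣ) : R K) * h2 + x * this
theorem Ray.trans (h : Ray q m x y) (h' : Ray q m y z) : Ray q m x z := by
  obtain ⟨hx, hy, u, h1, h2⟩ := h
  obtain ⟨-, hz, u', h1', h2'⟩ := h'
  refine ⟨hx, hz, u' * u, ?_, ?_⟩
  · have := h1.mul h1'
    have hy' := coe_ne_zero hy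
    convert this using 1
    simp only [Units.val_mul, map_mul]
    field_simp
  · have := (h2.mul_left (u' : R K)).add h2'
    convert this using 1
    rw [Units.val_mul]; ring
theorem Ray.mul {x' y' : R K} (h : Ray q m x y) (h' : Ray q m x' y') :
    Ray q m (x * x') (y * y') := by
  obtain ⟨hx, hy, u, h1, h2⟩ := h
  obtain ⟨hx', hy', u', h1', h2'⟩ := h'
  refine ⟨mul_ne_zero hx hx', mul_ne_zero hy hy', u * u', ?_, ?_⟩
  · have := h1.mul h1'
    convert this using 1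
    simp only [Units.val_mul, map_mul]
    ring
  · have := (h2.mul_right ((u' : R K) * x')).add (h2'.mul_left y)
    convert this using 1
    rw [Units.val_mul]; ring
theorem Ray.pow (h : Ray q m x y) (k : ℕ) : Ray q m (x ^ k) (y ^ k) := by
  induction k with
  | zero => simpa using ray_refl q m (one_ne_zero (α := R K))
  | succ k ih => rw [pow_succ, pow_succ]; exact ih.mul h
theorem Ray.mul_left (h : Ray q m x y) (hz : z ≠ 0) : Ray q m (z * x) (z * y) := by
  exact (ray_refl q m hz).mul h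
theorem Ray.mul_right (h : Ray q m x y) (hz : z ≠ 0) : Ray q m (x * z) (y * z) := by
  exact h.mul (ray_refl q m hz)
theorem Ray.cancel (h : Ray q m (x * z) (y * z)) (hz : IsCoprime z m) : Ray q m x y := by
  obtain ⟨hx, hy, u, h1, h2⟩ := h
  have hz' := coe_ne_zero (right_ne_zero_of_mul hx)
  refine ⟨left_ne_zero_of_mul hx, left_ne_zero_of_mul hy, u, ?_, ?_⟩
  · convert h1 using 1
    rw [← mul_assoc, map_mul _ _ z, map_mul _ _ z, mul_div_mul_right _ _ hz']
  · refine hz.symm.dvd_of_dvd_mul_right ?_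
    convert h2 using 1
    ring
theorem Ray.mono {q' : ℕ} {m' : R K} (h : Ray q m x y) (hq : q' ≤ q) (hm : m' ∣ m) :
    Ray q' m' x y := by
  obtain ⟨hx, hy, u, h1, h2⟩ := h
  exact ⟨hx, hy, u, h1.mono hq, hm.trans h2⟩
theorem ray_of_associated (q : ℕ) (m : R K) (hx : x ≠ 0) (h : Associated x y) : Ray q m x y := by
  have hy := h.ne_zero_iff.1 hx
  obtain ⟨u, rfl⟩ := h
  refine ⟨hx, hy, u, ?_, by rw [mul_comm, sub_self]; exact dvd_zero _⟩
  rw [mul_comm, div_self (coe_ne_zero hy)]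
  exact inUq_one q
theorem ray_of_inUq (hq : 1 ≤ q) (h : InUq q ((x : K) / y)) (hm : m ∣ x - y) : Ray q m x y := by
  have h0 := h.ne_zero hq
  rw [div_ne_zero_iff] at h0
  exact ⟨mt coe_eq_zero.2 h0.1, mt coe_eq_zero.2 h0.2, 1, by simpa using h, by simpa using hm⟩
theorem ray_congr {x' y' : R K} (hx : Associated x x') (hy : Associated y y') :
    Ray q m x y ↔ Ray q m x' y' := by
  constructor
  · intro h
    exact ((ray_of_associated q m (hx.ne_zero_iff.1 h.1) hx.symm).trans h).trans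
      (ray_of_associated q m h.2.1 hy)
  · intro h
    exact ((ray_of_associated q m (hx.ne_zero_iff.2 h.1) hx).trans h).trans
      (ray_of_associated q m h.2.1 hy.symm)
theorem ray_pp_left : Ray q m (pp x) y ↔ Ray q m x y := by
  exact ray_congr (associated_pp x).symm (Associated.refl y)
theorem ray_pp_right : Ray q m x (pp y) ↔ Ray q m x y := by
  exact ray_congr (Associated.refl x) (associated_pp y).symm
theorem Ray.isCoprime_iff (h : Ray q m x y) : IsCoprime x m ↔ IsCoprime y m := by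
  obtain ⟨-, -, u, -, c, h2⟩ := h
  have : (u : R K) * x = y + m * c := by linear_combination h2
  rw [← IsCoprime.add_mul_left_left_iff (x := y) (z := c), ← this,
    isCoprime_mul_unit_left_left u.isUnit]
theorem ray_one_iff : Ray q 1 x y ↔
    x ≠ 0 ∧ y ≠ 0 ∧ ∃ u : (R K)ˣ, InUq q (((u * x : R K) : K) / y) := by
  simp only [Ray, one_dvd, and_true]
/-- an associate of `x` lies in `y U_q` -/
theorem Ray.exists_associated (h : Ray q m x y) :
    ∃ x' : R K, Associated x' x ∧ InUq q ((x' : K) / y) ∧ m ∣ x' - y := by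
  obtain ⟨-, -, u, h1, h2⟩ := h
  exact ⟨u * x, associated_unit_mul_left x _ u.isUnit, h1, h2⟩
theorem exists_ray_inv (q : ℕ) (hm : m ≠ 0) (hx : x ≠ 0) (h : IsCoprime x m) :
    ∃ y, IsCoprime y m ∧ Ray q m (x * y) 1 := by
  obtain ⟨c, d, hc⟩ := h
  obtain ⟨y, hy, e, he⟩ := exists_R_inUq (q + 1) (inv_ne_zero (coe_ne_zero hx)) hm c
  refine ⟨y, ⟨x, d - x * e, by linear_combination hc + x * he⟩, ?_⟩
  refine (ray_of_inUq (Nat.le_add_left 1 q) ?_ ⟨x * e - d, ?_⟩).mono (Nat.le_succ q) dvd_rfl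
  · convert hy using 1
    rw [map_mul, map_one, div_one, div_inv_eq_mul, mul_comm]
  · linear_combination hc + x * he
theorem finite_ray (q : ℕ) (hm : m ≠ 0) :
    ∃ T : Finset (R K), ∀ x : R K, x ≠ 0 → ∃ α ∈ T, Ray q m x α := by
  classical
  obtain ⟨a, ha⟩ := exists_shift (K := K) one_ne_zero
  set I : Ideal (𝓞 K) := Ideal.span {(MM K : 𝓞 K) ^ (a + q)} * idl m with hI
  have hI0 : I ≠ ⊥ := mul_ne_zero
    (mt Ideal.span_singleton_eq_bot.1 (pow_ne_zero _ M_int_ne_zero)) (idl_ne_bot hm)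
  have := Ideal.finiteQuotientOfFreeOfNeBot I hI0
  have := Fintype.ofFinite (𝓞 K ⧸ I)
  let A : 𝓞 K ⧸ I → 𝓞 K → Prop := fun c y =>
    y ≠ 0 ∧ SIn 0 ((MM K : K) ^ a / y) ∧ Ideal.Quotient.mk I y = c
  refine ⟨Finset.univ.image fun c => algebraMap (𝓞 K) (R K) (Classical.epsilon (A c)),
    fun x hx => ?_⟩
  obtain ⟨t, h1, h2⟩ := ha x (coe_ne_zero hx)
  rw [pow_one, ← map_mul] at h1 h2
  obtain ⟨y, hy⟩ := sIn_R_iff0.1 h1
  have hy0 : y ≠ 0 := by
    rintro rfl
    exact mul_ne_zero t.ne_zero hx (hy.trans (map_zero _))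
  have hA : A (Ideal.Quotient.mk I y) y := ⟨hy0, by rwa [hy, coe_int] at h2, rfl⟩
  obtain ⟨h3, h4, h5⟩ := Classical.epsilon_spec ⟨y, hA⟩
  refine ⟨_, Finset.mem_image_of_mem _ (Finset.mem_univ (Ideal.Quotient.mk I y)), ?_⟩
  generalize Classical.epsilon (A (Ideal.Quotient.mk I y)) = y' at h3 h4 h5 ⊢
  refine ⟨hx, int_ne_zero h3, t, ?_, ?_⟩
  · have h6 := Ideal.mul_le_left (Ideal.Quotient.eq.1 h5.symm)
    rw [Ideal.mem_span_singleton, ← sIn_int_iff] at h6
    have h7 := h6.mul_right h4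
    have h8 : (y' : K) ≠ 0 := by rw [← coe_int]; exact coe_ne_zero (int_ne_zero h3)
    rw [InUq, ← sIn_pow_mul_iff (a := a), hy, coe_int, coe_int]
    convert h7 using 1
    rw [show ((y - y' : 𝓞 K) : K) = y - y' from map_sub _ _ _]
    field_simp
  · rw [hy, ← map_sub, ← mem_idl]
    exact Ideal.mul_le_right (Ideal.Quotient.eq.1 h5.symm)
theorem exists_ray_pow (hq : 1 ≤ q) (hm : m ≠ 0) :
    ∃ k : ℕ, 0 < k ∧ ∀ x : R K, x ≠ 0 → IsCoprime x m → Ray q m (x ^ k) 1 := by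
  obtain ⟨T, hT⟩ := finite_ray q hm
  refine ⟨T.card.factorial, Nat.factorial_pos _, fun x hx hc => ?_⟩
  choose f hf hf' using fun i : ℕ => hT (x ^ i) (pow_ne_zero i hx)
  have key : ∀ i j : ℕ, i < j → j ≤ T.card → f i = f j → Ray q m (x ^ T.card.factorial) 1 := by
    intro i j hij hj e
    obtain ⟨d, rfl⟩ := Nat.exists_eq_add_of_le' hij.le
    have h1 : Ray q m (x ^ d * x ^ i) (1 * x ^ i) := by
      rw [← pow_add, one_mul]
      exact (hf' _).trans (e ▸ (hf' i).symm hq)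
    obtain ⟨c, hc'⟩ := Nat.dvd_factorial (show 0 < d by omega) (show d ≤ T.card by omega)
    have := (h1.cancel hc.pow_left).pow c
    rwa [← pow_mul, ← hc', one_pow] at this
  obtain ⟨i, hi, j, hj, hij, e⟩ := Finset.exists_ne_map_eq_of_card_lt_of_maps_to
    (s := Finset.range (T.card + 1)) (t := T) (by simp) (f := f) fun i _ => hf i
  rw [Finset.mem_range] at hi hj
  rcases lt_or_gt_of_ne hij with h | h
  · exact key i j h (by omega) e
  · exact key j i h (by omega) e.symm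
private theorem exists_avoid (x : R K) {L : R K} (hL : L ≠ 0) :
    ∃ e, IsCoprime x e ∧ ∀ p, Prime p → p ∣ L → p ∣ x ∨ p ∣ e := by
  induction L using UniqueFactorizationMonoid.induction_on_prime with
  | h₁ => exact absurd rfl hL
  | h₂ u hu =>
    exact ⟨1, isCoprime_one_right, fun p hp h => absurd (isUnit_of_dvd_unit h hu) hp.not_isUnit⟩
  | h₃ n p h0 hp ih =>
    obtain ⟨e, he, h⟩ := ih h0
    by_cases hpx : p ∣ x
    · refine ⟨e, he, fun r hr hd => ?_⟩
      rcases hr.dvd_or_dvd hd with h1 | h1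
      · exact Or.inl (h1.trans hpx)
      · exact h r hr h1
    · refine ⟨p * e, ((hp.irreducible.coprime_iff_not_dvd.2 hpx).symm).mul_right he,
        fun r hr hd => ?_⟩
      rcases hr.dvd_or_dvd hd with h1 | h1
      · exact Or.inr (h1.mul_right e)
      · exact (h r hr h1).imp_right fun h2 => h2.mul_left p
private theorem exists_congr_coprime (h : IsCoprime x m) {L : R K} (hL : L ≠ 0) :
    ∃ e, IsCoprime (x + m * e) L := by
  obtain ⟨e, he, h1⟩ := exists_avoid x hL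
  refine ⟨e, isCoprime_of_prime_dvd (fun h => hL h.2) fun p hp h2 h3 => ?_⟩
  have h4 : p ∣ x := (h1 p hp h3).elim id fun h5 => (dvd_add_left (h5.mul_left m)).1 h2
  exact hp.not_isUnit ((h.mul_right he).isUnit_of_dvd' h4 ((dvd_add_right h4).1 h2))
private theorem exists_inUq_coprime' (q : ℕ) (hm : m ≠ 0) (hx : x ≠ 0) (h : IsCoprime x m)
    {L : R K} (hL : L ≠ 0) : ∃ y : R K, InUq q ((y : K) / x) ∧ m ∣ y - x ∧ IsCoprime y L := by
  obtain ⟨e, he⟩ := exists_congr_coprime h hL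
  obtain ⟨y, hy, c, hc⟩ := exists_R_inUq q (coe_ne_zero hx) (mul_ne_zero hm hL) (x + m * e)
  refine ⟨y, hy, ⟨e + L * c, by linear_combination hc⟩, ?_⟩
  have : y = x + m * e + L * (m * c) := by linear_combination hc
  rw [this]
  exact he.add_mul_left_left _
/-- every ray class contains chosen generators coprime to a given `L` -/
theorem exists_ray_coprime (q : ℕ) (hm : m ≠ 0) (hx : x ≠ 0) (h : IsCoprime x m) {L : R K}
    (hL : L ≠ 0) : ∃ y, Prim y ∧ Ray q m y x ∧ IsCoprime y L := by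
  obtain ⟨y, h1, h2, h3⟩ := exists_inUq_coprime' (q + 1) hm hx h hL
  have h4 := (ray_of_inUq (Nat.le_add_left 1 q) h1 h2).mono (Nat.le_succ q) dvd_rfl
  exact ⟨pp y, prim_pp h4.1, ray_pp_left.2 h4, h3.of_isCoprime_of_dvd_left (associated_pp y).symm.dvd⟩
/-- the same inside `x U_q` -/
theorem exists_inUq_coprime (q : ℕ) (hm : m ≠ 0) (hx : x ≠ 0) (h : IsCoprime x m) {L : R K}
    (hL : L ≠ 0) : ∃ y : R K, InUq q ((y : K) / x) ∧ m ∣ y - x ∧ IsCoprime y L := by
  exact exists_inUq_coprime' q hm hx h hL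

theorem cg_refl (hx : x ≠ 0) : Cg x x := ray_refl 10 1 hx
theorem Cg.symm (h : Cg x y) : Cg y x := Ray.symm (by norm_num) h
theorem cg_comm : Cg x y ↔ Cg y x := ⟨Cg.symm, Cg.symm⟩
theorem cg_of_inU (h : InU ((x : K) / y)) : Cg x y := ray_of_inUq (by norm_num) h (one_dvd _)
theorem cg_of_associated (hx : x ≠ 0) (h : Associated x y) : Cg x y := ray_of_associated 10 1 hx h
theorem Cg.cancel (h : Cg (x * z) (y * z)) : Cg x y := Ray.cancel h isCoprime_one_right
theorem exists_cg_coprime (hx : x ≠ 0) {L : R K} (hL : L ≠ 0) :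
    ∃ y, Prim y ∧ Cg y x ∧ IsCoprime y L :=
  exists_ray_coprime 10 one_ne_zero hx isCoprime_one_right hL
theorem ClF.associated {φ : R K → ℂ} (h : ClF φ) (hxy : Associated x y) : φ x = φ y := by
  by_cases hx : x = 0
  · rw [hx, hxy.eq_zero_iff.1 hx]
  · exact h _ _ (cg_of_associated hx hxy)
theorem ClF.mul {φ ψ : R K → ℂ} (h : ClF φ) (h' : ClF ψ) : ClF fun x => φ x * ψ x :=
  fun x y e => by simp only [h x y e, h' x y e]
theorem ClF.mul_left {φ : R K → ℂ} (h : ClF φ) (hz : z ≠ 0) : ClF fun x => φ (z * x) :=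
  fun _ _ e => h _ _ (e.mul_left hz)
theorem clF_ind (α : R K) : ClF fun x => ind (Cg x α) := by
  exact fun x y h => ind_congr ⟨fun h' => h.symm.trans h', fun h' => h.trans h'⟩

private theorem eqv_ray (hq : 1 ≤ q) (h : Relation.EqvGen (Ray q 1) x y) : x = y ∨ Ray q 1 x y := by
  induction h with
  | rel _ _ h => exact Or.inr h
  | refl => exact Or.inl rfl
  | symm _ _ _ ih => exact ih.imp Eq.symm (Ray.symm hq)
  | trans _ _ _ _ _ ih ih' =>
    rcases ih with rfl | ih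
    · exact ih'
    · rcases ih' with rfl | ih'
      · exact Or.inr ih
      · exact Or.inr (ih.trans ih')
theorem ray_crep (hq : 1 ≤ q) (hx : x ≠ 0) : Ray q 1 x (crep q x) := by
  rcases eqv_ray hq (Quot.eq.1 (Quot.out_eq (Quot.mk (Ray q 1) x)).symm) with h | h
  · exact ray_of_associated q 1 hx (Associated.of_eq h)
  · exact h
theorem crep_ne_zero (hq : 1 ≤ q) (hx : x ≠ 0) : crep q x ≠ 0 := (ray_crep hq hx).right_ne
theorem Ray.crep_eq (h : Ray q 1 x y) : crep q x = crep q y := by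
  rw [crep, crep, Quot.sound h]
theorem crep_eq_iff (hq : 1 ≤ q) (hx : x ≠ 0) (hy : y ≠ 0) : crep q x = crep q y ↔ Ray q 1 x y := by
  exact ⟨fun h => (ray_crep hq hx).trans (h ▸ (ray_crep hq hy).symm hq), Ray.crep_eq⟩
theorem crep_crep (q : ℕ) (x : R K) : crep q (crep q x) = crep q x := by
  rw [crep, crep, Quot.out_eq]
theorem mem_creps {α : R K} : α ∈ creps K q ↔ ∃ x : R K, x ≠ 0 ∧ α = crep q x := by
  have h : {y | ∃ x : R K, x ≠ 0 ∧ y = crep q x}.Finite := by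
    obtain ⟨T, hT⟩ := finite_ray q (one_ne_zero (α := R K))
    refine (T.finite_toSet.image (crep q)).subset ?_
    rintro _ ⟨x, hx, rfl⟩
    obtain ⟨α, h1, h2⟩ := hT x hx
    exact ⟨α, h1, h2.crep_eq.symm⟩
  rw [creps, dif_pos h, Set.Finite.mem_toFinset, Set.mem_ofPred_eq]
theorem crep_mem_creps (hx : x ≠ 0) : crep q x ∈ creps K q := mem_creps.2 ⟨x, hx, rfl⟩
theorem ne_zero_of_mem_creps (hq : 1 ≤ q) {α : R K} (h : α ∈ creps K q) : α ≠ 0 := by
  obtain ⟨x, hx, rfl⟩ := mem_creps.1 h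
  exact crep_ne_zero hq hx
theorem crep_of_mem {α : R K} (h : α ∈ creps K q) : crep q α = α := by
  obtain ⟨x, -, rfl⟩ := mem_creps.1 h
  exact crep_crep q x
theorem ray_iff_crep (hq : 1 ≤ q) (hx : x ≠ 0) {α : R K} (h : α ∈ creps K q) :
    Ray q 1 x α ↔ crep q x = α := by
  rw [← crep_eq_iff hq hx (ne_zero_of_mem_creps hq h), crep_of_mem h]
theorem creps_spec (hq : 1 ≤ q) (hx : x ≠ 0) : ∃! α, α ∈ creps K q ∧ Ray q 1 x α := by
  exact ⟨crep q x, ⟨crep_mem_creps hx, ray_crep hq hx⟩,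
    fun α h => ((ray_iff_crep hq hx h.1).1 h.2).symm⟩
theorem sum_creps_ind (hq : 1 ≤ q) (hx : x ≠ 0) : ∑ α ∈ creps K q, ind (Ray q 1 x α) = 1 := by
  rw [Finset.sum_eq_single_of_mem _ (crep_mem_creps hx), ind_of (ray_crep hq hx)]
  exact fun α h1 h2 => ind_of_not fun h => h2 ((ray_iff_crep hq hx h1).1 h).symm
theorem sum_cg_ind (hx : x ≠ 0) : ∑ α ∈ creps K 10, ind (Cg x α) = 1 :=
  sum_creps_ind (by norm_num) hx
theorem ClF.eq_sum {φ : R K → ℂ} (h : ClF φ) (hx : x ≠ 0) :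
    φ x = ∑ α ∈ creps K 10, φ α * ind (Cg x α) := by
  have h10 : 1 ≤ 10 := by norm_num
  rw [Finset.sum_eq_single_of_mem _ (crep_mem_creps hx), ind_of (ray_crep h10 hx), mul_one]
  · exact h _ _ (ray_crep h10 hx)
  · exact fun α h1 h2 => by
      rw [ind_of_not fun h => h2 ((ray_iff_crep h10 hx h1).1 h).symm, mul_zero]

theorem mem_EU {u : (R K)ˣ} : u ∈ EU K ↔ InU ((u : R K) : K) := by
  refine ⟨fun h => ?_, fun h => Subgroup.subset_closure h⟩
  induction h using Subgroup.closure_induction with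
  | mem _ h => exact h
  | one => simpa using inUq_one (K := K) 10
  | mul _ _ _ _ h h' => simpa using InUq.mul h h'
  | inv _ _ h => rw [coe_unit_inv]; exact h.inv (by norm_num)
private theorem int_unit_of_sIn {u : (R K)ˣ} (h : SIn 0 ((u : R K) : K))
    (h' : SIn 0 ((u : R K) : K)⁻¹) : ∃ ε : (𝓞 K)ˣ, (u : R K) = algebraMap (𝓞 K) (R K) ε := by
  rw [← coe_unit_inv] at h'
  obtain ⟨s, hs⟩ := sIn_R_iff0.1 h
  obtain ⟨t, ht⟩ := sIn_R_iff0.1 h'
  have : s * t = 1 := algebraMap_R_injective K (by rw [map_mul, ← hs, ← ht, u.mul_inv, map_one])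
  exact ⟨Units.mkOfMulEqOne s t this, hs⟩
theorem exists_int_unit (hq : 1 ≤ q) {u : (R K)ˣ} (h : InUq q ((u : R K) : K)) :
    ∃ ε : (𝓞 K)ˣ, (u : R K) = algebraMap (𝓞 K) (R K) ε := by
  exact int_unit_of_sIn h.sIn (h.inv hq).sIn
theorem nK_EU {u : (R K)ˣ} (h : u ∈ EU K) : nK ((u : R K) : K) = 1 := by
  obtain ⟨ε, hε⟩ := exists_int_unit (by norm_num) (mem_EU.1 h)
  rw [hε, coe_int, nK_unit]
theorem EU_torsion_free {u : (R K)ˣ} (h : u ∈ EU K) {k : ℕ} (hk : k ≠ 0) (e : u ^ k = 1) :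
    u = 1 := by
  obtain ⟨t, ht⟩ := SIn.exists_int (mem_EU.1 h) (sub_mem (coe_mem _) (one_mem _))
  by_cases h0 : t = 0
  · rw [h0, show ((0 : 𝓞 K) : K) = 0 from map_zero _, mul_zero, sub_eq_zero] at ht
    exact Units.ext (coe_inj.1 (ht.trans (map_one _).symm))
  exfalso
  have h1 : ∀ v : Pl K, ‖ev v (((u : R K) : K) - 1)‖ ^ 2 ≤ 2 ^ 2 := fun v => by
    have h2 : ‖ev v ((u : R K) : K)‖ ^ k = 1 := by
      rw [← norm_pow, ← ev_pow, ← map_pow, ← Units.val_pow_eq_pow_val, e, Units.val_one, map_one,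
        show ev v (1 : K) = 1 from map_one _, norm_one]
    rw [pow_eq_one_iff_of_nonneg (norm_nonneg _) hk] at h2
    refine pow_le_pow_left₀ (norm_nonneg _) ?_ 2
    rw [ev_sub, show ev v (1 : K) = 1 from map_one _]
    refine (norm_sub_le _ _).trans ?_
    rw [h2, norm_one]; norm_num
  have h2 := Finset.prod_le_prod (s := Finset.univ) (fun v _ => sq_nonneg _) fun v _ => h1 v
  rw [prod_norm_ev, Finset.prod_const, Finset.card_univ, ← pow_mul, two_mul_card_Pl, ht, nK_mul,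
    nK_pow, nK_natCast] at h2
  have h3 := one_le_nK h0
  have h4 : (6 : ℝ) ≤ MM K := by exact_mod_cast six_le_M
  have h5 : (2 : ℝ) ^ Module.finrank ℚ K < (MM K : ℝ) ^ Module.finrank ℚ K :=
    pow_lt_pow_left₀ (by linarith) (by norm_num) Module.finrank_pos.ne'
  have h6 : (1 : ℝ) ≤ (MM K : ℝ) ^ Module.finrank ℚ K := one_le_pow₀ (by linarith)
  have h7 := le_self_pow₀ h6 (n := 10) (by norm_num)
  have h8 := le_mul_of_one_le_right (by positivity : 0 ≤ ((MM K : ℝ) ^ Module.finrank ℚ K) ^ 10) h3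
  linarith
/-- the map `(𝓞 K)ˣ → (R K)ˣ` -/
noncomputable def uOR (K : Type) [Field K] [NumberField K] [Stp K] : (𝓞 K)ˣ →* (R K)ˣ :=
  Units.map (algebraMap (𝓞 K) (R K)).toMonoidHom
theorem val_uOR (ε : (𝓞 K)ˣ) : ((uOR K ε : (R K)ˣ) : R K) = algebraMap (𝓞 K) (R K) ε := rfl
theorem coe_uOR (ε : (𝓞 K)ˣ) : (((uOR K ε : (R K)ˣ) : R K) : K) = ((ε : 𝓞 K) : K) := coe_int _
theorem uOR_injective : Function.Injective (uOR K) := by
  exact fun a b h => Units.ext (algebraMap_R_injective K (congrArg Units.val h))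
theorem mem_range_uOR {u : (R K)ˣ} :
    u ∈ (uOR K).range ↔ SIn 0 ((u : R K) : K) ∧ SIn 0 ((u : R K) : K)⁻¹ := by
  constructor
  · rintro ⟨ε, rfl⟩
    rw [← coe_unit_inv, ← map_inv, coe_uOR, coe_uOR]
    exact ⟨sIn_int _, sIn_int _⟩
  · rintro ⟨h, h'⟩
    obtain ⟨ε, hε⟩ := int_unit_of_sIn h h'
    exact ⟨ε, Units.ext hε.symm⟩
/-- the units of `𝓞 K` that are `≡ 1 mod I` -/
def EI (I : Ideal (𝓞 K)) : Subgroup (𝓞 K)ˣ := (Units.map (Ideal.Quotient.mk I).toMonoidHom).ker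
omit [NumberField K] [Stp K] in
theorem mem_EI {I : Ideal (𝓞 K)} {ε : (𝓞 K)ˣ} : ε ∈ EI I ↔ (ε : 𝓞 K) - 1 ∈ I := by
  rw [EI, MonoidHom.mem_ker, Units.ext_iff, ← Ideal.Quotient.eq, map_one]
  rfl
omit [Stp K] in
theorem finiteIndex_EI {I : Ideal (𝓞 K)} (hI : I ≠ ⊥) : (EI I).FiniteIndex := by
  have := Ideal.finiteQuotientOfFreeOfNeBot I hI
  exact Subgroup.finiteIndex_ker _
theorem comap_EU : (EU K).comap (uOR K) = EI (lev K 10) := by
  ext ε
  rw [Subgroup.mem_comap, mem_EU, mem_EI, coe_uOR, lev, Ideal.mem_span_singleton]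
  exact inUq_int_iff
theorem map_EI : (EI (lev K 10)).map (uOR K) = EU K := by
  rw [← comap_EU]
  refine Subgroup.map_comap_eq_self fun u hu => ?_
  obtain ⟨ε, hε⟩ := exists_int_unit (by norm_num) (mem_EU.1 hu)
  exact ⟨ε, Units.ext hε.symm⟩
theorem EU_le_range : EU K ≤ (uOR K).range := by
  rw [← map_EI]; exact Subgroup.map_le_range _ _
/-- coset representatives of `EU` in `(𝓞 K)ˣ` -/
theorem exists_EU_reps : ∃ T : Finset (𝓞 K)ˣ, ∀ ε : (𝓞 K)ˣ, ∃! τ, τ ∈ T ∧ uOR K (ε * τ⁻¹) ∈ EU K := by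
  classical
  have := finiteIndex_EI (I := lev K 10)
    (mt Ideal.span_singleton_eq_bot.1 (pow_ne_zero _ M_int_ne_zero))
  have := Fintype.ofFinite ((𝓞 K)ˣ ⧸ EI (lev K 10))
  have key : ∀ ε τ : (𝓞 K)ˣ, uOR K (ε * τ⁻¹) ∈ EU K ↔
      (τ : (𝓞 K)ˣ ⧸ EI (lev K 10)) = ε := fun ε τ => by
    rw [QuotientGroup.eq, ← comap_EU, Subgroup.mem_comap, mul_comm]
  refine ⟨Finset.univ.image (Quotient.out : (𝓞 K)ˣ ⧸ EI (lev K 10) → (𝓞 K)ˣ), fun ε =>
    ⟨_, ⟨Finset.mem_image_of_mem _ (Finset.mem_univ (ε : (𝓞 K)ˣ ⧸ EI (lev K 10))), ?_⟩, ?_⟩⟩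
  · rw [key, QuotientGroup.out_eq']
  · rintro τ ⟨h1, h2⟩
    obtain ⟨c, -, rfl⟩ := Finset.mem_image.1 h1
    rw [key, QuotientGroup.out_eq'] at h2
    rw [h2]
theorem exists_EU_of_associated (h : Associated x y) (h' : InU ((y : K) / x)) :
    ∃ u ∈ EU K, y = (u : R K) * x := by
  have hx := (div_ne_zero_iff.1 (h'.ne_zero (by norm_num))).2
  obtain ⟨u, rfl⟩ := h
  rw [map_mul, mul_div_cancel_left₀ _ hx] at h'
  exact ⟨u, mem_EU.2 h', mul_comm _ _⟩

theorem KQ_eq {x y : K} : (Quot.mk _ x : KQ K) = Quot.mk _ y ↔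
    ∃ u ∈ EU K, y = ((u : R K) : K) * x := by
  rw [Quot.eq]
  refine Equivalence.eqvGen_iff ⟨fun x => ⟨1, one_mem _, by simp⟩, ?_, ?_⟩
  · rintro x _ ⟨u, hu, rfl⟩
    exact ⟨u⁻¹, inv_mem hu, by rw [coe_unit_inv, inv_mul_cancel_left₀ (coe_unit_ne_zero u)]⟩
  · rintro x _ _ ⟨u, hu, rfl⟩ ⟨u', hu', rfl⟩
    exact ⟨u' * u, mul_mem hu' hu, by rw [Units.val_mul, map_mul, mul_assoc]⟩
theorem RQ_eq : (Quot.mk _ x : RQ K) = Quot.mk _ y ↔ ∃ u ∈ EU K, y = (u : R K) * x := by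
  rw [Quot.eq]
  refine Equivalence.eqvGen_iff ⟨fun x => ⟨1, one_mem _, by simp⟩, ?_, ?_⟩
  · rintro x _ ⟨u, hu, rfl⟩
    exact ⟨u⁻¹, inv_mem hu, by rw [Units.inv_mul_cancel_left]⟩
  · rintro x _ _ ⟨u, hu, rfl⟩ ⟨u', hu', rfl⟩
    exact ⟨u' * u, mul_mem hu' hu, by rw [Units.val_mul, mul_assoc]⟩
theorem RowQ_eq {r r' : R K × R K} : (Quot.mk _ r : RowQ K) = Quot.mk _ r' ↔
    ∃ u ∈ EU K, r' = ((u : R K) * r.1, (u : R K) * r.2) := by
  rw [Quot.eq]
  refine Equivalence.eqvGen_iff ⟨fun x => ⟨1, one_mem _, by simp⟩, ?_, ?_⟩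
  · rintro x _ ⟨u, hu, rfl⟩
    exact ⟨u⁻¹, inv_mem hu, by simp only [Units.inv_mul_cancel_left]⟩
  · rintro x _ _ ⟨u, hu, rfl⟩ ⟨u', hu', rfl⟩
    exact ⟨u' * u, mul_mem hu' hu, by simp only [Units.val_mul, mul_assoc]⟩
theorem KQ_out (x : K) : ∃ u ∈ EU K, (Quot.mk _ x : KQ K).out = ((u : R K) : K) * x :=
  KQ_eq.1 (Quot.out_eq _).symm
theorem RQ_out (x : R K) : ∃ u ∈ EU K, (Quot.mk _ x : RQ K).out = (u : R K) * x :=
  RQ_eq.1 (Quot.out_eq _).symm
theorem RowQ_out (r : R K × R K) :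
    ∃ u ∈ EU K, (Quot.mk _ r : RowQ K).out = ((u : R K) * r.1, (u : R K) * r.2) :=
  RowQ_eq.1 (Quot.out_eq _).symm

theorem associated_ng (x : R K) : Associated (ng x) x := by
  unfold ng
  split_ifs with h
  · exact h.choose_spec.1
  · exact Associated.refl x
theorem ng_ne_zero (hx : x ≠ 0) : ng x ≠ 0 := (associated_ng x).ne_zero_iff.2 hx
theorem ng_zero : ng (0 : R K) = 0 := by
  exact (associated_ng 0).eq_zero_iff.2 rfl
theorem nm_ng (x : R K) : nm (ng x) = nm x := nm_of_associated (associated_ng x)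
theorem pp_ng (x : R K) : pp (ng x) = pp x := pp_eq_of_associated (associated_ng x)
private theorem ng_ex (hx : x ≠ 0) : ∃ y : R K, Associated y x ∧ InU ((y : K) / crep 10 x) := by
  obtain ⟨y, h1, h2, -⟩ := (ray_crep (q := 10) (by norm_num) hx).exists_associated
  exact ⟨y, h1, h2⟩
theorem inU_ng (hx : x ≠ 0) : InU ((ng x : K) / crep 10 x) := by
  rw [ng, dif_pos (ng_ex hx)]
  exact (ng_ex hx).choose_spec.2
theorem ng_associated (h : Associated x y) : ng x = ng y := by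
  by_cases hx : x = 0
  · rw [hx, h.eq_zero_iff.1 hx]
  rw [ng, ng, dif_pos (ng_ex hx), dif_pos (ng_ex (h.ne_zero_iff.1 hx))]
  congr 1
  ext z
  rw [(cg_of_associated hx h).crep_eq]
  exact and_congr_left' ⟨fun e => e.trans h, fun e => e.trans h.symm⟩
theorem ng_pp (x : R K) : ng (pp x) = ng x := ng_associated (associated_pp x).symm
theorem ng_ng (x : R K) : ng (ng x) = ng x := ng_associated (associated_ng x)
theorem cg_ng (hx : x ≠ 0) : Cg (ng x) x := cg_of_associated (ng_ne_zero hx) (associated_ng x)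
theorem Cg.inU_ng (h : Cg x y) : InU ((ng x : K) / ng y) := by
  have h10 : 1 ≤ 10 := by norm_num
  have h1 := Vale.Agent.P016.N0.inU_ng h.left_ne
  rw [h.crep_eq] at h1
  exact h1.div_trans h10 ((Vale.Agent.P016.N0.inU_ng h.right_ne).div_symm h10)
theorem cg_iff_inU_ng (hx : x ≠ 0) (hy : y ≠ 0) : Cg x y ↔ InU ((ng x : K) / ng y) := by
  exact ⟨Cg.inU_ng, fun h => ((cg_ng hx).symm.trans (cg_of_inU h)).trans (cg_ng hy)⟩
theorem ng_unique (h : Associated y x) (h' : InU ((y : K) / crep 10 x)) :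
    ∃ u ∈ EU K, y = (u : R K) * ng x := by
  have h10 : 1 ≤ 10 := by norm_num
  have hy : y ≠ 0 := mt coe_eq_zero.2 (div_ne_zero_iff.1 (h'.ne_zero h10)).1
  exact exists_EU_of_associated ((associated_ng x).trans h.symm)
    (h'.div_trans h10 ((inU_ng (h.ne_zero_iff.1 hy)).div_symm h10))
theorem exists_unit_ng (x : R K) : ∃ u : (R K)ˣ, x = u * ng x := by
  obtain ⟨u, hu⟩ := associated_ng x
  exact ⟨u, by rw [mul_comm, hu]⟩
/-- if `x / y ∈ U` then `x / ng x` and `y / ng y` agree modulo `EU` -/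
theorem unit_ng_congr {u u' : (R K)ˣ} (h : InU ((x : K) / y)) (hx : x = u * ng x)
    (hy : y = u' * ng y) : u * u'⁻¹ ∈ EU K := by
  have h10 : 1 ≤ 10 := by norm_num
  have hc := cg_of_inU h
  have h1 := h.div h10 hc.inU_ng
  have h2 := coe_ne_zero (ng_ne_zero hc.left_ne)
  have h3 := coe_ne_zero (ng_ne_zero hc.right_ne)
  have h4 := coe_unit_ne_zero u'
  have hx' := congrArg (algebraMap (R K) K) hx
  have hy' := congrArg (algebraMap (R K) K) hy
  rw [map_mul] at hx' hy'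
  rw [mem_EU, Units.val_mul, map_mul, coe_unit_inv]
  convert h1 using 1
  rw [hx', hy']
  field_simp
/-- the cocycle of `ng` -/
theorem exists_delta : ∃ δ : R K → R K → (R K)ˣ,
    (∀ a a' b b', Cg a a' → Cg b b' → δ a b = δ a' b') ∧
      ∀ a b, a ≠ 0 → b ≠ 0 → ∃ u ∈ EU K, ng (a * b) = (u : R K) * δ a b * ng a * ng b := by
  have h10 : 1 ≤ 10 := by norm_num
  have hA : ∀ a b : R K, Associated (ng a * ng b) (ng (a * b)) := fun a b =>
    ((associated_ng a).mul_mul (associated_ng b)).trans (associated_ng _).symm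
  choose d hd using hA
  refine ⟨fun a b => d (crep 10 a) (crep 10 b), fun a a' b b' h h' => by
    simp only [h.crep_eq, h'.crep_eq], fun a b ha hb => ?_⟩
  have hc : Cg a (crep 10 a) := ray_crep h10 ha
  have hc' : Cg b (crep 10 b) := ray_crep h10 hb
  have h1 := ((Cg.inU_ng (hc.mul hc')).mul hc.symm.inU_ng).mul hc'.symm.inU_ng
  have h2 := coe_ne_zero (ng_ne_zero hc.right_ne)
  have h3 := coe_ne_zero (ng_ne_zero hc'.right_ne)
  obtain ⟨u, hu, e⟩ := exists_EU_of_associated (x := (d (crep 10 a) (crep 10 b) : R K) * (ng a * ng b))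
    (y := ng (a * b)) ((associated_unit_mul_left _ _ (Units.isUnit _)).trans ⟨_, hd a b⟩) (by
      convert h1 using 1
      rw [← hd (crep 10 a) (crep 10 b)]
      simp only [map_mul]
      field_simp)
  exact ⟨u, hu, by rw [e]; ring⟩

end Vale.Agent.P016.N0
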