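import Vale.Agent.P016.N0.LatUnf

/-! # P319 LAT: the Hecke-Poisson formula.
PLAN.  `Reps.equiv`: `T × J ≃ I`.  `gauss_pois`: `pois_shift` for each `y ∈ T`, `FT_gauss`, `chr_emb`.
`HP`: `theta_unfold` on both sides (`j = 1`, `c = Y^(-1/r)` with `DD`, `c = 4π² Y^(1/r)` with `-DD`, `integral_neg_eq_self`);
`fh` is `EU`-invariant since `u T` is again a system of representatives. -/

namespace Vale.Agent.P016.N0

open Vale.Agent.P319

open scoped ComplexConjugate Real ContDiff NumberField nonZeroDivisors Topology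
open MeasureTheory Filter Set

variable {K : Type} [Field K] [NumberField K] [Stp K]

omit [Stp K] in
theorem exists_reps {I J : FI K} (hJ : J ≠ 0) : ∃ T, Reps I J T := by
  classical
  let H : Submodule ℤ (I : Submodule (𝓞 K) K) := ((J : Submodule (𝓞 K) K).restrictScalars ℤ).comap
    ((I : Submodule (𝓞 K) K).subtype.restrictScalars ℤ)
  have hH : ∀ x y : (I : Submodule (𝓞 K) K),
      Submodule.Quotient.mk (p := H) x = Submodule.Quotient.mk y ↔ (x : K) - y ∈ J :=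
    fun x y => Submodule.Quotient.eq H
  obtain ⟨j, hj0, hj⟩ := FractionalIdeal.exists_ne_zero_mem_isInteger hJ
  have hj1 : algebraMap (𝓞 K) K j ≠ 0 := (map_ne_zero_iff _ (IsFractionRing.injective _ _)).2 hj0
  have : Finite ((I : Submodule (𝓞 K) K) ⧸ H) := by
    have : Module.Finite ℤ (I : Submodule (𝓞 K) K) := inferInstanceAs (Module.Finite ℤ I)
    refine Module.finite_of_fg_torsion _ fun q => ?_
    obtain ⟨y, rfl⟩ := Submodule.Quotient.mk_surjective H q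
    obtain ⟨n, hn, h⟩ := exists_integral_multiples ℤ ℚ {(y : K) / algebraMap (𝓞 K) K j}
    refine ⟨⟨n, mem_nonZeroDivisors_of_ne_zero hn⟩, ?_⟩
    rw [Submonoid.mk_smul, ← Submodule.Quotient.mk_smul, Submodule.Quotient.mk_eq_zero]
    have h2 := (J : Submodule (𝓞 K) K).smul_mem ⟨_, h _ (Finset.mem_singleton_self _)⟩ hj
    change (n • ((y : K) / algebraMap (𝓞 K) K j)) * algebraMap (𝓞 K) K j ∈ J at h2
    rw [smul_mul_assoc, div_mul_cancel₀ _ hj1] at h2
    exact h2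
  have := Fintype.ofFinite ((I : Submodule (𝓞 K) K) ⧸ H)
  refine ⟨Finset.univ.image fun q : (I : Submodule (𝓞 K) K) ⧸ H =>
    ((Quotient.out q : (I : Submodule (𝓞 K) K)) : K), ?_, fun y hy => ?_⟩
  · intro c hc
    obtain ⟨q, -, rfl⟩ := Finset.mem_image.1 hc
    exact (Quotient.out q).2
  · refine ⟨_, ⟨Finset.mem_image_of_mem _ (Finset.mem_univ (Submodule.Quotient.mk ⟨y, hy⟩)),
      (hH ⟨y, hy⟩ _).1 (Quotient.out_eq _).symm⟩, ?_⟩
    rintro c ⟨hc, h⟩
    obtain ⟨q, -, rfl⟩ := Finset.mem_image.1 hc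
    rw [(hH ⟨y, hy⟩ _).2 h]
    congr 2
    exact (Quotient.out_eq q).symm


omit [Stp K] in
theorem dl_ne_zero {I : FI K} (hI : I ≠ 0) : dl I ≠ 0 := FractionalIdeal.dual_ne_zero ℤ ℚ hI

theorem eTr_of_mem_dl {J : FI K} (hJ : J ≠ 0) {x ξ : K} (hx : x ∈ J) (hξ : ξ ∈ dl J) :
    eTr (x * ξ) = 1 := by
  rw [mul_comm]
  exact (mem_dual_iff hJ).1 hξ x hx


/-- sums of periodic functions do not depend on the representatives -/
theorem Reps.sum_eq {I J : FI K} {T T' : Finset K} (h : Reps I J T) (h' : Reps I J T') {f : K → ℂ}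
    (hf : ∀ x ∈ I, ∀ y ∈ J, f (x + y) = f x) : ∑ x ∈ T, f x = ∑ x ∈ T', f x := by
  choose τ hτ hu using h'.2
  refine Finset.sum_bij (fun x hx => τ x (h.1 x hx)) (fun x hx => (hτ x _).1)
    (fun x hx y hy e => ?_) (fun z hz => ?_) fun x hx => ?_
  · refine (h.2 x (h.1 x hx)).unique ⟨hx, by rw [sub_self]; exact J.zero_mem⟩ ⟨hy, ?_⟩
    have := (J : Submodule (𝓞 K) K).sub_mem (hτ x (h.1 x hx)).2 (hτ y (h.1 y hy)).2
    rw [show τ x _ = τ y _ from e, sub_sub_sub_cancel_right] at this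
    exact this
  · obtain ⟨y, ⟨hy, h1⟩, -⟩ := h.2 z (h'.1 z hz)
    refine ⟨y, hy, (hu y _ z ⟨hz, ?_⟩).symm⟩
    have := (J : Submodule (𝓞 K) K).neg_mem h1
    rwa [neg_sub] at this
  · have h1 := hτ x (h.1 x hx)
    rw [← hf _ (h'.1 _ h1.1) _ h1.2, add_sub_cancel]


omit [NumberField K] [Stp K] in
theorem Reps.bound {I J : FI K} {T : Finset K} (hT : Reps I J T) {f : K → ℂ}
    (hf : ∀ x ∈ I, ∀ y ∈ J, f (x + y) = f x) : ∀ x ∈ I, ‖f x‖ ≤ ∑ y ∈ T, ‖f y‖ := fun x hx => by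
  obtain ⟨y, ⟨hy, h⟩, -⟩ := hT.2 x hx
  rw [← add_sub_cancel y x, hf y (hT.1 y hy) _ h]
  exact Finset.single_le_sum (f := fun y => ‖f y‖) (fun _ _ => norm_nonneg _) hy

omit [NumberField K] [Stp K] in
theorem Reps.tsum_eq {I J : FI K} (hJI : J ≤ I) {T : Finset K} (hT : Reps I J T) {g : K → ℂ}
    (hg : Summable fun x : I => g x) : ∑' x : I, g x = ∑ y ∈ T, ∑' j : J, g (y + j) := by
  let φ : T × J → I := fun p => ⟨p.1 + p.2, (I : Submodule (𝓞 K) K).add_mem (hT.1 _ p.1.2)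
    (hJI p.2.2)⟩
  have hφ : Function.Bijective φ := by
    constructor
    · rintro ⟨i, j⟩ ⟨i', j'⟩ h
      have h1 : (i : K) + j = i' + j' := congrArg Subtype.val h
      have h2 : i = i' := Subtype.ext ((hT.2 _ (φ (i, j)).2).unique
        ⟨i.2, by simp [φ]⟩ ⟨i'.2, by simp [φ, h1]⟩)
      subst h2
      exact Prod.ext rfl (Subtype.ext (add_left_cancel h1))
    · intro y
      obtain ⟨i, ⟨hi, hj⟩, -⟩ := hT.2 y y.2
      exact ⟨(⟨i, hi⟩, ⟨_, hj⟩), Subtype.ext (by simp [φ])⟩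
  have h2 := ((Equiv.ofBijective φ hφ).summable_iff.2 hg).tsum_prod
  simp only [Function.comp] at h2
  rw [← (Equiv.ofBijective φ hφ).tsum_eq, h2, tsum_fintype, ← Finset.sum_coe_sort T]
  rfl

private theorem summable_gauss {I : FI K} (hI : I ≠ 0) {a : Pl K → ℝ} (ha : ∀ v, 0 < a v)
    {g : K → ℂ} {B : ℝ} (hg : ∀ x ∈ I, ‖g x‖ ≤ B) :
    Summable fun x : I => g x * (Real.exp (-∑ v, a v * ‖ev v (x : K)‖ ^ 2) : ℂ) := by
  have h := summable_theta hI ha one_pos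
  simp only [pow_one] at h
  refine Summable.of_norm_bounded (h.mul_left B) fun x => ?_
  rw [norm_mul, Complex.norm_real, Real.norm_of_nonneg (Real.exp_pos _).le]
  exact mul_le_mul_of_nonneg_right (hg x x.2) (Real.exp_pos _).le

theorem gauss_pois {I J : FI K} (hJ : J ≠ 0) (hJI : J ≤ I) {T : Finset K} (hT : Reps I J T) {f : K → ℂ}
    (hf : ∀ x ∈ I, ∀ y ∈ J, f (x + y) = f x) {a : Pl K → ℝ} (ha : ∀ v, 0 < a v) :
    ∑' x : I, f x * (Real.exp (-∑ v, a v * ‖ev v (x : K)‖ ^ 2) : ℂ) =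
      (c0 K / ((FractionalIdeal.absNorm J : ℚ) * ∏ v, a v) : ℝ) *
        ∑' ξ : dl J, (∑ x ∈ T, f x * eTr (x * ξ)) *
          (Real.exp (-∑ v, 4 * π ^ 2 / a v * ‖ev v (ξ : K)‖ ^ 2) : ℂ) := by
  have hI : I ≠ 0 := fun h => hJ (le_antisymm (h ▸ hJI) (FractionalIdeal.zero_le J))
  have hπ := Real.pi_pos
  have ha' : ∀ v, 0 < 4 * π ^ 2 / a v := fun v => by have := ha v; positivity
  obtain ⟨C, hC⟩ := exp_decay ha one_pos (2 * rr K + 1)
  simp only [pow_one] at hC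
  have hs : Summable fun ξ : dl J =>
      FT (fun x => (Real.exp (-∑ v, a v * ‖x v‖ ^ 2) : ℂ)) (emb (ξ : K)) := by
    simp only [FT_gauss ha, Complex.ofReal_mul]
    exact summable_gauss (dl_ne_zero hJ) ha' (g := fun _ => ((π ^ rr K / ∏ v, a v : ℝ) : ℂ))
      fun _ _ => le_rfl
  have key := fun y : K => pois_shift hJ (f := fun x => (Real.exp (-∑ v, a v * ‖x v‖ ^ 2) : ℂ))
    (by fun_prop) (fun x => by
      rw [Complex.norm_real, Real.norm_of_nonneg (Real.exp_pos _).le]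
      exact hC x) hs (emb y)
  simp only [FT_gauss ha, chr_emb, ← emb_add] at key
  rw [hT.tsum_eq hJI (g := fun x => f x * (Real.exp (-∑ v, a v * ‖ev v x‖ ^ 2) : ℂ))
    (summable_gauss hI ha (hT.bound hf))]
  simp only [Finset.sum_mul]
  rw [Summable.tsum_finsetSum fun y _ => summable_gauss (dl_ne_zero hJ) ha'
    (g := fun ξ => f y * eTr (y * ξ)) (B := ‖f y‖) fun ξ _ => by rw [norm_mul, norm_eTr, mul_one],
    Finset.mul_sum]
  refine Finset.sum_congr rfl fun y hy => ?_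
  have e1 : ∀ j : J, f (y + j) * (Real.exp (-∑ v, a v * ‖ev v (y + j)‖ ^ 2) : ℂ) =
      f y * (Real.exp (-∑ v, a v * ‖emb ((j : K) + y) v‖ ^ 2) : ℂ) := fun j => by
    rw [hf y (hT.1 y hy) j j.2, add_comm y]
    rfl
  simp only [e1]
  rw [tsum_mul_left, key, ← tsum_mul_left, ← tsum_mul_left, ← tsum_mul_left]
  refine tsum_congr fun ξ => ?_
  have e2 : c0 K / ((FractionalIdeal.absNorm J : ℚ) * ∏ v, a v) =
      (cvol J)⁻¹ * (π ^ rr K / ∏ v, a v) := by
    rw [c0, cvol, covol, mul_pow]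
    field_simp
  rw [e2, mul_comm y, Complex.ofReal_mul, Complex.ofReal_mul, Complex.ofReal_inv]
  simp only [emb_apply]
  ring


theorem HP {I J : FI K} (hJ : J ≠ 0) (hJI : J ≤ I) {T : Finset K} (hT : Reps I J T) {f : K → ℂ}
    (hf : ∀ x ∈ I, ∀ y ∈ J, f (x + y) = f x)
    (hu : ∀ u ∈ EU K, ∀ x ∈ I, f (((u : R K) : K) * x) = f x) {Y : ℝ} (hY : 0 < Y) :
    ∑' x : KQ K, ind (x.out ∈ I ∧ x.out ≠ 0) * f x.out * KK K (nK x.out / Y) + VV K * f 0 =
      (c0 K * Y / (FractionalIdeal.absNorm J : ℚ) : ℝ) *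
        (∑' ξ : KQ K, ind (ξ.out ∈ dl J ∧ ξ.out ≠ 0) * (∑ x ∈ T, f x * eTr (x * ξ.out)) *
          KK K ((4 * π ^ 2) ^ rr K * Y * nK ξ.out) + VV K * ∑ x ∈ T, f x) := by
  classical
  have hI : I ≠ 0 := fun h => hJ (le_antisymm (h ▸ hJI) (FractionalIdeal.zero_le J))
  have hπ := Real.pi_pos
  have hr : rr K ≠ 0 := rr_pos.ne'
  set y : ℝ := Y ^ ((rr K : ℝ)⁻¹) with hy
  have hy0 : 0 < y := by positivity
  have hyr : y ^ rr K = Y := Real.rpow_inv_natCast_pow hY.le hr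
  have hD : UF (EU K) ((1 : ℕ) : ℝ) (DD K) := by simpa using uf_DD
  have h1 := (theta_unfold hI (hT.bound hf) hu (inv_pos.2 hy0) one_pos hD).2
  have hu' : ∀ u ∈ EU K, ∀ ξ ∈ dl J, ∑ x ∈ T, f x * eTr (x * (((u : R K) : K) * ξ)) =
      ∑ x ∈ T, f x * eTr (x * ξ) := fun u hu0 ξ hξ => by
    have hu1 := unit_ne_zero u
    have hT' : Reps I J (T.image fun x => ((u : R K) : K) * x) := by
      refine ⟨fun x hx => ?_, fun x hx => ?_⟩
      · obtain ⟨z, hz, rfl⟩ := Finset.mem_image.1 hx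
        exact (EU_mul_mem hu0).2 (hT.1 z hz)
      · obtain ⟨w, rfl⟩ : ∃ w, x = ((u : R K) : K) * w := ⟨_, (mul_inv_cancel_left₀ hu1 x).symm⟩
        obtain ⟨z, ⟨hz, h⟩, h'⟩ := hT.2 w ((EU_mul_mem hu0).1 hx)
        refine ⟨_, ⟨Finset.mem_image_of_mem _ hz, ?_⟩, ?_⟩
        · rw [← mul_sub]
          exact (EU_mul_mem hu0).2 h
        · rintro _ ⟨hz', h2⟩
          obtain ⟨z', hz1, rfl⟩ := Finset.mem_image.1 hz'
          rw [← mul_sub, EU_mul_mem hu0] at h2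
          rw [h' z' ⟨hz1, h2⟩]
    rw [hT.sum_eq hT' (f := fun x => f x * eTr (x * ξ)) fun x hx z hz => by
      rw [hf x hx z hz, add_mul, eTr_add, eTr_of_mem_dl hJ hz hξ, mul_one],
      Finset.sum_image (mul_right_injective₀ hu1).injOn]
    refine Finset.sum_congr rfl fun x hx => ?_
    rw [hu u hu0 x (hT.1 x hx), mul_left_comm, mul_assoc]
  have h2 := (theta_unfold (dl_ne_zero hJ) (f := fun ξ => ∑ x ∈ T, f x * eTr (x * ξ))
    (B := ∑ x ∈ T, ‖f x‖) (fun ξ _ => (norm_sum_le _ _).trans (by simp [norm_eTr])) hu'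
    (c := 4 * π ^ 2 * y) (by positivity) one_pos hD.neg).2
  rw [← (Measure.measurePreserving_neg volume).setIntegral_preimage_emb measurableEmbedding_neg,
    Measure.measure_neg, show Neg.neg ⁻¹' (-DD K) = DD K from neg_neg (DD K)] at h2
  simp only [pow_one, inv_pow, hyr, mul_pow _ y, mul_zero, eTr_zero, mul_one,
    ← div_eq_inv_mul] at h1 h2
  rw [VV, ← h1, ← h2, ← integral_const_mul]
  refine integral_congr_ae (Eventually.of_forall fun t => ?_)
  have h3 := gauss_pois hJ hJI hT hf (a := fun v => Real.exp (ex t v) / y) fun v => by positivity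
  have e1 : ∏ v, Real.exp (ex t v) / y = Y⁻¹ := by
    rw [Finset.prod_div_distrib, ← Real.exp_sum, sum_ex, Finset.prod_const, Finset.card_univ, hyr,
      Real.exp_zero, one_div]
  have e2 : ∀ v, 4 * π ^ 2 / (Real.exp (ex t v) / y) = 4 * π ^ 2 * y * Real.exp (ex (-t) v) :=
    fun v => by
    rw [ex_neg, Real.exp_neg]
    field_simp
  simp only [e1, e2] at h3
  simp only
  rw [h3]
  congr 2
  field_simp


/-- `N (dl J) = 1 / (N J |D|)`; so `(4π²)^r nK ξ = c0² N(ξ / dl J) / N J` -/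
theorem absNorm_dl {J : FI K} (hJ : J ≠ 0) :
    ((FractionalIdeal.absNorm (dl J) : ℚ) : ℝ) =
      1 / ((FractionalIdeal.absNorm J : ℚ) * |(NumberField.discr K : ℝ)|) := by
  have h1 := congrArg FractionalIdeal.absNorm (FractionalIdeal.dual_mul_self ℤ ℚ hJ)
  have h2 := congrArg FractionalIdeal.absNorm (coeIdeal_differentIdeal ℤ ℚ K (𝓞 K))
  rw [FractionalIdeal.coeIdeal_absNorm, NumberField.absNorm_differentIdeal K, map_inv₀, ← h1,
    map_mul] at h2
  have h3 := congrArg (fun x : ℚ => (x : ℝ)) h2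
  have h4 := absNorm_FI_pos hJ
  have h5 := absNorm_FI_pos (dl_ne_zero hJ)
  push_cast at h3
  rw [Nat.cast_natAbs, Int.cast_abs] at h3
  rw [h3]
  field_simp


theorem c0_sq : c0 K ^ 2 = (4 * π ^ 2) ^ rr K / |(NumberField.discr K : ℝ)| := by
  rw [c0, div_pow, Real.sq_sqrt (abs_nonneg _), ← pow_mul, mul_comm (rr K), pow_mul]
  congr 2
  ring


end Vale.Agent.P016.N0
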