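import Vale.Agent.P016.N0.LatDefs

/-! # P319 LAT: the Hecke kernel. -/

namespace Vale.Agent.P016.N0

open Vale.Agent.P319

open scoped ComplexConjugate Real ContDiff NumberField nonZeroDivisors Topology
open MeasureTheory Filter Set

variable {K : Type} [Field K] [NumberField K] [Stp K]

theorem KK_shift {a : Pl K → ℝ} (ha : ∀ v, 0 < a v) (t : HH K) :
    (∏ v, a v) ^ (1 / (rr K : ℝ)) * ∑ v, Real.exp (ex (t + pr fun v => Real.log (a v)) v) =
      ∑ v, a v * Real.exp (ex t v) := by
  rw [Finset.mul_sum]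
  refine Finset.sum_congr rfl fun v _ => ?_
  rw [Real.rpow_def_of_pos (Finset.prod_pos fun v _ => ha v), Real.log_prod fun v _ => (ha v).ne',
    ex_add, ex_pr, ← Real.exp_add]
  conv_rhs => rw [← Real.exp_log (ha v), ← Real.exp_add]
  congr 1
  ring

theorem KK_eq {a : Pl K → ℝ} (ha : ∀ v, 0 < a v) :
    KK K (∏ v, a v) = ∫ t : HH K, Real.exp (-∑ v, a v * Real.exp (ex t v)) := by
  rw [KK, ← integral_add_right_eq_self _ (pr fun v => Real.log (a v))]
  simp only [KK_shift ha]

/-- the weight of the asymmetric form -/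
noncomputable def wK (t : HH K) : ℝ := ∏ w, Real.exp (-Real.exp (t w))

theorem wK_pos (t : HH K) : 0 < wK t := Finset.prod_pos fun _ _ => Real.exp_pos _

theorem continuous_wK : Continuous (wK : HH K → ℝ) := by
  unfold wK
  fun_prop

theorem asym_form (y : ℝ) (t : HH K) :
    Real.exp (-∑ v, (if v = v0 K then y else 1) * Real.exp (ex t v)) =
      wK t * Real.exp (-(y * Real.exp (-∑ w, t w))) := by
  have h : ∀ w : {v : Pl K // v ≠ v0 K}, (if w.1 = v0 K then y else 1) * Real.exp (ex t w.1) =
      Real.exp (t w) := fun w => by rw [if_neg w.2, one_mul, ex_ne]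
  rw [sum_split, if_pos rfl, ex_v0, wK, ← Real.exp_sum, ← Real.exp_add, Finset.sum_neg_distrib]
  simp only [h]
  congr 1
  ring

theorem asym_pos {y : ℝ} (hy : 0 < y) (v : Pl K) : 0 < if v = v0 K then y else 1 := by
  split_ifs
  exacts [hy, one_pos]

theorem asym_prod (y : ℝ) : (∏ v : Pl K, if v = v0 K then y else 1) = y := by simp

theorem KK_asym {y : ℝ} (hy : 0 < y) :
    KK K y = ∫ t : HH K, wK t * Real.exp (-(y * Real.exp (-∑ w, t w))) := by
  have h := KK_eq (asym_pos (K := K) hy)
  rw [asym_prod] at h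
  simp only [h, asym_form]

theorem lat_exp_cpow (τ : ℝ) (s : ℂ) : ((Real.exp τ : ℝ) : ℂ) ^ s = Complex.exp (τ * s) := by
  rw [Complex.cpow_def_of_ne_zero (Complex.ofReal_ne_zero.2 (Real.exp_pos τ).ne'),
    ← Complex.ofReal_log (Real.exp_pos τ).le, Real.log_exp]

theorem integral_exp_exp {s : ℂ} (hs : 0 < s.re) :
    ∫ τ : ℝ, ((Real.exp (-Real.exp τ) : ℝ) : ℂ) * Complex.exp (τ * s) = Complex.Gamma s := by
  rw [Complex.Gamma_eq_integral hs, Complex.GammaIntegral, ← Real.range_exp, ← image_univ,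
    integral_image_eq_integral_abs_deriv_smul MeasurableSet.univ
      (fun x _ => (Real.hasDerivAt_exp x).hasDerivWithinAt) Real.exp_injective.injOn, setIntegral_univ]
  refine integral_congr_ae (Eventually.of_forall fun τ => ?_)
  beta_reduce
  rw [lat_exp_cpow, abs_of_pos (Real.exp_pos _), Complex.real_smul, Complex.ofReal_exp τ,
    mul_left_comm, ← Complex.exp_add]
  congr 2
  ring

theorem integrable_exp_exp {σ : ℝ} (hσ : 0 < σ) :
    Integrable fun τ : ℝ => Real.exp (-Real.exp τ) * Real.exp (σ * τ) := by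
  have h := (Integrable.of_integral_ne_zero ((integral_exp_exp (s := σ) hσ).trans_ne
    (Complex.Gamma_ne_zero_of_re_pos hσ))).norm
  refine h.congr (Eventually.of_forall fun τ => ?_)
  beta_reduce
  rw [norm_mul, Complex.norm_real, Real.norm_of_nonneg (Real.exp_pos _).le, Complex.norm_exp,
    ← Complex.ofReal_mul, Complex.ofReal_re, mul_comm τ]

theorem integrable_wK {σ : ℝ} (hσ : 0 < σ) :
    Integrable fun t : HH K => wK t * Real.exp (σ * ∑ w, t w) := by
  refine (Integrable.fintype_prod (μ := fun _ => volume) fun _ => integrable_exp_exp hσ).congr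
    (Eventually.of_forall fun t => ?_)
  simp only [wK, Finset.prod_mul_distrib, Finset.mul_sum, Real.exp_sum]

theorem lat_exp_neg_le {σ z : ℝ} (hσ : 0 < σ) (hz : 0 < z) : Real.exp (-z) ≤ σ ^ σ * z ^ (-σ) := by
  have h1 : (z / σ) ^ σ ≤ Real.exp z := by
    refine (Real.rpow_le_rpow (by positivity)
      (show z / σ ≤ Real.exp (z / σ) by linarith [Real.add_one_le_exp (z / σ)]) hσ.le).trans ?_
    rw [← Real.exp_mul, div_mul_cancel₀ _ hσ.ne']
  rw [Real.div_rpow hz.le hσ.le] at h1
  rw [Real.exp_neg, Real.rpow_neg hz.le, ← div_eq_mul_inv, ← inv_div]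
  exact inv_anti₀ (by positivity) h1

theorem asym_le {σ y : ℝ} (hσ : 0 < σ) (hy : 0 < y) (t : HH K) :
    wK t * Real.exp (-(y * Real.exp (-∑ w, t w))) ≤
      σ ^ σ * y ^ (-σ) * (wK t * Real.exp (σ * ∑ w, t w)) := by
  refine (mul_le_mul_of_nonneg_left (lat_exp_neg_le hσ (by positivity)) (wK_pos t).le).trans
    (le_of_eq ?_)
  rw [Real.mul_rpow hy.le (Real.exp_pos _).le, ← Real.exp_mul, neg_mul_neg, mul_comm _ σ]
  ring

theorem integrable_asym {y : ℝ} (hy : 0 < y) :
    Integrable fun t : HH K => wK t * Real.exp (-(y * Real.exp (-∑ w, t w))) := by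
  have := continuous_wK (K := K)
  refine ((integrable_wK one_pos).const_mul (1 ^ (1 : ℝ) * y ^ (-1 : ℝ))).mono' (by fun_prop)
    (Eventually.of_forall fun t => ?_)
  rw [Real.norm_of_nonneg (mul_pos (wK_pos t) (Real.exp_pos _)).le]
  exact asym_le one_pos hy t

theorem integrable_KK_sym {y : ℝ} (hy : 0 < y) :
    Integrable fun t : HH K => Real.exp (-(y ^ (1 / (rr K : ℝ)) * ∑ v, Real.exp (ex t v))) := by
  refine ((integrable_asym hy).comp_sub_right
    (pr fun v => Real.log (if v = v0 K then y else 1))).congr (Eventually.of_forall fun t => ?_)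
  beta_reduce
  rw [← asym_form, ← KK_shift (asym_pos hy), asym_prod, sub_add_cancel]

theorem integrable_KK {a : Pl K → ℝ} (ha : ∀ v, 0 < a v) :
    Integrable fun t : HH K => Real.exp (-∑ v, a v * Real.exp (ex t v)) := by
  simpa only [KK_shift ha] using (integrable_KK_sym (K := K) (y := ∏ v, a v)
    (Finset.prod_pos fun v _ => ha v)).comp_add_right (pr fun v => Real.log (a v))

theorem KK_nonneg (y : ℝ) : 0 ≤ KK K y := integral_nonneg fun _ => (Real.exp_pos _).le

theorem KK_pos {y : ℝ} (hy : 0 < y) : 0 < KK K y :=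
  integral_exp_pos (integrable_KK_sym hy)

theorem asym_mono {x y : ℝ} (h : x ≤ y) (t : HH K) :
    wK t * Real.exp (-(y * Real.exp (-∑ w, t w))) ≤ wK t * Real.exp (-(x * Real.exp (-∑ w, t w))) := by
  have := wK_pos t
  gcongr

theorem KK_antitone : AntitoneOn (KK K) (Ioi 0) := fun x hx y hy h => by
  rw [KK_asym hx, KK_asym hy]
  exact integral_mono (integrable_asym hy) (integrable_asym hx) (asym_mono h)

theorem continuousOn_KK : ContinuousOn (KK K) (Ioi 0) := by
  have := continuous_wK (K := K)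
  refine ContinuousOn.congr (fun y hy => ContinuousAt.continuousWithinAt ?_) fun y hy => KK_asym hy
  refine continuousAt_of_dominated (Eventually.of_forall fun x => by fun_prop) ?_
    (integrable_asym (half_pos hy)) (Eventually.of_forall fun t => by fun_prop)
  filter_upwards [Ioi_mem_nhds (half_lt_self hy)] with x hx
  refine Eventually.of_forall fun t => ?_
  rw [Real.norm_of_nonneg (mul_pos (wK_pos t) (Real.exp_pos _)).le]
  exact asym_mono hx.le t

theorem measurable_KK : Measurable (KK K) := by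
  have h : ∀ v, Measurable fun t : HH K => ex t v := fun v => (continuous_ex v).measurable
  refine (StronglyMeasurable.integral_prod_right' (f := fun p : ℝ × HH K =>
    Real.exp (-(p.1 ^ (1 / (rr K : ℝ)) * ∑ v, Real.exp (ex p.2 v))))
    (Measurable.stronglyMeasurable ?_)).measurable
  fun_prop

theorem KK_le_rpow {σ : ℝ} (hσ : 0 < σ) : ∃ C : ℝ, 0 < C ∧ ∀ y, 0 < y → KK K y ≤ C * y ^ (-σ) := by
  refine ⟨max (σ ^ σ * ∫ t : HH K, wK t * Real.exp (σ * ∑ w, t w)) 1, by positivity, fun y hy => ?_⟩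
  rw [KK_asym hy]
  refine (integral_mono (integrable_asym hy) ((integrable_wK hσ).const_mul _)
    (asym_le hσ hy)).trans ?_
  rw [integral_const_mul, mul_right_comm]
  gcongr
  exact le_max_left _ _

theorem KK_le {η A : ℝ} (hη : 0 < η) (hA : 0 ≤ A) :
    ∃ C : ℝ, 0 < C ∧ ∀ y, 0 < y → KK K y ≤ C * y ^ (-η) * (1 + y) ^ (-A) := by
  obtain ⟨C₁, h₁, e₁⟩ := KK_le_rpow (K := K) hη
  obtain ⟨C₂, h₂, e₂⟩ := KK_le_rpow (K := K) (add_pos_of_pos_of_nonneg hη hA)
  refine ⟨max C₁ C₂ * 2 ^ A, by positivity, fun y hy => ?_⟩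
  have key : ∀ z : ℝ, 0 < z → 1 + y ≤ 2 * z → z ^ (-A) ≤ 2 ^ A * (1 + y) ^ (-A) := fun z hz h => by
    have h1 := Real.rpow_le_rpow_of_nonpos (by positivity) h (neg_nonpos.2 hA)
    rwa [Real.mul_rpow zero_le_two hz.le, Real.rpow_neg zero_le_two,
      inv_mul_le_iff₀ (by positivity)] at h1
  rw [mul_assoc, mul_assoc, mul_left_comm (2 ^ A)]
  rcases le_total y 1 with h | h
  · have h1 := key 1 one_pos (by linarith)
    rw [Real.one_rpow] at h1
    refine (e₁ y hy).trans (mul_le_mul (le_max_left _ _) ?_ (by positivity) (by positivity))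
    exact le_mul_of_one_le_right (by positivity) h1
  · refine (e₂ y hy).trans (mul_le_mul (le_max_right _ _) ?_ (by positivity) (by positivity))
    rw [neg_add, Real.rpow_add hy]
    exact mul_le_mul_of_nonneg_left (key y hy (by linarith)) (by positivity)

theorem hasMellin_KK {s : ℂ} (hs : 0 < s.re) :
    HasMellin (fun y => (KK K y : ℂ)) s (Complex.Gamma s ^ rr K) := by
  have hw := continuous_wK (K := K)
  set F : ℝ → HH K → ℂ := fun y t => (wK t : ℂ) *
    ((y : ℂ) ^ (s - 1) * Complex.exp (-((Real.exp (-∑ w, t w) : ℝ) * y))) with hF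
  have h1 : ∀ y ∈ Ioi (0 : ℝ), (y : ℂ) ^ (s - 1) • (KK K y : ℂ) = ∫ t, F y t := fun y hy => by
    rw [KK_asym hy, ← integral_complex_ofReal, smul_eq_mul, ← integral_const_mul]
    refine integral_congr_ae (Eventually.of_forall fun t => ?_)
    simp only [hF]
    push_cast
    ring_nf
  have h2 : ∀ t : HH K, ∫ y in Ioi (0 : ℝ), (y : ℂ) ^ (s - 1) *
      Complex.exp (-((Real.exp (-∑ w, t w) : ℝ) * y)) =
        Complex.exp ((∑ w, t w : ℝ) * s) * Complex.Gamma s := fun t => by
    rw [Complex.integral_cpow_mul_exp_neg_mul_Ioi hs (Real.exp_pos _), ← lat_exp_cpow, Real.exp_neg,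
      Complex.ofReal_inv, one_div, inv_inv]
  have hi : Integrable (Function.uncurry F) ((volume.restrict (Ioi 0)).prod volume) := by
    refine (integrable_prod_iff' (Measurable.aestronglyMeasurable ?_)).2
      ⟨Eventually.of_forall fun t => ?_, ?_⟩
    · have := hw.measurable
      simp only [hF, Function.uncurry_def]
      fun_prop
    · simp only [hF, Function.uncurry_apply_pair]
      exact (Integrable.of_integral_ne_zero ((h2 t).trans_ne (mul_ne_zero (Complex.exp_ne_zero _)
        (Complex.Gamma_ne_zero_of_re_pos hs)))).const_mul _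
    · refine ((integrable_wK (K := K) hs).mul_const (Real.Gamma s.re)).congr
        (Eventually.of_forall fun t => ?_)
      beta_reduce
      rw [mul_assoc, mul_comm s.re, Real.exp_mul, ← inv_inv (Real.exp (∑ w, t w)), ← Real.exp_neg,
        ← one_div, ← Real.integral_rpow_mul_exp_neg_mul_Ioi hs (Real.exp_pos _), ← integral_const_mul]
      refine setIntegral_congr_fun measurableSet_Ioi fun y hy => ?_
      simp only [hF, Function.uncurry_apply_pair, norm_mul, Complex.norm_real, Complex.norm_exp,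
        Complex.norm_cpow_eq_rpow_re_of_pos hy, Real.norm_of_nonneg (wK_pos t).le, Complex.sub_re,
        Complex.one_re, Complex.neg_re, ← Complex.ofReal_mul, Complex.ofReal_re]
  refine ⟨hi.integral_prod_left.congr ((ae_restrict_iff' measurableSet_Ioi).2
    (Eventually.of_forall fun y hy => (h1 y hy).symm)), ?_⟩
  rw [mellin, setIntegral_congr_fun measurableSet_Ioi h1, integral_integral_swap hi]
  have h3 : ∀ t : HH K, ∫ y in Ioi (0 : ℝ), F y t = (∏ w, ((Real.exp (-Real.exp (t w)) : ℝ) : ℂ) *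
      Complex.exp (t w * s)) * Complex.Gamma s := fun t => by
    simp only [hF]
    rw [integral_const_mul, h2, wK, Finset.prod_mul_distrib, ← Complex.exp_sum, ← Finset.sum_mul,
      Complex.ofReal_prod, Complex.ofReal_sum, mul_assoc]
  simp only [h3]
  rw [integral_mul_const, integral_fintype_prod_volume_eq_pow
    fun τ : ℝ => ((Real.exp (-Real.exp τ) : ℝ) : ℂ) * Complex.exp (τ * s), integral_exp_exp hs, ← pow_succ]
  congr 1
  simp only [ne_eq, Fintype.card_subtype_compl, Fintype.card_unique]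
  exact Nat.sub_add_cancel rr_pos

end Vale.Agent.P016.N0
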