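import Vale.Agent.P016.N0.LatEU
import Vale.Agent.P319.N.ZetaTwo

/-! # P319 LAT: orbits of `EU` and ideals. -/

namespace Vale.Agent.P016.N0

open Vale.Agent.P319

open scoped ComplexConjugate Real ContDiff NumberField nonZeroDivisors Topology
open MeasureTheory Filter Set

variable {K : Type} [Field K] [NumberField K] [Stp K]

theorem coe_unit_mul (u w : (R K)ˣ) :
    (((u * w : (R K)ˣ) : R K) : K) = ((u : R K) : K) * ((w : R K) : K) := by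
  rw [Units.val_mul, map_mul]

theorem KQ_out_mem {I : FI K} {z : K} (h : z ∈ I ∧ z ≠ 0) :
    (Quot.mk _ z : KQ K).out ∈ I ∧ (Quot.mk _ z : KQ K).out ≠ 0 := by
  obtain ⟨u, hu, e⟩ := KQ_out z
  rw [e]
  exact ⟨(EU_mul_mem hu).2 h.1, mul_ne_zero (unit_ne_zero u) h.2⟩

theorem exists_orbEquiv (I : FI K) :
    ∃ e : {x : KQ K // x.out ∈ I ∧ x.out ≠ 0} × EU K ≃ {x : K // x ∈ I ∧ x ≠ 0},
      ∀ p, (e p : K) = ((p.2.1 : R K) : K) * p.1.1.out := by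
  refine ⟨Equiv.ofBijective (fun p => ⟨((p.2.1 : R K) : K) * p.1.1.out, (EU_mul_mem p.2.2).2 p.1.2.1,
    mul_ne_zero (unit_ne_zero _) p.1.2.2⟩) ⟨?_, ?_⟩, fun _ => rfl⟩
  · rintro ⟨⟨x, hx⟩, u, hu⟩ ⟨⟨y, hy⟩, w, hw⟩ h
    have h1 : ((u : R K) : K) * x.out = ((w : R K) : K) * y.out := congrArg Subtype.val h
    obtain rfl : x = y := by
      rw [← x.out_eq, ← y.out_eq]
      refine KQ_eq.2 ⟨w⁻¹ * u, (EU K).mul_mem ((EU K).inv_mem hw) hu, ?_⟩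
      rw [coe_unit_mul, coe_unit_inv, mul_assoc, h1, inv_mul_cancel_left₀ (unit_ne_zero w)]
    obtain rfl : u = w := Units.ext (coe_inj.1 (mul_right_cancel₀ hx.2 h1))
    rfl
  · rintro ⟨z, hz⟩
    obtain ⟨u, hu, e⟩ := KQ_out z
    refine ⟨⟨⟨_, KQ_out_mem hz⟩, u⁻¹, (EU K).inv_mem hu⟩, Subtype.ext ?_⟩
    change (((u⁻¹ : (R K)ˣ) : R K) : K) * (Quot.mk _ z : KQ K).out = z
    rw [e, coe_unit_inv, inv_mul_cancel_left₀ (unit_ne_zero u)]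

omit [Stp K] in
theorem span_unit_mul (ε : (𝓞 K)ˣ) (x : K) :
    FractionalIdeal.spanSingleton (𝓞 K)⁰ (((ε : 𝓞 K) : K) * x) =
      FractionalIdeal.spanSingleton (𝓞 K)⁰ x :=
  (FractionalIdeal.spanSingleton_eq_spanSingleton.2 ⟨ε, rfl⟩).symm

theorem span_out (x : K) : FractionalIdeal.spanSingleton (𝓞 K)⁰ (Quot.mk _ x : KQ K).out =
    FractionalIdeal.spanSingleton (𝓞 K)⁰ x := by
  obtain ⟨u, hu, e⟩ := KQ_out x
  obtain ⟨ε, -, h⟩ := EU_int hu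
  rw [e, ← h, span_unit_mul]

theorem exists_idealEquiv (I : FI K) :
    ∃ e : {x : KQ K // x.out ∈ I ∧ x.out ≠ 0} ≃
        {b : FI K // b ≠ 0 ∧ b ≤ I ∧ (b : Submodule (𝓞 K) K).IsPrincipal} × ((𝓞 K)ˣ ⧸ EUO K),
      ∀ x, ((e x).1 : FI K) = FractionalIdeal.spanSingleton (𝓞 K)⁰ x.1.out := by
  have h0 : ∀ b : {b : FI K // b ≠ 0 ∧ b ≤ I ∧ (b : Submodule (𝓞 K) K).IsPrincipal},
      ∃ x, b.1 = FractionalIdeal.spanSingleton (𝓞 K)⁰ x := fun b =>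
    (FractionalIdeal.isPrincipal_iff _).1 b.2.2.2
  choose g hg using h0
  have h1 : ∀ b (ε : (𝓞 K)ˣ), FractionalIdeal.spanSingleton (𝓞 K)⁰
      (Quot.mk _ (((ε : 𝓞 K) : K) * g b) : KQ K).out = b.1 := fun b ε => by
    rw [span_out, span_unit_mul, ← hg]
  let F : {b : FI K // b ≠ 0 ∧ b ≤ I ∧ (b : Submodule (𝓞 K) K).IsPrincipal} × ((𝓞 K)ˣ ⧸ EUO K) →
      {x : KQ K // x.out ∈ I ∧ x.out ≠ 0} := fun p =>
    ⟨Quot.mk _ (((p.2.out : 𝓞 K) : K) * g p.1),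
      FractionalIdeal.spanSingleton_le_iff_mem.1 ((h1 _ _).trans_le p.1.2.2.1),
      FractionalIdeal.spanSingleton_ne_zero_iff.1 ((h1 _ _).trans_ne p.1.2.1)⟩
  have hF : Function.Bijective F := by
    constructor
    · rintro ⟨b, q⟩ ⟨b', q'⟩ h
      have h2 : (Quot.mk _ (((q.out : 𝓞 K) : K) * g b) : KQ K) =
          Quot.mk _ (((q'.out : 𝓞 K) : K) * g b') := congrArg Subtype.val h
      obtain rfl : b = b' := Subtype.ext (by rw [← h1 b q.out, h2, h1])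
      obtain ⟨u, hu, e⟩ := KQ_eq.1 h2
      obtain ⟨ε, hε, h3⟩ := EU_int hu
      have h4 : g b ≠ 0 := FractionalIdeal.spanSingleton_ne_zero_iff.1 ((hg b).symm.trans_ne b.2.1)
      rw [← h3, ← mul_assoc] at e
      have h5 : q'.out = ε * q.out := Units.ext (NumberField.RingOfIntegers.coe_injective (by
        rw [Units.val_mul, map_mul]
        exact mul_right_cancel₀ h4 e))
      refine Prod.ext rfl ?_
      change q = q'
      rw [← q.out_eq', ← q'.out_eq', QuotientGroup.eq, h5, mul_comm ε, inv_mul_cancel_left]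
      exact hε
    · rintro ⟨x, hx⟩
      let b : {b : FI K // b ≠ 0 ∧ b ≤ I ∧ (b : Submodule (𝓞 K) K).IsPrincipal} :=
        ⟨FractionalIdeal.spanSingleton (𝓞 K)⁰ x.out, FractionalIdeal.spanSingleton_ne_zero_iff.2 hx.2,
          FractionalIdeal.spanSingleton_le_iff_mem.2 hx.1,
          (FractionalIdeal.isPrincipal_iff _).2 ⟨_, rfl⟩⟩
      obtain ⟨z, hz⟩ := FractionalIdeal.spanSingleton_eq_spanSingleton.1 (hg b).symm
      obtain ⟨h, e⟩ := QuotientGroup.mk_out_eq_mul (EUO K) z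
      refine ⟨(b, (z : (𝓞 K)ˣ ⧸ EUO K)), Subtype.ext ?_⟩
      refine Eq.trans (Eq.symm (KQ_eq.2 ⟨uOR K h.1, h.2, ?_⟩)) x.out_eq
      rw [e, coe_uOR, ← hz, mul_comm z, Units.val_mul]
      exact (congrArg (· * g b) (map_mul (algebraMap (𝓞 K) K) _ _)).trans (mul_assoc _ _ _)
  refine ⟨(Equiv.ofBijective F hF).symm, fun x => ?_⟩
  obtain ⟨p, rfl⟩ := hF.2 x
  rw [Equiv.ofBijective_symm_apply_apply]
  exact (h1 _ _).symm

theorem hasSum_KQ_ideal (I : FI K) {G : FI K → ℂ}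
    (hG : Summable fun b : {b : FI K // b ≠ 0 ∧ b ≤ I ∧ (b : Submodule (𝓞 K) K).IsPrincipal} => G b) :
    HasSum (fun x : KQ K => ind (x.out ∈ I ∧ x.out ≠ 0) * G (FractionalIdeal.spanSingleton (𝓞 K)⁰ x.out))
      (idx K * ∑' b : {b : FI K // b ≠ 0 ∧ b ≤ I ∧ (b : Submodule (𝓞 K) K).IsPrincipal}, G b) := by
  obtain ⟨e, he⟩ := exists_idealEquiv I
  have := (EUO K).fintypeOfIndexNeZero idx_pos.ne'
  have h1 := hasSum_fintype fun _ : (𝓞 K)ˣ ⧸ EUO K => (1 : ℂ)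
  have h3 := summable_mul_of_summable_norm (g := fun _ : (𝓞 K)ˣ ⧸ EUO K => (1 : ℂ))
    (f := fun b : {b : FI K // b ≠ 0 ∧ b ≤ I ∧ (b : Submodule (𝓞 K) K).IsPrincipal} => G b)
    hG.norm h1.summable.norm
  have h2 := hG.hasSum.mul h1 h3
  rw [Finset.sum_const, Finset.card_univ, nsmul_one, ← Nat.card_eq_fintype_card, mul_comm] at h2
  have h4 := e.hasSum_iff.2 h2
  refine (Subtype.val_injective (p := fun x : KQ K => x.out ∈ I ∧ x.out ≠ 0).hasSum_iff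
    fun x hx => ?_).1 (h4.congr_fun fun x => ?_)
  · rw [ind, if_neg fun h => hx ⟨⟨x, h⟩, rfl⟩, zero_mul]
  · simp only [Function.comp_apply, ind, if_pos x.2, he, one_mul, mul_one]

omit [Stp K] in
theorem exists_classEquiv (a : (Ideal (𝓞 K))⁰) :
    ∃ e : (ClassGroup.mk0 ⁻¹' {ClassGroup.mk0 a} : Set (Ideal (𝓞 K))⁰) ≃
        {b : FI K // b ≠ 0 ∧ b ≤ (a.1 : FI K)⁻¹ ∧ (b : Submodule (𝓞 K) K).IsPrincipal},
      ∀ l, (e l : FI K) * a.1 = l.1.1 := by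
  have h0 : ∀ l : (Ideal (𝓞 K))⁰, (l.1 : FI K) ≠ 0 := fun l =>
    FractionalIdeal.coeIdeal_ne_zero.2 (nonZeroDivisors.ne_zero l.2)
  refine ⟨Equiv.ofBijective (fun l => ⟨l.1.1 * (a.1 : FI K)⁻¹, mul_ne_zero (h0 _) (inv_ne_zero (h0 a)),
    ?_, ?_⟩) ⟨fun l l' h => ?_, ?_⟩, fun l => inv_mul_cancel_right₀ (h0 a) _⟩
  · exact mul_le_of_le_one_left' FractionalIdeal.coeIdeal_le_one
  · obtain ⟨x, -, h⟩ := (ClassGroup.mk0_eq_mk0_iff_exists_fraction_ring K).1 (Eq.symm l.2)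
    exact (FractionalIdeal.isPrincipal_iff _).2 ⟨x, by rw [← h, mul_inv_cancel_right₀ (h0 a)]⟩
  · exact Subtype.ext (Subtype.ext (FractionalIdeal.coeIdeal_injective
      (mul_right_cancel₀ (inv_ne_zero (h0 a)) (congrArg Subtype.val h))))
  · rintro ⟨b, hb, hb1, hb2⟩
    have h1 : b * a.1 ≤ 1 := by
      calc _ ≤ (a.1 : FI K)⁻¹ * a.1 := by gcongr
        _ = 1 := inv_mul_cancel₀ (h0 a)
    obtain ⟨J, hJ⟩ := FractionalIdeal.le_one_iff_exists_coeIdeal.1 h1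
    have hJ0 : J ≠ 0 := FractionalIdeal.coeIdeal_ne_zero.1 (hJ.trans_ne (mul_ne_zero hb (h0 a)))
    obtain ⟨x, rfl⟩ := (FractionalIdeal.isPrincipal_iff _).1 hb2
    refine ⟨⟨⟨J, mem_nonZeroDivisors_of_ne_zero hJ0⟩, Eq.symm
      ((ClassGroup.mk0_eq_mk0_iff_exists_fraction_ring K).2
        ⟨x, FractionalIdeal.spanSingleton_ne_zero_iff.1 hb, hJ.symm⟩)⟩, Subtype.ext ?_⟩
    change (J : FI K) * _ = _
    rw [hJ, mul_inv_cancel_right₀ (h0 a)]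

theorem sum_classes (a : ClassGroup (𝓞 K) → (Ideal (𝓞 K))⁰) (ha : ∀ c, ClassGroup.mk0 (a c) = c)
    {G : FI K → ℂ} (hG : Summable fun l : (Ideal (𝓞 K))⁰ => G l.1) :
    (∀ c, Summable fun x : KQ K => ind (x.out ∈ ((a c).1 : FI K)⁻¹ ∧ x.out ≠ 0) *
      G (FractionalIdeal.spanSingleton (𝓞 K)⁰ x.out * (a c).1)) ∧
    ∑ c, ∑' x : KQ K, ind (x.out ∈ ((a c).1 : FI K)⁻¹ ∧ x.out ≠ 0) *
      G (FractionalIdeal.spanSingleton (𝓞 K)⁰ x.out * (a c).1) =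
        idx K * ∑' l : (Ideal (𝓞 K))⁰, G l.1 := by
  have key : ∀ c, HasSum (fun x : KQ K => ind (x.out ∈ ((a c).1 : FI K)⁻¹ ∧ x.out ≠ 0) *
      G (FractionalIdeal.spanSingleton (𝓞 K)⁰ x.out * (a c).1))
      (idx K * ∑' l : (ClassGroup.mk0 ⁻¹' {c} : Set (Ideal (𝓞 K))⁰), G l.1.1) := fun c => by
    obtain ⟨e, he⟩ := exists_classEquiv (a c)
    have h1 := hasSum_KQ_ideal ((a c).1 : FI K)⁻¹ (G := fun b => G (b * (a c).1))
      (e.summable_iff.1 ((hG.subtype _).congr fun l => by simp only [Function.comp_apply, he]))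
    rw [← e.tsum_eq] at h1
    simp only [he] at h1
    rwa [ha] at h1
  refine ⟨fun c => (key c).summable, ?_⟩
  simp only [(key _).tsum_eq]
  rw [← Finset.mul_sum, ← (hG.hasSum.tsum_fiberwise ClassGroup.mk0).tsum_eq, tsum_fintype]

omit [Stp K] in
theorem summable_ideal0_rpow {σ : ℝ} (hσ : 1 < σ) :
    Summable fun l : (Ideal (𝓞 K))⁰ => (Ideal.absNorm l.1 : ℝ) ^ (-σ) :=
  zeta_summable_ideal K hσ

end Vale.Agent.P016.N0
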