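import Vale.Agent.P016.N0.LatEU

/-! # P319 LAT: unfolding and sums over units. -/

namespace Vale.Agent.P016.N0

open Vale.Agent.P319

open scoped ComplexConjugate Real ContDiff NumberField nonZeroDivisors Topology
open MeasureTheory Filter Set

variable {K : Type} [Field K] [NumberField K] [Stp K]

variable {E : Subgroup (R K)ˣ} {k : ℝ} {D : Set (HH K)}

theorem countable_of_le_EU (hE : E ≤ EU K) : Countable E :=
  (Subgroup.inclusion_injective hE).countable

theorem UF.tiles (h : UF E k D) :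
    (∀ u : E, MeasurableSet {t | t - k • lgH ((u.1 : R K) : K) ∈ D}) ∧
    Pairwise (Function.onFun Disjoint fun u : E => {t | t - k • lgH ((u.1 : R K) : K) ∈ D}) ∧
    ⋃ u : E, {t | t - k • lgH ((u.1 : R K) : K) ∈ D} = univ := by
  have key : ∀ (t : HH K) (u : E), t + k • lgH (((u⁻¹ : E).1 : R K) : K) =
      t - k • lgH ((u.1 : R K) : K) := fun t u => by
    rw [Subgroup.coe_inv, lgH_unit_inv, smul_neg, sub_eq_add_neg]
  refine ⟨fun u => (measurable_sub_const _) h.1, fun u w huw => Set.disjoint_left.2 fun t hu hw => ?_,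
    Set.eq_univ_of_forall fun t => ?_⟩
  · exact huw (inv_injective ((h.2.2 t).unique (by rw [key]; exact hu) (by rw [key]; exact hw)))
  · obtain ⟨u, hu, -⟩ := h.2.2 t
    exact Set.mem_iUnion.2 ⟨u⁻¹, by rw [Set.mem_ofPred_eq, ← key, inv_inv]; exact hu⟩

theorem preimage_tile (a : HH K) (D : Set (HH K)) : (fun t => t + a) ⁻¹' {t | t - a ∈ D} = D := by
  ext t
  simp

theorem UF.lintegral (hE : E ≤ EU K) (h : UF E k D) (F : HH K → ENNReal) :
    ∫⁻ t, F t = ∑' u : E, ∫⁻ t in D, F (t + k • lgH ((u.1 : R K) : K)) := by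
  have := countable_of_le_EU hE
  obtain ⟨h1, h2, h3⟩ := h.tiles
  rw [← setLIntegral_univ, ← h3, lintegral_iUnion h1 h2]
  refine tsum_congr fun u => ?_
  rw [← (measurePreserving_add_right volume (k • lgH ((u.1 : R K) : K))).setLIntegral_comp_preimage_emb
    (measurableEmbedding_addRight _), preimage_tile]

theorem UF.hasSum {V : Type} [NormedAddCommGroup V] [NormedSpace ℝ V] (hE : E ≤ EU K) (h : UF E k D)
    {F : HH K → V} (hF : Integrable F) :
    HasSum (fun u : E => ∫ t in D, F (t + k • lgH ((u.1 : R K) : K))) (∫ t, F t) := by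
  have := countable_of_le_EU hE
  obtain ⟨h1, h2, h3⟩ := h.tiles
  have h4 := hasSum_integral_iUnion h1 h2 hF.integrableOn
  rw [h3, setIntegral_univ] at h4
  convert h4 using 2 with u
  symm
  rw [← (measurePreserving_add_right volume (k • lgH ((u.1 : R K) : K))).setIntegral_preimage_emb
    (measurableEmbedding_addRight _), preimage_tile]

theorem UF.vol_ne_top (h : UF E k D) : volume D ≠ ⊤ := h.2.1.measure_lt_top.ne

theorem UF.vol_pos (hE : E ≤ EU K) (h : UF E k D) : 0 < (volume D).toReal := by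
  refine ENNReal.toReal_pos (fun h0 => ?_) h.vol_ne_top
  have h1 := h.lintegral hE fun _ => 1
  simp only [lintegral_const, one_mul, MeasurableSet.univ, Measure.restrict_apply, univ_inter, h0,
    tsum_zero] at h1
  exact isOpen_univ.measure_ne_zero volume univ_nonempty h1

theorem UF.volume_eq {D' : Set (HH K)} (hE : E ≤ EU K) (h : UF E k D) (h' : UF E k D') :
    volume D = volume D' := by
  have := countable_of_le_EU hE
  have hm : Measurable (D.indicator (1 : HH K → ENNReal)) := measurable_one.indicator h.1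
  rw [← lintegral_indicator_one h.1, h'.lintegral hE,
    ← lintegral_tsum fun u => (hm.fun_comp (measurable_add_const _)).aemeasurable, ← setLIntegral_one]
  refine lintegral_congr fun t => ?_
  obtain ⟨u, hu, hu'⟩ := h.2.2 t
  rw [tsum_eq_single u fun w hw => indicator_of_notMem (fun e => hw (hu' w e)) _]
  exact indicator_of_mem hu _

theorem VV_pos : 0 < VV K := uf_DD.vol_pos le_rfl

theorem UF.exists_bound (h : UF E k D) : ∃ T : ℝ, 0 < T ∧ ∀ t ∈ D, ‖t‖ ≤ T := h.2.1.exists_pos_norm_le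

/-- balancing an arbitrary vector -/
theorem balanced_vec (hk : 0 < k) : ∃ T : ℝ, ∀ c : Pl K → ℝ, ∃ u ∈ EU K, ∀ v,
    |c v + k * lg ((u : R K) : K) v - (∑ v, c v) / rr K| ≤ T := by
  obtain ⟨D, hD⟩ := exists_UF (K := K) le_rfl (by simp) hk
  obtain ⟨T, -, hT⟩ := hD.exists_bound
  refine ⟨rr K * T, fun c => ?_⟩
  obtain ⟨u, hu, -⟩ := hD.2.2 (pr c)
  refine ⟨u.1, u.2, fun v => ?_⟩
  have h1 := abs_ex_le (pr c + k • lgH ((u.1 : R K) : K)) v
  rw [ex_add, ex_smul, ex_lgH u.2, ex_pr] at h1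
  rw [add_sub_right_comm]
  exact h1.trans (mul_le_mul_of_nonneg_left (hT _ hu) (Nat.cast_nonneg _))

/-- balanced representative -/
theorem balanced : ∃ C : ℝ, 1 ≤ C ∧ ∀ x : K, x ≠ 0 → ∃ u ∈ EU K, ∀ v,
    nK x ^ (1 / (rr K : ℝ)) / C ≤ ‖ev v (((u : R K) : K) * x)‖ ^ 2 ∧
      ‖ev v (((u : R K) : K) * x)‖ ^ 2 ≤ C * nK x ^ (1 / (rr K : ℝ)) := by
  obtain ⟨T, hT⟩ := balanced_vec (K := K) one_pos
  refine ⟨Real.exp |T|, Real.one_le_exp (abs_nonneg _), fun x hx => ?_⟩
  obtain ⟨u, hu, h⟩ := hT (lg x)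
  refine ⟨u, hu, fun v => ?_⟩
  have h1 := abs_le.1 ((h v).trans (le_abs_self T))
  rw [sum_lg hx] at h1
  rw [← exp_lg v (mul_ne_zero (unit_ne_zero u) hx), lg_mul (unit_ne_zero u) hx,
    Real.rpow_def_of_pos (nK_pos hx), ← Real.exp_sub, ← Real.exp_add, Real.exp_le_exp,
    Real.exp_le_exp, mul_one_div, Pi.add_apply]
  constructor <;> linarith [h1.1, h1.2]

theorem card_units (T : ℝ) : ∃ C : ℕ, ∀ (c : Pl K → ℝ) (s : Finset (R K)ˣ),
    (∀ u ∈ s, u ∈ EU K ∧ ∀ v, |lg ((u : R K) : K) v - c v| ≤ T) → s.card ≤ C := by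
  refine ⟨(finite_EU (K := K) (2 * T)).toFinset.card, fun c s hs => ?_⟩
  rcases s.eq_empty_or_nonempty with rfl | ⟨w, hw⟩
  · simp
  refine Finset.card_le_card_of_injOn (fun u => u * w⁻¹) (fun u hu => ?_)
    (mul_left_injective _).injOn
  have h0 : 0 ≤ T := (abs_nonneg _).trans ((hs w hw).2 (v0 K))
  rw [Finset.mem_coe, Set.Finite.mem_toFinset]
  refine ⟨(EU K).mul_mem (hs u hu).1 ((EU K).inv_mem (hs w hw).1),
    (pi_norm_le_iff_of_nonneg (by positivity)).2 fun v => ?_⟩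
  have h1 := abs_le.1 ((hs u hu).2 v.1)
  have h2 := abs_le.1 ((hs w hw).2 v.1)
  rw [← ex_ne (lgH _) v, lgH_unit_mul, lgH_unit_inv, ex_add, ex_neg, ex_lgH (hs u hu).1, ex_lgH (hs w hw).1,
    Real.norm_eq_abs, abs_le]
  constructor <;> linarith [h1.1, h1.2, h2.1, h2.2]

theorem lat_exp_le_rpow {a : ℝ} (ha : 0 < a) (m : ℕ) : ∃ C : ℝ, 0 < C ∧ ∀ x : ℝ, 0 ≤ x →
    Real.exp (-(a * x)) ≤ C * (1 + x) ^ (-(m : ℝ)) := by
  refine ⟨Real.exp a * m.factorial / a ^ m, by positivity, fun x hx => ?_⟩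
  have h1 := Real.pow_div_factorial_le_exp (a * (1 + x)) (by positivity) m
  rw [mul_add, mul_one, Real.exp_add, ← mul_one_add, mul_pow, div_le_iff₀ (by positivity)] at h1
  rw [Real.rpow_neg (by positivity), Real.rpow_natCast, Real.exp_neg, ← div_eq_mul_inv, div_div,
    inv_eq_one_div, div_le_div_iff₀ (by positivity) (by positivity)]
  linarith

theorem lat_integrable_exp_norm {V : Type} [NormedAddCommGroup V] [NormedSpace ℝ V]
    [FiniteDimensional ℝ V] [MeasurableSpace V] [BorelSpace V] {μ : Measure V} [μ.IsAddHaarMeasure]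
    {a : ℝ} (ha : 0 < a) : Integrable (fun t : V => Real.exp (-(a * ‖t‖))) μ := by
  obtain ⟨C, -, hC⟩ := lat_exp_le_rpow ha (Module.finrank ℝ V + 1)
  refine ((integrable_one_add_norm (μ := μ) (r := ((Module.finrank ℝ V + 1 : ℕ) : ℝ))
    (by simp)).const_mul C).mono' (by fun_prop) (Eventually.of_forall fun t => ?_)
  rw [Real.norm_of_nonneg (Real.exp_pos _).le]
  exact hC _ (norm_nonneg _)

theorem norm_pr_le (x : Pl K → ℝ) : ‖pr x‖ ≤ 2 * ∑ v, |x v| := by
  have h0 : 0 ≤ ∑ v, |x v| := Finset.sum_nonneg fun v _ => abs_nonneg _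
  refine (pi_norm_le_iff_of_nonneg (by positivity)).2 fun w => ?_
  have h1 : |x w.1| ≤ ∑ v, |x v| :=
    Finset.single_le_sum (f := fun v => |x v|) (fun v _ => abs_nonneg _) (Finset.mem_univ _)
  have h2 : |(∑ v, x v) / rr K| ≤ ∑ v, |x v| := by
    rw [abs_div, Nat.abs_cast]
    exact (div_le_self (abs_nonneg _) (Nat.one_le_cast.2 rr_pos)).trans (Finset.abs_sum_le_sum_abs _ _)
  exact (abs_sub _ _).trans (by linarith)

theorem sum_exp_units {δ : ℝ} (hδ : 0 < δ) : ∃ C : ℝ, ∀ (c : Pl K → ℝ) (s : Finset (R K)ˣ),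
    (∀ u ∈ s, u ∈ EU K) →
      ∑ u ∈ s, Real.exp (-(δ * ∑ v, |lg ((u : R K) : K) v + c v|)) ≤ C := by
  classical
  obtain ⟨T, -, hT⟩ := (uf_DD (K := K)).exists_bound
  have hi : Integrable fun t : HH K => Real.exp (-(δ / 2 * ‖t‖)) :=
    lat_integrable_exp_norm (by positivity)
  refine ⟨Real.exp (δ / 2 * T) / VV K * ∫ t : HH K, Real.exp (-(δ / 2 * ‖t‖)), fun c s hs => ?_⟩
  have h1 := (uf_DD.hasSum le_rfl (hi.comp_add_right (pr c))).mul_left (Real.exp (δ / 2 * T) / VV K)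
  rw [integral_add_right_eq_self (fun t : HH K => Real.exp (-(δ / 2 * ‖t‖)))] at h1
  rw [← Finset.sum_subtype_of_mem _ hs]
  refine le_trans (Finset.sum_le_sum fun u _ => ?_) (sum_le_hasSum _ (fun u _ => mul_nonneg
    (div_pos (Real.exp_pos _) VV_pos).le (integral_nonneg fun t => (Real.exp_pos _).le)) h1)
  rw [div_mul_eq_mul_div, le_div_iff₀' VV_pos, ← integral_const_mul, VV, ← smul_eq_mul,
    ← Measure.real_def, ← setIntegral_const]
  refine setIntegral_mono_on (integrableOn_const uf_DD.vol_ne_top)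
    (((hi.comp_add_right (pr c)).comp_add_right _).const_mul _).integrableOn uf_DD.1 fun t ht => ?_
  rw [← Real.exp_add, Real.exp_le_exp, one_smul, add_assoc, lgH, ← pr_add]
  have h2 := (norm_add_le t _).trans
    (add_le_add (hT t ht) (norm_pr_le (lg ((u.1 : R K) : K) + c)))
  have h3 := mul_le_mul_of_nonneg_left h2 (half_pos hδ).le
  simp only [Pi.add_apply] at h3
  linarith

theorem inv_one_add_exp_le {η : ℝ} (τ : ℝ) :
    (1 + Real.exp τ)⁻¹ ≤ Real.exp (-(η * τ)) * Real.exp (-(min η (1 - η) * |τ|)) := by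
  rw [← Real.exp_add]
  rcases le_total 0 τ with h | h
  · refine (inv_anti₀ (Real.exp_pos τ) (by linarith)).trans ?_
    rw [← Real.exp_neg, Real.exp_le_exp, abs_of_nonneg h]
    nlinarith [min_le_right η (1 - η)]
  · refine (inv_le_one_of_one_le₀ (by linarith [Real.exp_pos τ])).trans (Real.one_le_exp ?_)
    rw [abs_of_nonpos h]
    nlinarith [min_le_left η (1 - η)]

theorem sum_units_prod {η A : ℝ} (hη : 0 < η) (hη1 : η < 1) (hA : 0 ≤ A) {j : ℕ} (hj : 0 < j) :
    ∃ C : ℝ, 0 < C ∧ ∀ (y : Pl K → ℝ) (s : Finset (R K)ˣ), (∀ v, 0 < y v) → (∀ u ∈ s, u ∈ EU K) →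
      ∑ u ∈ s, ∏ v, (1 + (‖ev v ((u : R K) : K)‖ ^ 2) ^ j * y v) ^ (-(A + 1)) ≤
        C * (∏ v, y v) ^ (-η) * (1 + ∏ v, y v) ^ (-A) := by
  have hj' : (0 : ℝ) < j := Nat.cast_pos.2 hj
  obtain ⟨C, hC⟩ := sum_exp_units (K := K) (δ := min η (1 - η) * j)
    (mul_pos (lt_min hη (by linarith)) hj')
  refine ⟨max C 1, by positivity, fun y s hy hs => ?_⟩
  have hY : 0 < ∏ v, y v := Finset.prod_pos fun v _ => hy v
  have h1 := mul_le_mul_of_nonneg_right ((hC (fun v => Real.log (y v) / j) s hs).trans (le_max_left C 1))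
    (show 0 ≤ (∏ v, y v) ^ (-η) * (1 + ∏ v, y v) ^ (-A) by positivity)
  rw [mul_assoc]
  refine le_trans ?_ h1
  rw [Finset.sum_mul]
  refine Finset.sum_le_sum fun u hu => ?_
  set τ : Pl K → ℝ := fun v => j * (lg ((u : R K) : K) v + Real.log (y v) / j) with hτ
  have h2 : ∀ v, (‖ev v ((u : R K) : K)‖ ^ 2) ^ j * y v = Real.exp (τ v) := fun v => by
    rw [hτ, ← exp_lg v (unit_ne_zero u), ← Real.exp_nat_mul]
    beta_reduce
    rw [mul_add, mul_div_cancel₀ _ hj'.ne', Real.exp_add, Real.exp_log (hy v)]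
  have h3 : ∏ v, Real.exp (τ v) = ∏ v, y v := by
    simp only [← h2]
    rw [Finset.prod_mul_distrib, Finset.prod_pow, prod_norm_ev, nK_EU (hs u hu), one_pow, one_mul]
  have h4 : 1 + ∏ v, y v ≤ ∏ v, (1 + Real.exp (τ v)) := by
    have := Finset.prod_add_prod_le (s := Finset.univ) (i := v0 K) (g := fun _ => (1 : ℝ))
      (h := fun v => Real.exp (τ v)) (f := fun v => 1 + Real.exp (τ v)) (Finset.mem_univ _) le_rfl
      (fun v _ _ => by linarith [Real.exp_pos (τ v)]) (fun v _ _ => by linarith)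
      (fun _ _ => zero_le_one) fun v _ => (Real.exp_pos _).le
    rwa [Finset.prod_const_one, h3] at this
  have h5 : ∀ v, (1 + Real.exp (τ v)) ^ (-(A + 1)) =
      (1 + Real.exp (τ v))⁻¹ * (1 + Real.exp (τ v)) ^ (-A) := fun v => by
    rw [neg_add, Real.rpow_add (by positivity), Real.rpow_neg_one, mul_comm]
  simp only [h2, h5]
  rw [Finset.prod_mul_distrib, Real.finsetProd_rpow _ _ (fun v _ => by positivity), ← mul_assoc]
  refine mul_le_mul ((Finset.prod_le_prod (fun v _ => by positivity)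
    fun v _ => inv_one_add_exp_le (η := η) (τ v)).trans (le_of_eq ?_))
    (Real.rpow_le_rpow_of_nonpos (by positivity) h4 (by linarith)) (by positivity) (by positivity)
  rw [Finset.prod_mul_distrib, mul_comm, ← h3, ← Real.exp_sum, ← Real.exp_sum, ← Real.exp_sum,
    ← Real.exp_mul]
  simp only [hτ, abs_mul, Nat.abs_cast, Finset.sum_neg_distrib, ← Finset.mul_sum]
  congr 2 <;> ring

/-- smooth partition of unity -/
theorem exists_pou (hE : E ≤ EU K) (hi : E.relIndex (EU K) ≠ 0) (hk : 0 < k) :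
    ∃ ϖ : HH K → ℝ, ContDiff ℝ ∞ ϖ ∧ HasCompactSupport ϖ ∧ (∀ t, 0 ≤ ϖ t) ∧
      ∀ t, (Function.support fun u : E => ϖ (t + k • lgH ((u.1 : R K) : K))).Finite ∧
        HasSum (fun u : E => ϖ (t + k • lgH ((u.1 : R K) : K))) 1 := by
  obtain ⟨D, hD⟩ := exists_UF hE hi hk
  obtain ⟨T, -, hT⟩ := hD.exists_bound
  let b : ContDiffBump (0 : HH K) := ⟨1, 2, one_pos, one_lt_two⟩
  have h0 : ∀ t : HH K, ∫ s in D, b.normed volume (t - s) ≠ 0 → ‖t‖ ≤ T + 2 := fun t ht => by
    by_contra h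
    refine ht (setIntegral_eq_zero_of_forall_eq_zero fun s hs => ?_)
    rw [← Function.notMem_support, b.support_normed_eq, mem_ball_zero_iff]
    change ¬‖t - s‖ < 2
    linarith [norm_sub_norm_le t s, hT s hs]
  refine ⟨fun t => ∫ s in D, b.normed volume (t - s), ?_,
    HasCompactSupport.intro (isCompact_closedBall 0 (T + 2)) fun t ht => ?_,
    fun t => integral_nonneg fun s => b.nonneg_normed _, fun t => ⟨?_, ?_⟩⟩
  · have h1 := (b.hasCompactSupport_normed (μ := volume)).contDiff_convolution_right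
      (ContinuousLinearMap.lsmul ℝ ℝ) (f := D.indicator fun _ => (1 : ℝ)) (μ := volume) (n := ⊤)
      ((locallyIntegrable_const 1).indicator hD.1) b.contDiff_normed
    convert h1 using 2 with t
    rw [convolution_def, ← integral_indicator hD.1]
    refine integral_congr_ae (Eventually.of_forall fun s => ?_)
    by_cases hs : s ∈ D <;> simp [hs]
  · exact by_contra fun h => ht (mem_closedBall_zero_iff.2 (h0 t h))
  · refine ((finite_EU (K := K) ((T + 2 + ‖t‖) / k)).preimage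
      (f := fun u : E => u.1) Subtype.val_injective.injOn).subset fun u hu => ⟨hE u.2, ?_⟩
    have h1 := (norm_sub_le _ t).trans (add_le_add_left (h0 _ hu) _)
    rw [add_sub_cancel_left, norm_smul, Real.norm_of_nonneg hk.le] at h1
    exact (le_div_iff₀' hk).2 h1
  · have h1 := hD.hasSum hE ((b.integrable_normed (μ := volume)).comp_sub_left t)
    rw [integral_sub_left_eq_self (b.normed volume), b.integral_normed] at h1
    refine (Equiv.inv E).hasSum_iff.1 ?_
    refine h1.congr_fun fun u => integral_congr_ae (Eventually.of_forall fun s => congrArg _ ?_)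
    rw [Equiv.inv_apply, Subgroup.coe_inv, lgH_unit_inv, smul_neg]
    abel

end Vale.Agent.P016.N0
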