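import Vale.Agent.P016.N0.LatUn
import Vale.Agent.P016.N0.LatKK
import Vale.Agent.P016.N0.LatOrb
import Vale.Agent.P016.N0.LatPois
import Vale.Agent.P016.N0.LatFT

/-! # P319 LAT: unfolding a theta integral. -/

namespace Vale.Agent.P016.N0

open Vale.Agent.P319

open scoped ComplexConjugate Real ContDiff NumberField nonZeroDivisors Topology
open MeasureTheory Filter Set

variable {K : Type} [Field K] [NumberField K] [Stp K]

theorem summable_theta {I : FI K} (hI : I ≠ 0) {a : Pl K → ℝ} (ha : ∀ v, 0 < a v) {j : ℕ} (hj : 0 < j) :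
    Summable fun x : I => Real.exp (-∑ v, a v * (‖ev v (x : K)‖ ^ 2) ^ j) := by
  obtain ⟨C, hC⟩ := exp_decay ha hj (2 * rr K + 1)
  obtain ⟨C', hC'⟩ := tsum_lat_le hI
  refine Summable.of_nonneg_of_le (fun x => (Real.exp_pos _).le) (fun x => ?_) ((hC' 0).1.mul_left C)
  rw [add_zero, mul_one_div]
  exact hC (emb (x : K))

/-- the theta kernel -/
noncomputable def gT (c : ℝ) (j : ℕ) (t : HH K) (x : K) : ℝ :=
  Real.exp (-∑ v, c * Real.exp (ex t v) * (‖ev v x‖ ^ 2) ^ j)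

theorem gT_pos (c : ℝ) (j : ℕ) (t : HH K) (x : K) : 0 < gT c j t x := Real.exp_pos _

theorem continuous_gT (c : ℝ) (j : ℕ) (x : K) : Continuous fun t : HH K => gT c j t x := by
  have := continuous_ex (K := K)
  unfold gT
  fun_prop

theorem gT_unit (c : ℝ) (j : ℕ) (t : HH K) (x : K) {u : (R K)ˣ} (hu : u ∈ EU K) :
    gT c j t (((u : R K) : K) * x) = gT c j (t + (j : ℝ) • lgH ((u : R K) : K)) x := by
  unfold gT
  congr 2
  refine Finset.sum_congr rfl fun v _ => ?_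
  rw [ex_add, ex_smul, ex_lgH hu, Real.exp_add, Real.exp_nat_mul, exp_lg v (unit_ne_zero u), ev_mul,
    norm_mul]
  ring

theorem hasSum_gT {c : ℝ} (hc : 0 < c) {j : ℕ} {D : Set (HH K)} (hD : UF (EU K) j D) {x : K}
    (hx : x ≠ 0) : HasSum (fun u : EU K => ∫ t in D, gT c j t (((u.1 : R K) : K) * x))
      (KK K (c ^ rr K * nK x ^ j)) := by
  have ha : ∀ v : Pl K, 0 < c * (‖ev v x‖ ^ 2) ^ j := fun v => by
    have := norm_pos_iff.2 (ev_ne_zero v hx)
    positivity
  have h := hD.hasSum le_rfl (integrable_KK ha)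
  rw [← KK_eq ha, Finset.prod_mul_distrib, Finset.prod_const, Finset.card_univ, Finset.prod_pow,
    prod_norm_ev] at h
  refine h.congr_fun fun u => integral_congr_ae (Eventually.of_forall fun t => ?_)
  simp only [gT_unit c j t x u.2]
  simp only [gT, mul_right_comm c]

theorem gT_bound {I : FI K} (hI : I ≠ 0) {c : ℝ} (hc : 0 < c) {j : ℕ} (hj : 0 < j) {D : Set (HH K)}
    {k : ℝ} (hD : UF (EU K) k D) :
    ∃ b : I → ℝ, Summable b ∧ ∀ t ∈ D, ∀ x : I, gT c j t (x : K) ≤ b x := by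
  obtain ⟨T, -, hT⟩ := hD.exists_bound
  refine ⟨_, summable_theta hI (a := fun _ => c * Real.exp (-(rr K * T))) (fun _ => by positivity) hj,
    fun t ht x => ?_⟩
  rw [gT, Real.exp_le_exp, neg_le_neg_iff]
  refine Finset.sum_le_sum fun v _ => ?_
  have h1 := (abs_le.1 ((abs_ex_le t v).trans
    (mul_le_mul_of_nonneg_left (hT t ht) (Nat.cast_nonneg _)))).1
  gcongr

theorem integrableOn_gT {I : FI K} {c : ℝ} {j : ℕ} {D : Set (HH K)} {k : ℝ} (hD : UF (EU K) k D)
    {b : I → ℝ} (hb : ∀ t ∈ D, ∀ x : I, gT c j t (x : K) ≤ b x) (x : I) :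
    IntegrableOn (fun t => gT c j t (x : K)) D :=
  Measure.integrableOn_of_bounded hD.vol_ne_top (continuous_gT c j _).aestronglyMeasurable
    ((ae_restrict_iff' hD.1).2 (Eventually.of_forall fun t ht => by
      rw [Real.norm_of_nonneg (gT_pos _ _ _ _).le]
      exact hb t ht x))

theorem summable_int_gT {I : FI K} (hI : I ≠ 0) {c : ℝ} (hc : 0 < c) {j : ℕ} (hj : 0 < j)
    {D : Set (HH K)} {k : ℝ} (hD : UF (EU K) k D) :
    Summable fun x : I => ∫ t in D, gT c j t (x : K) := by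
  obtain ⟨b, h1, h2⟩ := gT_bound hI hc hj hD
  refine Summable.of_norm_bounded (h1.mul_right (volume.real D)) fun x => ?_
  refine norm_setIntegral_le_of_norm_le_const hD.vol_ne_top.lt_top fun t ht => ?_
  rw [Real.norm_of_nonneg (gT_pos _ _ _ _).le]
  exact h2 t ht x

/-- regrouping a sum over `I` into orbits -/
theorem hasSum_orbits {I : FI K} {H : K → ℂ} (hH : Summable fun x : I => H x) {G : K → ℂ}
    (hG : ∀ x ∈ I, x ≠ 0 → HasSum (fun u : EU K => H (((u.1 : R K) : K) * x)) (G x)) :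
    HasSum (fun x : KQ K => ind (x.out ∈ I ∧ x.out ≠ 0) * G x.out) (∑' x : I, H x - H 0) := by
  classical
  obtain ⟨e, he⟩ := exists_orbEquiv I
  have hi : Function.Injective fun x : {x : K // x ∈ I ∧ x ≠ 0} => (⟨x.1, x.2.1⟩ : I) :=
    fun x y h => Subtype.ext (congrArg (fun z : I => (z : K)) h)
  have h1 := hasSum_ite_sub_hasSum hH.hasSum ⟨0, FractionalIdeal.zero_mem I⟩
  have h2 : HasSum (fun x : {x : K // x ∈ I ∧ x ≠ 0} => H x.1) (∑' x : I, H x - H 0) := by
    refine ((hi.hasSum_iff fun x hx => ?_).2 h1).congr_fun fun x => ?_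
    · exact if_pos (Subtype.ext (by_contra fun h => hx ⟨⟨x.1, x.2, h⟩, rfl⟩))
    · exact (if_neg fun h => x.2.2 (congrArg (fun z : I => (z : K)) h)).symm
  have h3 : HasSum (fun p : {x : KQ K // x.out ∈ I ∧ x.out ≠ 0} × EU K =>
      H (((p.2.1 : R K) : K) * p.1.1.out)) (∑' x : I, H x - H 0) := by
    simpa only [Function.comp_def, he] using e.hasSum_iff.2 h2
  have h4 : HasSum (fun q : {x : KQ K // x.out ∈ I ∧ x.out ≠ 0} => G q.1.out) (∑' x : I, H x - H 0) :=
    h3.prod_fiberwise fun q => hG _ q.2.1 q.2.2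
  refine (Subtype.val_injective (p := fun x : KQ K => x.out ∈ I ∧ x.out ≠ 0).hasSum_iff
    fun x hx => ?_).1 (h4.congr_fun fun x => ?_)
  · rw [ind, if_neg fun h => hx ⟨⟨x, h⟩, rfl⟩, zero_mul]
  · simp only [Function.comp_apply, ind, if_pos x.2, one_mul]

theorem summable_KQ {I : FI K} (hI : I ≠ 0) {y : ℝ} (hy : 0 < y) {j : ℕ} (hj : 0 < j) :
    Summable fun x : KQ K => ‖ind (x.out ∈ I ∧ x.out ≠ 0)‖ * KK K (y * nK x.out ^ j) := by
  obtain ⟨D, hD⟩ := exists_UF (K := K) le_rfl (by simp) (Nat.cast_pos.2 hj : (0 : ℝ) < j)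
  have hc : 0 < y ^ ((rr K : ℝ)⁻¹) := by positivity
  have h := (hasSum_orbits (H := fun x => ((∫ t in D, gT (y ^ ((rr K : ℝ)⁻¹)) j t x : ℝ) : ℂ))
    (Complex.summable_ofReal.2 (summable_int_gT hI hc hj hD))
    fun x _ hx => Complex.hasSum_ofReal.2 (hasSum_gT hc hD hx)).summable.norm
  rw [Real.rpow_inv_natCast_pow hy.le rr_pos.ne'] at h
  refine h.congr fun x => ?_
  rw [norm_mul, Complex.norm_real, Real.norm_of_nonneg (KK_nonneg _)]

theorem theta_unfold {I : FI K} (hI : I ≠ 0) {f : K → ℂ} {B : ℝ} (hf : ∀ x ∈ I, ‖f x‖ ≤ B)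
    (hu : ∀ u ∈ EU K, ∀ x ∈ I, f (((u : R K) : K) * x) = f x) {c : ℝ} (hc : 0 < c) {j : ℕ} (hj : 0 < j)
    {D : Set (HH K)} (hD : UF (EU K) j D) :
    IntegrableOn (fun t : HH K => ∑' x : I, f x *
      (Real.exp (-∑ v, c * Real.exp (ex t v) * (‖ev v (x : K)‖ ^ 2) ^ j) : ℂ)) D ∧
    ∫ t in D, ∑' x : I, f x * (Real.exp (-∑ v, c * Real.exp (ex t v) * (‖ev v (x : K)‖ ^ 2) ^ j) : ℂ) =
      ∑' x : KQ K, ind (x.out ∈ I ∧ x.out ≠ 0) * f x.out * KK K (c ^ rr K * nK x.out ^ j) +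
        (volume D).toReal * f 0 := by
  have := countable_FI I
  obtain ⟨b, h1, h2⟩ := gT_bound hI hc hj hD
  have hB : 0 ≤ B := (norm_nonneg _).trans (hf 0 (FractionalIdeal.zero_mem I))
  have hn : ∀ (t : HH K) (x : I), ‖f x * (gT c j t (x : K) : ℂ)‖ = ‖f x‖ * gT c j t (x : K) :=
    fun t x => by rw [norm_mul, Complex.norm_real, Real.norm_of_nonneg (gT_pos _ _ _ _).le]
  change IntegrableOn (fun t : HH K => ∑' x : I, f x * (gT c j t (x : K) : ℂ)) D ∧
    ∫ t in D, ∑' x : I, f x * (gT c j t (x : K) : ℂ) = _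
  have hi : ∀ x : I, IntegrableOn (fun t => f x * (gT c j t (x : K) : ℂ)) D := fun x =>
    (integrableOn_gT hD h2 x).ofReal.const_mul _
  refine ⟨Measure.integrableOn_of_bounded (M := ∑' x, B * b x) hD.vol_ne_top
    (Measurable.aestronglyMeasurable (Measurable.tsum fun x => ?_))
    ((ae_restrict_iff' hD.1).2 (Eventually.of_forall fun t ht =>
      tsum_of_norm_bounded (h1.mul_left B).hasSum fun x => ?_)), ?_⟩
  · have := continuous_gT c j (x : K)
    fun_prop
  · rw [hn]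
    exact mul_le_mul (hf _ x.2) (h2 t ht x) (gT_pos _ _ _ _).le hB
  have h3 := hasSum_integral_of_summable_integral_norm hi (by
    simp only [hn, integral_const_mul]
    exact Summable.of_nonneg_of_le
      (fun x => mul_nonneg (norm_nonneg _) (integral_nonneg fun t => (gT_pos _ _ _ _).le))
      (fun x => mul_le_mul_of_nonneg_right (hf _ x.2) (integral_nonneg fun t => (gT_pos _ _ _ _).le))
      ((summable_int_gT hI hc hj hD).mul_left B))
  simp only [integral_const_mul, integral_complex_ofReal] at h3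
  have h4 := hasSum_orbits (H := fun x => f x * ((∫ t in D, gT c j t x : ℝ) : ℂ)) h3.summable
    (G := fun x => f x * KK K (c ^ rr K * nK x ^ j)) fun x hx hx0 =>
      ((Complex.hasSum_ofReal.2 (hasSum_gT hc hD hx0)).mul_left (f x)).congr_fun fun u => by
        rw [hu _ u.2 x hx]
  simp only [mul_assoc]
  rw [h4.tsum_eq, h3.tsum_eq]
  simp [gT, hj.ne', Measure.real_def, mul_comm]

end Vale.Agent.P016.N0
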