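import Vale.Agent.P016.N0.LatBasis

/-! # P319 LAT: the volume factor.  PLAN: see the header of LatBasis.  `b i := c.e (Pi.single i 1)` is a `ℤ`-basis of `I`
(`c.e` is additive because `emb` is injective and `c.L` is linear), `c.L '' [0,1)^n` is the fundamental domain of the lattice
`emb '' I`. -/

namespace Vale.Agent.P016.N0

open Vale.Agent.P319

open scoped ComplexConjugate Real ContDiff NumberField nonZeroDivisors Topology
open MeasureTheory Filter Set

variable {K : Type} [Field K] [NumberField K] [Stp K]

open NumberField NumberField.mixedEmbedding in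
open scoped Classical in
private theorem exists_phi : ∃ Φ : mixedSpace K →+ (Pl K → ℂ), MeasurePreserving Φ ∧
    (∀ x : K, Φ (mixedEmbedding K x) = emb x) ∧ InfinitePlace.nrComplexPlaces K = rr K := by
  let e : Pl K ≃ {w : InfinitePlace K // w.IsComplex} :=
    (Equiv.ofBijective _ pl_mk_bij).trans (Equiv.subtypeUnivEquiv pl_isComplex).symm
  have he : ∀ v, (e v).1 = InfinitePlace.mk v.1 := fun _ => rfl
  let σ : Pl K → ℂ →+ ℂ := fun v =>
    if (e v).1.embedding = v.1 then AddMonoidHom.id ℂ else (starRingEnd ℂ).toAddMonoidHom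
  have hσ : ∀ v, MeasurePreserving (σ v) := fun v => by
    simp only [σ]
    split_ifs
    · exact MeasurePreserving.id _
    · exact Complex.conjLIE.measurePreserving
  refine ⟨⟨⟨fun x v => σ v (x.2 (e v)), ?_⟩, ?_⟩, ?_, fun x => ?_, (Fintype.card_congr e).symm⟩
  · funext v; simp
  · intro x y; funext v; simp
  · have : IsEmpty {w : InfinitePlace K // w.IsReal} :=
      ⟨fun w => InfinitePlace.not_isReal_iff_isComplex.2 (pl_isComplex w.1) w.2⟩
    have : IsProbabilityMeasure (volume : Measure ({w : InfinitePlace K // w.IsReal} → ℝ)) := by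
      rw [Measure.volume_pi_eq_dirac]
      infer_instance
    exact (volume_preserving_pi hσ).comp ((volume_preserving_arrowCongr' e.symm
      (MeasurableEquiv.refl ℂ) (MeasurePreserving.id _)).comp measurePreserving_snd)
  · funext v
    change σ v ((mixedEmbedding K x).2 (e v)) = v.1 x
    rw [mixedEmbedding_apply_isComplex]
    simp only [σ]
    split_ifs with h
    · rw [h]; rfl
    · have h1 := (InfinitePlace.embedding_mk_eq v.1).resolve_left h
      rw [he, h1]
      simp

/-- the half open unit box -/
def latBox (n : ℕ) : Set (Fin n → ℝ) := univ.pi fun _ => Ico 0 1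

theorem latBox_meas (n : ℕ) : MeasurableSet (latBox n) :=
  MeasurableSet.univ_pi fun _ => measurableSet_Ico

theorem latBox_vol (n : ℕ) : volume (latBox n) = 1 := by
  rw [latBox, Real.volume_pi_Ico]
  simp

theorem latBox_unique {n : ℕ} (x : Fin n → ℝ) :
    ∃! m : Fin n → ℤ, (fun i => (m i : ℝ)) + x ∈ latBox n := by
  refine ⟨fun i => -⌊x i⌋, fun i _ => ?_, fun m hm => funext fun i => ?_⟩
  · have h1 := Int.floor_le (x i)
    have h2 := Int.lt_floor_add_one (x i)
    simp only [Pi.add_apply, Int.cast_neg, mem_Ico]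
    constructor <;> linarith
  · have h := hm i trivial
    simp only [Pi.add_apply, mem_Ico] at h
    have : ⌊x i⌋ = -m i := Int.floor_eq_iff.2 ⟨by push_cast; linarith [h.1], by push_cast; linarith [h.2]⟩
    omega

open NumberField NumberField.mixedEmbedding in
open scoped Classical in
theorem Coord.volume_box {I : FI K} (hI : I ≠ 0) (c : Coord I) :
    volume (c.L.symm ⁻¹' latBox _) = ENNReal.ofReal (cvol I) := by
  obtain ⟨Φ, h1, h2, h3⟩ := exists_phi (K := K)
  have hm : MeasurableSet (c.L.symm ⁻¹' latBox _) :=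
    (latBox_meas _).preimage c.L.symm.continuous.measurable
  have hF : IsAddFundamentalDomain (idealLattice K (Units.mk0 I hI))
      (Φ ⁻¹' (c.L.symm ⁻¹' latBox _)) volume := by
    refine IsAddFundamentalDomain.mk' (hm.preimage h1.measurable).nullMeasurableSet fun x => ?_
    obtain ⟨m, hm1, hm2⟩ := latBox_unique (c.L.symm (Φ x))
    have key : ∀ m : Fin (2 * rr K) → ℤ, c.L.symm (Φ (mixedEmbedding K (c.e m : K) + x)) =
        (fun i => (m i : ℝ)) + c.L.symm (Φ x) := fun m => by
      rw [map_add, h2, c.emb_e, map_add, c.L.symm_apply_apply]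
    refine ⟨⟨mixedEmbedding K (c.e m : K), (mem_idealLattice K _).2 ⟨_, (c.e m).2, rfl⟩⟩, ?_, ?_⟩
    · change c.L.symm (Φ (mixedEmbedding K (c.e m : K) + x)) ∈ latBox _
      rw [key]
      exact hm1
    · rintro ⟨g, hg⟩ hg'
      obtain ⟨y, hy, rfl⟩ := (mem_idealLattice K _).1 hg
      obtain ⟨m', hm'⟩ := c.e.surjective ⟨y, hy⟩
      have hy' : y = (c.e m' : K) := (congrArg Subtype.val hm').symm
      subst hy'
      change c.L.symm (Φ (mixedEmbedding K (c.e m' : K) + x)) ∈ latBox _ at hg'
      rw [key] at hg'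
      obtain rfl := hm2 m' hg'
      rfl
  have h4 := ZLattice.covolume_eq_measure_fundamentalDomain _ _ hF
  rw [covolume_idealLattice, h1.measureReal_preimage hm.nullMeasurableSet, h3] at h4
  have h5 : volume (c.L.symm ⁻¹' latBox _) ≠ ⊤ := by
    intro h
    rw [measureReal_def, h, ENNReal.toReal_top] at h4
    have h6 := absNorm_FI_pos hI
    have : (NumberField.discr K : ℝ) ≠ 0 := Int.cast_ne_zero.2 (NumberField.discr_ne_zero K)
    have h7 : 0 < √|(NumberField.discr K : ℝ)| := by positivity
    simp only [Units.val_mk0] at h4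
    exact (by positivity : (0 : ℝ) < _).ne' h4
  rw [← ENNReal.ofReal_toReal h5, ← measureReal_def, ← h4]
  congr 1
  simp only [Units.val_mk0, cvol, covol]
  rw [inv_pow]
  ring

theorem Coord.volume_eq {I : FI K} (hI : I ≠ 0) (c : Coord I) :
    (volume : Measure (Pl K → ℂ)) = ENNReal.ofReal (cvol I) • Measure.map c.L volume := by
  have h := Measure.isAddLeftInvariant_eq_smul (volume : Measure (Pl K → ℂ)) (volume.map c.L)
  have hm : MeasurableSet (c.L.symm ⁻¹' latBox _) :=
    (latBox_meas _).preimage c.L.symm.continuous.measurable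
  have h1 := c.volume_box hI
  rw [h, Measure.smul_apply, Measure.map_apply c.L.continuous.measurable hm, ← preimage_comp,
    c.L.symm_comp_self, preimage_id, latBox_vol, ENNReal.smul_def, smul_eq_mul, mul_one] at h1
  rw [← h1]
  exact h

theorem Coord.integral_eq {V : Type} [NormedAddCommGroup V] [NormedSpace ℝ V] {I : FI K} (hI : I ≠ 0)
    (c : Coord I) (g : (Pl K → ℂ) → V) : ∫ z, g z = cvol I • ∫ x, g (c.L x) := by
  rw [c.volume_eq hI, integral_smul_measure, ENNReal.toReal_ofReal (cvol_pos hI).le]
  exact congrArg _ (c.L.toHomeomorph.measurableEmbedding.integral_map g)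

end Vale.Agent.P016.N0
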