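import Vale.Agent.P016.N0.Loc

/-! BASE: calculus of `SIn a` (`M ^ a O_S`) and of the groups `U_q`.
PLAN.  `SIn a x` means `s x = M^a t` with `s` coprime to `M`; products of such `s` are coprime to `M`.
`SIn.exists_int`: `s x = M^a t`, `M^k x = y`; with `u s^. + v M^(a+k).. = 1` (`IsCoprime.pow_right`).
`exists_int_approx`: `u s + v M^a = 1`, `t' = u t`, `x - u s x = v M^a x`.
`exists_sIn_pow`: `x = y / d`, `d` a nonzero integer (`Algebra.IsAlgebraic.exists_integral_multiple` or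
`IsLocalization.surj` over `ℤ`), `d = d1 d2`, `d1 ∣ M^a`, `d2` coprime to `M` (`Nat.exists_eq_mul..`, or induction).
`exists_R_approx`: `M^k x ∈ O_S`, approximate it mod `M^(a+k)` in `𝓞 K`, divide by the unit `M^k`.
`exists_R_approx_mod`: approximate `(x - c) / m` deeply (`exists_sIn_pow` for `m`), `y = c + m y'`.
`InUq.inv`: `s x = s + M^q t =: s'` is coprime to `M`, `s' (x⁻¹ - 1) = - M^q t`.
`eq_zero_of_forall_sIn`: `M^b / x ∈ O_S`, `x ∈ M^(b+1) O_S` give `SIn 1 1`. -/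

namespace Vale.Agent.P016.N0

open Vale.Agent.P319

open scoped NumberField nonZeroDivisors

variable {K : Type} [Field K] [NumberField K] [Stp K] {a b q : ℕ} {x y : K}

section
omit [NumberField K] [Stp K]
private theorem cmul (s t : 𝓞 K) : ((s * t : 𝓞 K) : K) = (s : K) * t := map_mul _ _ _
private theorem cadd (s t : 𝓞 K) : ((s + t : 𝓞 K) : K) = (s : K) + t := map_add _ _ _
private theorem csub (s t : 𝓞 K) : ((s - t : 𝓞 K) : K) = (s : K) - t := map_sub _ _ _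
private theorem cneg (s : 𝓞 K) : ((-s : 𝓞 K) : K) = -(s : K) := map_neg _ _
private theorem cpow (s : 𝓞 K) (k : ℕ) : ((s ^ k : 𝓞 K) : K) = (s : K) ^ k := map_pow _ _ _
private theorem cone : ((1 : 𝓞 K) : K) = 1 := map_one _
private theorem czero : ((0 : 𝓞 K) : K) = 0 := map_zero _
private theorem cnat (k : ℕ) : ((k : 𝓞 K) : K) = k := map_natCast _ _
private theorem cint (k : ℤ) : ((k : 𝓞 K) : K) = k := map_intCast _ _
private theorem cinj {s t : 𝓞 K} (h : (s : K) = t) : s = t :=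
  NumberField.RingOfIntegers.coe_injective h

end

private theorem nat_split (M : ℕ) (d : ℕ) (hd : d ≠ 0) :
    ∃ s a : ℕ, Nat.Coprime s M ∧ d ∣ s * M ^ a := by
  induction d using Nat.strong_induction_on with
  | _ d ih =>
    by_cases h : Nat.gcd d M = 1
    · exact ⟨d, 0, h, by simp⟩
    obtain ⟨d', hd'⟩ := Nat.gcd_dvd_left d M
    have hg : 0 < Nat.gcd d M := Nat.gcd_pos_of_pos_left _ (Nat.pos_of_ne_zero hd)
    have h0 : d' ≠ 0 := fun e => hd (by rw [hd', e, mul_zero])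
    have hlt : d' < d := by
      conv_rhs => rw [hd']
      exact lt_mul_left (Nat.pos_of_ne_zero h0) (by omega)
    obtain ⟨s, a, hs, hdv⟩ := ih d' hlt h0
    refine ⟨s, a + 1, hs, ?_⟩
    rw [hd', pow_succ, ← mul_assoc, mul_comm]
    exact mul_dvd_mul hdv (Nat.gcd_dvd_right _ _)

private theorem not_isUnit_M : ¬IsUnit (MM K : 𝓞 K) := by
  intro h
  have h1 := h.map (Algebra.norm ℤ)
  have h2 : (MM K : 𝓞 K) = algebraMap ℤ (𝓞 K) (MM K : ℤ) := by simp
  rw [h2, Algebra.norm_algebraMap, isUnit_pow_iff Module.finrank_pos.ne', Int.isUnit_iff] at h1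
  have := six_le_M (K := K)
  omega

private theorem ne_zero_of_coprime {s : 𝓞 K} (hs : IsCoprime s (MM K : 𝓞 K)) : (s : K) ≠ 0 := by
  intro h
  have : s = 0 := cinj (h.trans czero.symm)
  rw [this, isCoprime_zero_left] at hs
  exact not_isUnit_M hs

theorem sIn_zero (a : ℕ) : SIn a (0 : K) := by
  exact ⟨1, 0, isCoprime_one_left, by simp⟩
theorem SIn.add (hx : SIn a x) (hy : SIn a y) : SIn a (x + y) := by
  obtain ⟨s, t, hs, e⟩ := hx
  obtain ⟨s', t', hs', e'⟩ := hy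
  refine ⟨s * s', s' * t + s * t', hs.mul_left hs', ?_⟩
  rw [cmul, cadd, cmul, cmul]
  linear_combination (s' : K) * e + (s : K) * e'
theorem SIn.neg (hx : SIn a x) : SIn a (-x) := by
  obtain ⟨s, t, hs, e⟩ := hx
  refine ⟨s, -t, hs, ?_⟩
  rw [cneg]
  linear_combination -e
theorem SIn.sub (hx : SIn a x) (hy : SIn a y) : SIn a (x - y) := by
  rw [sub_eq_add_neg]; exact hx.add hy.neg
theorem SIn.mul (hx : SIn a x) (hy : SIn b y) : SIn (a + b) (x * y) := by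
  obtain ⟨s, t, hs, e⟩ := hx
  obtain ⟨s', t', hs', e'⟩ := hy
  refine ⟨s * s', t * t', hs.mul_left hs', ?_⟩
  rw [cmul, cmul, pow_add]
  linear_combination ((s' : K) * y) * e + ((MM K : K) ^ a * t) * e'
theorem SIn.mul_left (hy : SIn a y) (hx : SIn 0 x) : SIn a (x * y) := by
  simpa using hx.mul hy
theorem SIn.mul_right (hx : SIn a x) (hy : SIn 0 y) : SIn a (x * y) := by
  simpa using hx.mul hy
theorem SIn.mono (hx : SIn b x) (h : a ≤ b) : SIn a x := by
  obtain ⟨s, t, hs, e⟩ := hx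
  obtain ⟨c, rfl⟩ := Nat.exists_eq_add_of_le h
  refine ⟨s, (MM K : 𝓞 K) ^ c * t, hs, ?_⟩
  rw [cmul, cpow, cnat, e, pow_add, mul_assoc]
theorem SIn.zero (hx : SIn a x) : SIn 0 x := by
  exact hx.mono a.zero_le
theorem SIn.pow (hx : SIn a x) (k : ℕ) : SIn (a * k) (x ^ k) := by
  induction k with
  | zero => exact ⟨1, 1, isCoprime_one_left, by simp⟩
  | succ k ih => rw [Nat.mul_succ, pow_succ]; exact ih.mul hx
theorem SIn.pow0 (hx : SIn 0 x) (k : ℕ) : SIn 0 (x ^ k) := by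
  simpa using hx.pow k
theorem SIn.sum {ι : Type*} {s : Finset ι} {f : ι → K} (h : ∀ i ∈ s, SIn a (f i)) :
    SIn a (∑ i ∈ s, f i) := by
  exact Finset.sum_induction f (SIn a) (fun _ _ => SIn.add) (sIn_zero a) h
theorem SIn.prod {ι : Type*} {s : Finset ι} {f : ι → K} (h : ∀ i ∈ s, SIn 0 (f i)) :
    SIn 0 (∏ i ∈ s, f i) := by
  exact Finset.prod_induction f (SIn 0) (fun _ _ => SIn.mul_right)
    ⟨1, 1, isCoprime_one_left, by simp⟩ h
theorem sIn_sub_comm : SIn a (x - y) ↔ SIn a (y - x) := by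
  constructor <;> intro h <;> simpa using h.neg
theorem sIn_int (t : 𝓞 K) : SIn 0 (t : K) := by
  exact ⟨1, t, isCoprime_one_left, by simp⟩
theorem sIn_one : SIn 0 (1 : K) := by
  simpa using sIn_int (K := K) 1
theorem sIn_natCast (k : ℕ) : SIn 0 (k : K) := by
  simpa using sIn_int (K := K) k
theorem sIn_intCast (k : ℤ) : SIn 0 (k : K) := by
  simpa using sIn_int (K := K) k
theorem sIn_pow_M (a : ℕ) : SIn a ((MM K : K) ^ a) := by
  exact ⟨1, 1, isCoprime_one_left, by simp⟩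
theorem sIn_pow_mul_int (a : ℕ) (t : 𝓞 K) : SIn a ((MM K : K) ^ a * t) := by
  exact ⟨1, t, isCoprime_one_left, by simp⟩
theorem sIn_iff_exists : SIn a x ↔ ∃ y : K, SIn 0 y ∧ x = (MM K : K) ^ a * y := by
  constructor
  · rintro ⟨s, t, hs, e⟩
    have hM := pow_ne_zero a (M_ne_zero (K := K))
    refine ⟨x / (MM K : K) ^ a, ⟨s, t, hs, ?_⟩, by field_simp⟩
    rw [pow_zero, one_mul, ← mul_div_assoc, e, mul_div_cancel_left₀ _ hM]
  · rintro ⟨y, hy, rfl⟩
    exact (sIn_pow_M a).mul_right hy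
theorem sIn_iff_div : SIn a x ↔ SIn 0 (x / (MM K : K) ^ a) := by
  have hM := pow_ne_zero a (M_ne_zero (K := K))
  rw [sIn_iff_exists]
  constructor
  · rintro ⟨y, hy, rfl⟩
    rwa [mul_div_cancel_left₀ _ hM]
  · intro h
    exact ⟨_, h, by field_simp⟩
theorem sIn_pow_mul_iff : SIn (a + b) ((MM K : K) ^ a * x) ↔ SIn b x := by
  have hM := pow_ne_zero a (M_ne_zero (K := K))
  rw [sIn_iff_div, sIn_iff_div (a := b), pow_add, mul_div_mul_left _ _ hM]
theorem sIn_inv_int {s : 𝓞 K} (hs : IsCoprime s (MM K : 𝓞 K)) : SIn 0 (s : K)⁻¹ := by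
  exact ⟨s, 1, hs, by rw [mul_inv_cancel₀ (ne_zero_of_coprime hs), cone, pow_zero, one_mul]⟩
/-- `k ∣ M` costs one power of `M` -/
theorem SIn.div_nat {k : ℕ} (hk : k ∣ MM K) (hx : SIn (a + 1) x) : SIn a (x / k) := by
  obtain ⟨s, t, hs, e⟩ := hx
  obtain ⟨c, hc⟩ := hk
  have hc' : (MM K : K) = k * c := by exact_mod_cast hc
  have hk0 : (k : K) ≠ 0 := left_ne_zero_of_mul (hc' ▸ M_ne_zero)
  refine ⟨s, (c : 𝓞 K) * t, hs, ?_⟩
  rw [cmul, cnat, ← mul_div_assoc, e, div_eq_iff hk0, pow_succ]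
  linear_combination ((MM K : K) ^ a * t) * hc'
/-- `R ∩ M^a O_S = M^a 𝓞 K` -/
theorem SIn.exists_int (h : SIn a x) (hx : x ∈ RS K) : ∃ t : 𝓞 K, x = (MM K : K) ^ a * t := by
  obtain ⟨s, t, hs, e⟩ := h
  obtain ⟨k, y, hy⟩ := (mem_RS_iff_pow x).1 hx
  obtain ⟨u, v, huv⟩ := hs.pow_right (n := a + k)
  have huv' : (u : K) * s + v * (MM K : K) ^ (a + k) = 1 := by
    rw [← cone (K := K), ← huv, cadd, cmul, cmul, cpow, cnat]
  refine ⟨u * t + v * y, ?_⟩
  rw [cadd, cmul, cmul]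
  rw [pow_add] at huv'
  linear_combination (-x) * huv' + (u : K) * e + ((v : K) * (MM K : K) ^ a) * hy
theorem sIn_R_iff {x : R K} :
    SIn a (x : K) ↔ ∃ t : 𝓞 K, x = (MM K : R K) ^ a * algebraMap (𝓞 K) (R K) t := by
  constructor
  · intro h
    obtain ⟨t, ht⟩ := h.exists_int (coe_mem x)
    refine ⟨t, coe_inj.1 ?_⟩
    rw [ht, map_mul, map_pow, map_natCast, coe_int]
  · rintro ⟨t, rfl⟩
    rw [map_mul, map_pow, map_natCast, coe_int]
    exact sIn_pow_mul_int a t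
theorem sIn_R_iff0 {x : R K} : SIn 0 (x : K) ↔ ∃ t : 𝓞 K, x = algebraMap (𝓞 K) (R K) t := by
  simpa using sIn_R_iff (a := 0) (x := x)
theorem sIn_int_iff {t : 𝓞 K} : SIn a (t : K) ↔ (MM K : 𝓞 K) ^ a ∣ t := by
  constructor
  · intro h
    obtain ⟨u, hu⟩ := h.exists_int (int_mem t)
    exact ⟨u, cinj (by rw [hu, cmul, cpow, cnat])⟩
  · rintro ⟨u, rfl⟩
    rw [cmul, cpow, cnat]
    exact sIn_pow_mul_int a u
theorem isCoprime_of_sIn_inv {t : 𝓞 K} (ht : t ≠ 0) (h : SIn 0 (t : K)⁻¹) :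
    IsCoprime t (MM K : 𝓞 K) := by
  obtain ⟨s, u, hs, e⟩ := h
  have ht' : (t : K) ≠ 0 := fun h => ht (cinj (h.trans czero.symm))
  have : s = u * t := cinj (by
    rw [cmul]
    rw [pow_zero, one_mul] at e
    rw [← e, inv_mul_cancel_right₀ ht'])
  rw [this] at hs
  exact hs.of_mul_left_right
theorem not_sIn_one : ¬SIn 1 (1 : K) := by
  intro h
  rw [← cone (K := K), sIn_int_iff, pow_one] at h
  exact not_isUnit_M (isUnit_of_dvd_one h)
theorem exists_sIn_pow (x : K) : ∃ a, SIn 0 ((MM K : K) ^ a * x) := by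
  have halg : IsAlgebraic ℤ x :=
    (IsFractionRing.isAlgebraic_iff ℤ ℚ K).2 (Algebra.IsAlgebraic.isAlgebraic x)
  obtain ⟨d, hd, hx⟩ := halg.exists_integral_multiple
  obtain ⟨s, a, hs, c, hc⟩ := nat_split (MM K) d.natAbs (Int.natAbs_ne_zero.2 hd)
  have hc' : (s : K) * (MM K : K) ^ a = (d.natAbs : K) * c := by exact_mod_cast hc
  have hd' : ((d.natAbs : ℕ) : K) = (d.sign : K) * d := by
    rw [← Int.cast_mul, Int.sign_mul_self_eq_natAbs, Int.cast_natCast]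
  obtain ⟨y, hy⟩ : ∃ y : 𝓞 K, (y : K) = d • x := ⟨⟨d • x, hx⟩, rfl⟩
  refine ⟨a, (s : 𝓞 K), (d.sign : 𝓞 K) * (c : 𝓞 K) * y, Nat.Coprime.cast hs, ?_⟩
  rw [cmul, cmul, cnat, cnat, cint, pow_zero, one_mul, ← mul_assoc, hc', hd', hy, zsmul_eq_mul]
  ring
theorem exists_sIn_both (hx : x ≠ 0) :
    ∃ a, SIn 0 ((MM K : K) ^ a * x) ∧ SIn 0 ((MM K : K) ^ a / x) := by
  obtain ⟨a, ha⟩ := exists_sIn_pow x
  obtain ⟨b, hb⟩ := exists_sIn_pow x⁻¹
  refine ⟨a + b, ?_, ?_⟩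
  · rw [add_comm, pow_add, mul_assoc]; exact ha.mul_left (sIn_pow_M b).zero
  · rw [pow_add, div_eq_mul_inv, mul_assoc]; exact hb.mul_left (sIn_pow_M a).zero
/-- multiplication by `x` loses a bounded number of powers of `M` -/
theorem exists_sIn_mul (x : K) : ∃ b, ∀ a y, SIn (a + b) y → SIn a (x * y) := by
  obtain ⟨b, hb⟩ := exists_sIn_pow x
  refine ⟨b, fun a y hy => ?_⟩
  rw [← sIn_pow_mul_iff (a := b), ← mul_assoc, add_comm]
  exact hy.mul_left hb
theorem eq_zero_of_forall_sIn (h : ∀ a, SIn a x) : x = 0 := by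
  by_contra hx
  obtain ⟨b, hb⟩ := exists_sIn_mul x⁻¹
  have := hb 1 x (h _)
  rw [inv_mul_cancel₀ hx] at this
  exact not_sIn_one this
theorem exists_int_approx (h : SIn 0 x) (a : ℕ) : ∃ t : 𝓞 K, SIn a (x - t) := by
  have h0 := h
  obtain ⟨s, t, hs, e⟩ := h
  obtain ⟨u, v, huv⟩ := hs.pow_right (n := a)
  have huv' : (u : K) * s + v * (MM K : K) ^ a = 1 := by
    rw [← cone (K := K), ← huv, cadd, cmul, cmul, cpow, cnat]
  refine ⟨u * t, ?_⟩
  have : x - ((u * t : 𝓞 K) : K) = (MM K : K) ^ a * (v * x) := by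
    rw [cmul]
    rw [pow_zero, one_mul] at e
    linear_combination (-x) * huv' + (u : K) * e
  rw [this]
  exact (sIn_pow_M a).mul_right ((sIn_int v).mul_right h0)
/-- `K = R + M^a O_S` -/
theorem exists_R_approx (a : ℕ) (x : K) : ∃ y : R K, SIn a (x - y) := by
  obtain ⟨k, hk⟩ := exists_sIn_pow x
  obtain ⟨t, ht⟩ := exists_int_approx hk (k + a)
  refine ⟨(((uM K)⁻¹ : (R K)ˣ) : R K) ^ k * algebraMap (𝓞 K) (R K) t, ?_⟩
  rw [← sIn_pow_mul_iff (a := k), map_mul, map_pow, coe_unit_inv, coe_int, val_uM, map_natCast,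
    mul_sub, ← mul_assoc, ← mul_pow, mul_inv_cancel₀ M_ne_zero, one_pow, one_mul]
  exact ht
/-- approximation at the primes above `M` together with a congruence in `R` -/
theorem exists_R_approx_mod (a : ℕ) (x : K) {m : R K} (hm : m ≠ 0) (c : R K) :
    ∃ y : R K, SIn a (x - y) ∧ m ∣ y - c := by
  obtain ⟨b, hb⟩ := exists_sIn_mul (m : K)
  obtain ⟨y, hy⟩ := exists_R_approx (a + b) ((x - c) / m)
  refine ⟨c + m * y, ?_, ⟨y, by ring⟩⟩
  have h := hb a _ hy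
  have hm' := coe_ne_zero hm
  convert h using 1
  rw [map_add, map_mul]
  field_simp
  ring

theorem inUq_one (q : ℕ) : InUq q (1 : K) := by
  unfold InUq; rw [sub_self]; exact sIn_zero q
theorem InUq.sIn (h : InUq q x) : SIn 0 x := by
  simpa using (SIn.zero h).add sIn_one
theorem InUq.mono {q' : ℕ} (h : InUq q x) (hq : q' ≤ q) : InUq q' x := by
  exact SIn.mono h hq
theorem InUq.mul (hx : InUq q x) (hy : InUq q y) : InUq q (x * y) := by
  have : x * y - 1 = (x - 1) * y + (y - 1) := by ring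
  unfold InUq; rw [this]
  exact (SIn.mul_right hx hy.sIn).add hy
theorem InUq.pow (hx : InUq q x) (k : ℕ) : InUq q (x ^ k) := by
  induction k with
  | zero => rw [pow_zero]; exact inUq_one q
  | succ k ih => rw [pow_succ]; exact ih.mul hx
theorem InUq.prod {ι : Type*} {s : Finset ι} {f : ι → K} (h : ∀ i ∈ s, InUq q (f i)) :
    InUq q (∏ i ∈ s, f i) := by
  exact Finset.prod_induction f (InUq q) (fun _ _ => InUq.mul) (inUq_one q) h
theorem InUq.ne_zero (hq : 1 ≤ q) (hx : InUq q x) : x ≠ 0 := by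
  rintro rfl
  exact not_sIn_one (by simpa using (SIn.mono hx hq).neg)
theorem InUq.inv (hq : 1 ≤ q) (hx : InUq q x) : InUq q x⁻¹ := by
  have h0 := hx.ne_zero hq
  obtain ⟨s, t, hs, e⟩ := hx
  obtain ⟨c, rfl⟩ := Nat.exists_eq_add_of_le hq
  refine ⟨s + (MM K : 𝓞 K) * ((MM K : 𝓞 K) ^ c * t), -t, hs.add_mul_left_left _, ?_⟩
  rw [cadd, cmul, cmul, cpow, cnat, cneg]
  rw [pow_add, pow_one] at e ⊢
  have : (s : K) + (MM K : K) * ((MM K : K) ^ c * t) = s * x := by linear_combination -e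
  rw [this, mul_sub, mul_inv_cancel_right₀ h0]
  linear_combination -e
theorem InUq.div (hq : 1 ≤ q) (hx : InUq q x) (hy : InUq q y) : InUq q (x / y) := by
  rw [div_eq_mul_inv]; exact hx.mul (hy.inv hq)
theorem InUq.zpow (hq : 1 ≤ q) (hx : InUq q x) (k : ℤ) : InUq q (x ^ k) := by
  rcases k with k | k
  · simpa using hx.pow k
  · rw [zpow_negSucc]; exact (hx.pow _).inv hq
theorem InUq.div_symm (hq : 1 ≤ q) (h : InUq q (x / y)) : InUq q (y / x) := by
  simpa using h.inv hq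
theorem InUq.div_trans {z : K} (hq : 1 ≤ q) (h : InUq q (x / y)) (h' : InUq q (y / z)) :
    InUq q (x / z) := by
  have hy : y ≠ 0 := fun e => h'.ne_zero hq (by rw [e, zero_div])
  have := h.mul h'
  rwa [div_mul_div_cancel₀ hy] at this
theorem InUq.of_sub (hx : InUq q x) (h : SIn q (y - x)) : InUq q y := by
  have := h.add hx
  rwa [sub_add_sub_cancel] at this
/-- an element of `R ∩ U_q` lies in `1 + M^q 𝓞 K` -/
theorem InUq.exists_int {x : R K} (h : InUq q (x : K)) :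
    ∃ t : 𝓞 K, x = algebraMap (𝓞 K) (R K) t ∧ (MM K : 𝓞 K) ^ q ∣ t - 1 := by
  obtain ⟨t, ht⟩ := sIn_R_iff0.1 h.sIn
  refine ⟨t, ht, ?_⟩
  rw [← sIn_int_iff, csub, cone]
  rw [ht, coe_int] at h
  exact h
theorem inUq_int_iff {t : 𝓞 K} : InUq q (t : K) ↔ (MM K : 𝓞 K) ^ q ∣ t - 1 := by
  rw [← sIn_int_iff, csub, cone]; rfl
/-- `x U_q` is open -/
theorem exists_inUq_close (hx : x ≠ 0) (q : ℕ) : ∃ a, ∀ y, SIn a (y - x) → InUq q (y / x) := by
  obtain ⟨b, hb⟩ := exists_sIn_mul x⁻¹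
  refine ⟨q + b, fun y hy => ?_⟩
  have := hb q _ hy
  unfold InUq
  convert this using 1
  field_simp
theorem exists_sIn_of_inUq (x : K) (hx : x ≠ 0) (a : ℕ) :
    ∃ q, ∀ y, InUq q (y / x) → SIn a (y - x) := by
  obtain ⟨b, hb⟩ := exists_sIn_mul x
  refine ⟨a + b, fun y hy => ?_⟩
  have := hb a _ hy
  convert this using 1
  field_simp
/-- `x U_q` meets every residue class of `R` -/
theorem exists_R_inUq (q : ℕ) (hx : x ≠ 0) {m : R K} (hm : m ≠ 0) (c : R K) :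
    ∃ y : R K, InUq q ((y : K) / x) ∧ m ∣ y - c := by
  obtain ⟨a, ha⟩ := exists_inUq_close hx q
  obtain ⟨y, hy, hc⟩ := exists_R_approx_mod a x hm c
  exact ⟨y, ha _ (sIn_sub_comm.1 hy), hc⟩
theorem exists_R_inUq_coprime (q : ℕ) (hx : x ≠ 0) {m : R K} (hm : m ≠ 0) :
    ∃ y : R K, InUq q ((y : K) / x) ∧ IsCoprime y m := by
  obtain ⟨y, hy, c, hc⟩ := exists_R_inUq q hx hm 1
  exact ⟨y, hy, 1, -c, by linear_combination hc⟩

end Vale.Agent.P016.N0
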