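import Vale.Agent.P016.N0.ZetaSum

/-! # ZETA, for P016: the twist by `l ↦ (N l / 3)` (TASK).
This file is later copied to a setting WITHOUT a cube root of unity: do not use `om`, `Stp.om`, `nm_mod_three`, `z3`.
PLAN.  `exists_cls_coprime`: take `A` in the class `c⁻¹`, `IsDedekindDomain.exists_sup_span_eq` for `3 A ≤ A` gives `x` with
`3 A ⊔ span {x} = A`; `span {x} = A * B` (`Ideal.dvd_iff_le`), cancel `A`: `span {3} ⊔ B = ⊤`; `ClassGroup.mk0_eq_mk0_inv_iff`.
The norm of `B` is prime to `3`: otherwise the group `𝓞 K ⧸ B` has an element of order `3` (`exists_prime_addOrderOf_dvd_card'`),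
but `3` is a unit there.  `norm_add_three`: `Algebra.norm_eq_matrix_det` for an integral basis, reduce the matrices modulo `3`
(`RingHom.map_det`, `ZMod.intCast_eq_intCast_iff`).
`eta_cont`: `B c` integral, norm prime to `3`, `a c = (B c)⁻¹` (classes `c⁻¹`, a bijection); `class_sum_all` with
`G l = legendreSym 3 (absNorm l).num * absNorm l ^ (-s)`; `hecke_cont` with `I = B c`, `J = 3 * B c`,
`f x = legendreSym 3 (Algebra.norm ℚ x).num`; for `x ∈ B c`: `norm x = nK x = absNorm l * absNorm (B c)` (`norm_eq_nK`, `nK_eq_absNorm`,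
`Algebra.coe_norm_int`), `legendreSym.mul`, `legendreSym.sq_one`; units in `EU` have norm one (`nK_EU`);
`Z s = (idx)⁻¹ * ∑ c, legendreSym 3 (N (B c)) * N (B c) ^ s * Z c s`. -/

namespace Vale.Agent.P016.N0

open Vale.Agent.P319

open scoped ComplexConjugate Real NumberField nonZeroDivisors Topology

theorem exists_cls_coprime (K : Type) [Field K] [NumberField K] (c : ClassGroup (𝓞 K)) :
    ∃ B : (Ideal (𝓞 K))⁰, ClassGroup.mk0 B = c ∧ ¬3 ∣ Ideal.absNorm B.1 := by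
  obtain ⟨A, hA⟩ := ClassGroup.mk0_surjective c⁻¹
  have hA0 : A.1 ≠ 0 := nonZeroDivisors.coe_ne_zero A
  have h3 : (Ideal.span {3} : Ideal (𝓞 K)) ≠ 0 := by
    rw [Ne, Ideal.zero_eq_bot, Ideal.span_singleton_eq_bot]
    norm_num
  obtain ⟨x, hx⟩ := IsDedekindDomain.exists_sup_span_eq
    (Ideal.mul_le_left (I := A.1) (J := Ideal.span {3})) (mul_ne_zero hA0 h3)
  obtain ⟨B, hB⟩ : A.1 ∣ Ideal.span {x} := Ideal.dvd_iff_le.2 (le_sup_right.trans hx.le)
  have h1 : Ideal.span {3} ⊔ B = ⊤ := by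
    refine mul_left_cancel₀ hA0 ?_
    rw [Ideal.mul_sup, ← hB, hx, Ideal.mul_top]
  have hB0 : B ≠ 0 := fun h => by
    rw [h, Ideal.zero_eq_bot, sup_bot_eq, Ideal.span_singleton_eq_top] at h1
    have h2 := h1.map (Algebra.norm ℤ)
    rw [show (3 : 𝓞 K) = algebraMap ℤ (𝓞 K) 3 by simp, Algebra.norm_algebraMap,
      isUnit_pow_iff Module.finrank_pos.ne', Int.isUnit_iff] at h2
    omega
  have hx0 : x ≠ 0 := fun h => mul_ne_zero hA0 hB0 (by rw [← hB, h]; simp)
  refine ⟨⟨B, mem_nonZeroDivisors_iff_ne_zero.2 hB0⟩, ?_, fun h => ?_⟩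
  · rw [← inv_inv c, ← hA, ClassGroup.mk0_eq_mk0_inv_iff]
    exact ⟨x, hx0, by rw [hB, mul_comm]⟩
  · have := Ideal.finiteQuotientOfFreeOfNeBot B hB0
    have : Fact (Nat.Prime 3) := ⟨Nat.prime_three⟩
    obtain ⟨z, hz⟩ := exists_prime_addOrderOf_dvd_card' (G := 𝓞 K ⧸ B) 3 h
    obtain ⟨a, ha, b, hb, hab⟩ := Submodule.mem_sup.1 ((Ideal.eq_top_iff_one _).1 h1)
    obtain ⟨y, rfl⟩ := Ideal.mem_span_singleton'.1 ha
    have h4 : Ideal.Quotient.mk B y * 3 = 1 := by
      have := congrArg (Ideal.Quotient.mk B) hab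
      rwa [map_add, Ideal.Quotient.eq_zero_iff_mem.2 hb, add_zero, map_mul, map_ofNat,
        map_one] at this
    have h5 : (3 : 𝓞 K ⧸ B) * z = 0 := by
      have := addOrderOf_nsmul_eq_zero z
      rwa [hz, nsmul_eq_mul, Nat.cast_ofNat] at this
    have h6 : z = 0 := by rw [← one_mul z, ← h4, mul_assoc, h5, mul_zero]
    rw [h6, addOrderOf_zero] at hz
    omega

theorem norm_add_three {K : Type} [Field K] [NumberField K] (x y : 𝓞 K) :
    (3 : ℤ) ∣ Algebra.norm ℤ (x + 3 * y) - Algebra.norm ℤ x := by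
  classical
  let b := NumberField.RingOfIntegers.basis K
  have h : ((Algebra.norm ℤ x : ℤ) : ZMod 3) = (Algebra.norm ℤ (x + 3 * y) : ℤ) := by
    rw [Algebra.norm_eq_matrix_det b, Algebra.norm_eq_matrix_det b]
    have e := RingHom.map_det (Int.castRingHom (ZMod 3))
      (n := Module.Free.ChooseBasisIndex ℤ (𝓞 K))
    simp only [eq_intCast] at e
    rw [e, e, map_add, map_add, show (3 : 𝓞 K) * y = 3 • y by simp, map_nsmul, map_nsmul]
    congr 1
    ext i j
    have : (3 : ZMod 3) = 0 := rfl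
    rw [Matrix.add_apply, Matrix.smul_apply, nsmul_eq_mul, Nat.cast_ofNat, this, zero_mul,
      add_zero]
  exact (ZMod.intCast_eq_intCast_iff_dvd_sub _ _ 3).1 h

theorem zetaEta_term {K : Type} [Field K] [NumberField K] [Stp K] (B : (Ideal (𝓞 K))⁰)
    (hB : ¬3 ∣ Ideal.absNorm B.1) {x : K} (hx : x ∈ (B.1 : FI K)) (s : ℂ) :
    (legendreSym 3 (Ideal.absNorm B.1) : ℂ) * (Ideal.absNorm B.1 : ℂ) ^ s *
        ((legendreSym 3 (Algebra.norm ℚ x).num : ℂ) * (nK x : ℂ) ^ (-s)) =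
      (legendreSym 3 (FractionalIdeal.absNorm
          (FractionalIdeal.spanSingleton (𝓞 K)⁰ x * (B.1 : FI K)⁻¹)).num : ℂ) *
        ((FractionalIdeal.absNorm
          (FractionalIdeal.spanSingleton (𝓞 K)⁰ x * (B.1 : FI K)⁻¹) : ℚ) : ℂ) ^ (-s) := by
  have hB0 : (B.1 : FI K) ≠ 0 :=
    FractionalIdeal.coeIdeal_ne_zero.2 (nonZeroDivisors.coe_ne_zero B)
  have h1 : FractionalIdeal.spanSingleton (𝓞 K)⁰ x * (B.1 : FI K)⁻¹ ≤ 1 :=
    (mul_le_mul_left (FractionalIdeal.spanSingleton_le_iff_mem.2 hx) _).trans_eq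
      (mul_inv_cancel₀ hB0)
  obtain ⟨l, hl⟩ := FractionalIdeal.le_one_iff_exists_coeIdeal.1 h1
  have h2 : FractionalIdeal.spanSingleton (𝓞 K)⁰ x = (l : FI K) * B.1 := by
    rw [hl, inv_mul_cancel_right₀ hB0]
  have h3 : nK x = (Ideal.absNorm l : ℝ) * Ideal.absNorm B.1 := by
    rw [nK_eq_absNorm, h2, map_mul, FractionalIdeal.coeIdeal_absNorm,
      FractionalIdeal.coeIdeal_absNorm]
    push_cast
    rfl
  have h4 : Algebra.norm ℚ x = (((Ideal.absNorm l : ℤ) * Ideal.absNorm B.1 : ℤ) : ℚ) := by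
    have := (norm_eq_nK x).trans h3
    exact_mod_cast this
  have h5 : (legendreSym 3 (Ideal.absNorm B.1) : ℂ) ^ 2 = 1 := by
    have := legendreSym.sq_one 3 (a := Ideal.absNorm B.1) (by
      rw [Int.cast_natCast, Ne, ZMod.natCast_eq_zero_iff]
      exact hB)
    exact_mod_cast this
  have h6 : (Ideal.absNorm B.1 : ℂ) ^ s * (Ideal.absNorm B.1 : ℂ) ^ (-s) = 1 := by
    rw [← Complex.cpow_add _ _ (Nat.cast_ne_zero.2 (zetaTwo_pos K B).ne'), add_neg_cancel,
      Complex.cpow_zero]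
  rw [← hl, FractionalIdeal.coeIdeal_absNorm, h4, h3, Rat.num_intCast, Rat.num_natCast,
    legendreSym.mul]
  push_cast
  rw [Complex.natCast_mul_natCast_cpow]
  linear_combination (legendreSym 3 (Ideal.absNorm l) : ℂ) * (Ideal.absNorm l : ℂ) ^ (-s) *
    ((Ideal.absNorm B.1 : ℂ) ^ s * (Ideal.absNorm B.1 : ℂ) ^ (-s) * h5 + h6)

theorem zetaEta_one {K : Type} [Field K] [NumberField K] [Stp K] (B : (Ideal (𝓞 K))⁰) :
    ∃ Z : ℂ → ℂ, Differentiable ℂ Z ∧ ∀ s : ℂ, 1 < s.re → Z s = (s - 1) *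
      ∑' x : KQ K, ind (x.out ∈ (B.1 : FI K) ∧ x.out ≠ 0) *
        (legendreSym 3 (Algebra.norm ℚ x.out).num : ℂ) * (nK x.out : ℂ) ^ (-s) := by
  have h3 : (Ideal.span {3} : Ideal (𝓞 K)) ≠ 0 := by
    rw [Ne, Ideal.zero_eq_bot, Ideal.span_singleton_eq_bot]
    norm_num
  have hJ : ((Ideal.span {3} * B.1 : Ideal (𝓞 K)) : FI K) ≠ 0 :=
    FractionalIdeal.coeIdeal_ne_zero.2 (mul_ne_zero h3 (nonZeroDivisors.coe_ne_zero B))
  obtain ⟨T, hT⟩ := exists_reps (I := (B.1 : FI K)) hJ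
  obtain ⟨Z, z1, -, z3⟩ := hecke_cont hJ
    ((FractionalIdeal.coeIdeal_le_coeIdeal K).2 Ideal.mul_le_right) hT
    (f := fun x => (legendreSym 3 (Algebra.norm ℚ x).num : ℂ))
    (fun x' hx y' hy' => by
      obtain ⟨x, -, rfl⟩ := (FractionalIdeal.mem_coeIdeal _).1 hx
      obtain ⟨y, hy, rfl⟩ := (FractionalIdeal.mem_coeIdeal _).1 hy'
      obtain ⟨z, rfl⟩ := Ideal.mem_span_singleton.1 (Ideal.mul_le_left hy)
      have e1 := Algebra.coe_norm_int (x + 3 * z)
      have e2 := Algebra.coe_norm_int x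
      have e3 := norm_add_three x z
      show (legendreSym 3 (Algebra.norm ℚ _).num : ℂ) =
        (legendreSym 3 (Algebra.norm ℚ (x : K)).num : ℂ)
      rw [← map_add]
      show (legendreSym 3 (Algebra.norm ℚ ((x + 3 * z : 𝓞 K) : K)).num : ℂ) = _
      rw [← e1, ← e2, Rat.num_intCast, Rat.num_intCast, legendreSym.mod,
        legendreSym.mod 3 (Algebra.norm ℤ x)]
      congr 2
      omega)
    fun u hu x _ => by
      have e : Algebra.norm ℚ ((u : R K) : K) = 1 := by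
        have := (norm_eq_nK _).trans (nK_EU hu)
        exact_mod_cast this
      show (legendreSym 3 (Algebra.norm ℚ _).num : ℂ) = _
      rw [map_mul, e, one_mul]
  exact ⟨Z, z1, z3⟩

theorem eta_cont (K : Type) [Field K] [NumberField K] [Stp K] :
    ∃ Z : ℂ → ℂ, Differentiable ℂ Z ∧ ∀ s : ℂ, 1 < s.re → Z s = (s - 1) *
      ∑' l : (Ideal (𝓞 K))⁰, (legendreSym 3 (Ideal.absNorm l.1) : ℂ) *
        (Ideal.absNorm l.1 : ℂ) ^ (-s) := by
  choose B hB hB3 using exists_cls_coprime K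
  choose Z z1 z2 using fun c => zetaEta_one (B c)
  have hi : (idx K : ℂ) ≠ 0 := Nat.cast_ne_zero.2 idx_pos.ne'
  refine ⟨fun s => (idx K : ℂ)⁻¹ * ∑ c, (legendreSym 3 (Ideal.absNorm (B c).1) : ℂ) *
    (Ideal.absNorm (B c).1 : ℂ) ^ s * Z c s, ?_, fun s hs => ?_⟩
  · refine (Differentiable.fun_sum fun c _ => ?_).const_mul _
    exact ((differentiable_id.const_cpow
      (Or.inl (Nat.cast_ne_zero.2 (zetaTwo_pos K (B c)).ne'))).const_mul _).mul (z1 c)
  · have ha : Function.Bijective fun c => ClassGroup.mk K (FractionalIdeal.mk0 K (B c))⁻¹ := by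
      simp only [map_inv, ClassGroup.mk_mk0, hB]
      exact inv_involutive.bijective
    have e0 : ∀ l : (Ideal (𝓞 K))⁰,
        (legendreSym 3 (FractionalIdeal.absNorm (l.1 : FI K)).num : ℂ) *
          ((FractionalIdeal.absNorm (l.1 : FI K) : ℚ) : ℂ) ^ (-s) =
        (legendreSym 3 (Ideal.absNorm l.1) : ℂ) * (Ideal.absNorm l.1 : ℂ) ^ (-s) := fun l => by
      rw [FractionalIdeal.coeIdeal_absNorm, Rat.num_natCast, Rat.cast_natCast]
    have h1 := class_sum_all (fun c => (FractionalIdeal.mk0 K (B c))⁻¹) ha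
      (G := fun l => (legendreSym 3 (FractionalIdeal.absNorm l).num : ℂ) *
        ((FractionalIdeal.absNorm l : ℚ) : ℂ) ^ (-s)) (by
        refine Summable.of_norm_bounded (zeta_summable_ideal K hs) fun l => ?_
        rw [e0, norm_mul, zetaTwo_norm]
        refine mul_le_of_le_one_left (by positivity) ?_
        rcases quadraticChar_isQuadratic (ZMod 3) ((Ideal.absNorm l.1 : ℤ) : ZMod 3) with
          h | h | h <;> simp only [legendreSym, h] <;> simp)
    simp only [e0, Units.val_inv_eq_inv_val, inv_inv, FractionalIdeal.coe_mk0] at h1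
    have h2 : ∀ c, (legendreSym 3 (Ideal.absNorm (B c).1) : ℂ) *
        (Ideal.absNorm (B c).1 : ℂ) ^ s * Z c s = (s - 1) *
        ∑' x : KQ K, ind (x.out ∈ ((B c).1 : FI K) ∧ x.out ≠ 0) *
          ((legendreSym 3 (FractionalIdeal.absNorm
            (FractionalIdeal.spanSingleton (𝓞 K)⁰ x.out * ((B c).1 : FI K)⁻¹)).num : ℂ) *
          ((FractionalIdeal.absNorm (FractionalIdeal.spanSingleton (𝓞 K)⁰ x.out *
            ((B c).1 : FI K)⁻¹) : ℚ) : ℂ) ^ (-s)) := fun c => by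
      rw [z2 c s hs, mul_left_comm, ← tsum_mul_left]
      congr 1
      refine tsum_congr fun x => ?_
      by_cases hx : x.out ∈ ((B c).1 : FI K) ∧ x.out ≠ 0
      · rw [← zetaEta_term (B c) (hB3 c) hx.1]
        ring
      · rw [ind, if_neg hx]
        simp
    show (idx K : ℂ)⁻¹ * ∑ c, _ = _
    rw [Finset.sum_congr rfl fun c _ => h2 c, ← Finset.mul_sum, h1, mul_left_comm,
      inv_mul_cancel_left₀ hi]

end Vale.Agent.P016.N0
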