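import Vale.Agent.P016.N0.LatHP
import Vale.Agent.P319.N.ZetaGen
import Vale.Agent.P319.N.ZetaTwo

/-! # P319 ZETA: sums over orbits and ideal classes; Hecke's continuation (TASK).
PLAN.  `b ↦ b * a` is a bijection from the nonzero principal `b ≤ a⁻¹` onto the nonzero integral ideals of the class of `a`
(`FractionalIdeal.le_one_iff_exists_coeIdeal`, `ClassGroup.mk_mk0`, `ClassGroup.mk_eq_one_iff`, `map_mul`); `exists_prinEquiv` records it.
`summable_prin_rpow`: `a = I⁻¹`, `absNorm b = absNorm (b * a) * absNorm I`, `zeta_summable_ideal`, `Summable.subtype`.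
`summable_KQ_rpow`: `hasSum_KQ_ideal` with `G b = absNorm b ^ (-σ)` (cast to `ℂ`), `nK_eq_absNorm`, `summable_norm_iff`.
`class_sum`: `hasSum_KQ_ideal` with `b ↦ G (b * a)`, `Equiv.tsum_eq`, `tsum_subtype`.
`hecke_cont`: `fe_cont` with `HP`; `p x = nK x.out`, `q ξ = (4π²)^r nK ξ.out`; `f` is bounded on `I` by `∑ x ∈ T, ‖f x‖` (periodicity, `Reps`),
the same number bounds the dual coefficients (`norm_eTr`); `dl_ne_zero`. -/

namespace Vale.Agent.P016.N0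

open Vale.Agent.P319

open scoped ComplexConjugate Real NumberField nonZeroDivisors Topology
open MeasureTheory Filter Set

variable {K : Type} [Field K] [NumberField K] [Stp K]

theorem zKer_KK : ZKer (KK K) (rr K) :=
  ⟨KK_nonneg, continuousOn_KK, fun _ h => KK_le_rpow h, fun _ h => hasMellin_KK h⟩

omit [Stp K] in
theorem exists_prinEquiv (a : (FractionalIdeal (𝓞 K)⁰ K)ˣ) :
    ∃ e : {b : FractionalIdeal (𝓞 K)⁰ K // b ≠ 0 ∧ b ≤ a.1⁻¹ ∧ (b : Submodule (𝓞 K) K).IsPrincipal} ≃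
        {l : (Ideal (𝓞 K))⁰ // ClassGroup.mk0 l = ClassGroup.mk K a},
      ∀ b, ((e b).1.1 : FractionalIdeal (𝓞 K)⁰ K) = b.1 * a.1 := by
  have ha : a.1 ≠ 0 := a.ne_zero
  let g : {l : (Ideal (𝓞 K))⁰ // ClassGroup.mk0 l = ClassGroup.mk K a} →
      {b : FractionalIdeal (𝓞 K)⁰ K //
        b ≠ 0 ∧ b ≤ a.1⁻¹ ∧ (b : Submodule (𝓞 K) K).IsPrincipal} := fun l =>
    ⟨(l.1.1 : FractionalIdeal (𝓞 K)⁰ K) * a.1⁻¹,
      mul_ne_zero (FractionalIdeal.coeIdeal_ne_zero.2 (nonZeroDivisors.coe_ne_zero l.1))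
        (inv_ne_zero ha),
      (mul_le_mul_left FractionalIdeal.coeIdeal_le_one a.1⁻¹).trans_eq (one_mul _),
      by
        have h1 : ClassGroup.mk K (FractionalIdeal.mk0 K l.1 * a⁻¹) = 1 := by
          rw [map_mul, ClassGroup.mk_mk0, l.2, map_inv, mul_inv_cancel]
        have h2 := ClassGroup.mk_eq_one_iff.1 h1
        rwa [Units.val_mul, Units.val_inv_eq_inv_val, FractionalIdeal.coe_mk0] at h2⟩
  have hg : Function.Bijective g := by
    refine ⟨fun l l' h => ?_, fun b => ?_⟩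
    · have h1 : (l.1.1 : FractionalIdeal (𝓞 K)⁰ K) * a.1⁻¹ =
          (l'.1.1 : FractionalIdeal (𝓞 K)⁰ K) * a.1⁻¹ := congrArg Subtype.val h
      exact Subtype.ext (Subtype.ext
        (FractionalIdeal.coeIdeal_injective (mul_right_cancel₀ (inv_ne_zero ha) h1)))
    · have h1 : b.1 * a.1 ≤ 1 :=
        (mul_le_mul_left b.2.2.1 a.1).trans_eq (inv_mul_cancel₀ ha)
      obtain ⟨I, hI⟩ := FractionalIdeal.le_one_iff_exists_coeIdeal.1 h1
      have hI0 : I ∈ (Ideal (𝓞 K))⁰ := mem_nonZeroDivisors_iff_ne_zero.2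
        (FractionalIdeal.coeIdeal_ne_zero.1 (hI ▸ mul_ne_zero b.2.1 ha))
      have h2 : FractionalIdeal.mk0 K ⟨I, hI0⟩ = Units.mk0 b.1 b.2.1 * a :=
        Units.ext (by rw [FractionalIdeal.coe_mk0, Units.val_mul, Units.val_mk0, ← hI])
      have h3 : ClassGroup.mk K (Units.mk0 b.1 b.2.1) = 1 := ClassGroup.mk_eq_one_iff.2 b.2.2.2
      refine ⟨⟨⟨I, hI0⟩, ?_⟩, Subtype.ext ?_⟩
      · rw [← ClassGroup.mk_mk0 K, h2, map_mul, h3, one_mul]
      · show (I : FractionalIdeal (𝓞 K)⁰ K) * a.1⁻¹ = b.1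
        rw [hI, mul_inv_cancel_right₀ ha]
  refine ⟨(Equiv.ofBijective g hg).symm, fun b => ?_⟩
  have h1 : (((Equiv.ofBijective g hg).symm b).1.1 : FractionalIdeal (𝓞 K)⁰ K) * a.1⁻¹ = b.1 :=
    congrArg Subtype.val ((Equiv.ofBijective g hg).apply_symm_apply b)
  rw [← h1, inv_mul_cancel_right₀ ha]

omit [Stp K] in
theorem summable_prin_rpow {I : FractionalIdeal (𝓞 K)⁰ K} (hI : I ≠ 0) {σ : ℝ} (hσ : 1 < σ) :
    Summable fun b : {b : FractionalIdeal (𝓞 K)⁰ K //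
        b ≠ 0 ∧ b ≤ I ∧ (b : Submodule (𝓞 K) K).IsPrincipal} =>
      ((FractionalIdeal.absNorm b.1 : ℚ) : ℝ) ^ (-σ) := by
  obtain ⟨a, rfl⟩ : ∃ a : (FractionalIdeal (𝓞 K)⁰ K)ˣ, I = a.1⁻¹ :=
    ⟨Units.mk0 I⁻¹ (inv_ne_zero hI), by rw [Units.val_mk0, inv_inv]⟩
  obtain ⟨e, he⟩ := exists_prinEquiv a
  have h1 := ((zeta_summable_ideal K hσ).subtype
    {l | ClassGroup.mk0 l = ClassGroup.mk K a}).mul_right
      (((FractionalIdeal.absNorm a.1⁻¹ : ℚ) : ℝ) ^ (-σ))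
  refine ((e.summable_iff.2 h1)).congr fun b => ?_
  have h2 : b.1 = ((e b).1.1 : FractionalIdeal (𝓞 K)⁰ K) * a.1⁻¹ := by
    rw [he, mul_inv_cancel_right₀ a.ne_zero]
  rw [h2, map_mul, FractionalIdeal.coeIdeal_absNorm, Rat.cast_mul, Rat.cast_natCast,
    Real.mul_rpow (Nat.cast_nonneg _) (absNorm_FI_pos hI).le]
  rfl

theorem summable_KQ_rpow {I : FI K} (hI : I ≠ 0) {σ : ℝ} (hσ : 1 < σ) :
    Summable fun x : KQ K => ‖ind (x.out ∈ I ∧ x.out ≠ 0)‖ * nK x.out ^ (-σ) := by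
  have h1 := hasSum_KQ_ideal I
    (G := fun b => ((((FractionalIdeal.absNorm b : ℚ) : ℝ) ^ (-σ) : ℝ) : ℂ))
    (Complex.summable_ofReal.2 (summable_prin_rpow hI hσ))
  refine h1.summable.norm.congr fun x => ?_
  rw [norm_mul, ← nK_eq_absNorm, Complex.norm_real,
    Real.norm_of_nonneg (Real.rpow_nonneg (nK_nonneg _) _)]

theorem class_sum (a : (FI K)ˣ) {G : FI K → ℂ} (hG : Summable fun l : (Ideal (𝓞 K))⁰ => G l.1) :
    HasSum (fun x : KQ K => ind (x.out ∈ a.1⁻¹ ∧ x.out ≠ 0) *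
        G (FractionalIdeal.spanSingleton (𝓞 K)⁰ x.out * a.1))
      (idx K * ∑' l : (Ideal (𝓞 K))⁰, ind (ClassGroup.mk0 l = ClassGroup.mk K a) * G l.1) := by
  obtain ⟨e, he⟩ := exists_prinEquiv a
  have h0 := hG.subtype {l | ClassGroup.mk0 l = ClassGroup.mk K a}
  have h1 := hasSum_KQ_ideal a.1⁻¹ (G := fun b => G (b * a.1))
    ((e.summable_iff.2 h0).congr fun b => congrArg G (he b))
  have h2 : ∑' b : {b : FI K // b ≠ 0 ∧ b ≤ a.1⁻¹ ∧ (b : Submodule (𝓞 K) K).IsPrincipal},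
      G (b.1 * a.1) =
      ∑' l : (Ideal (𝓞 K))⁰, ind (ClassGroup.mk0 l = ClassGroup.mk K a) * G l.1 := by
    rw [← tsum_congr fun b => congrArg G (he b)]
    refine (e.tsum_eq fun l => G l.1.1).trans ?_
    refine (tsum_subtype {l : (Ideal (𝓞 K))⁰ | ClassGroup.mk0 l = ClassGroup.mk K a}
      fun l => G l.1).trans (tsum_congr fun l => ?_)
    by_cases hl : ClassGroup.mk0 l = ClassGroup.mk K a
    · rw [Set.indicator_of_mem (by exact hl), ind, if_pos hl, one_mul]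
    · rw [Set.indicator_of_notMem (by exact hl), ind, if_neg hl, zero_mul]
  rw [← h2]
  exact h1

theorem zetaSum_norm_ind (p : Prop) : ‖ind p‖ ≤ 1 := by
  unfold ind
  split_ifs <;> simp

/-- summing over a family that meets every class once -/
theorem class_sum_all (a : ClassGroup (𝓞 K) → (FI K)ˣ)
    (ha : Function.Bijective fun c => ClassGroup.mk K (a c)) {G : FI K → ℂ}
    (hG : Summable fun l : (Ideal (𝓞 K))⁰ => G l.1) :
    ∑ c, ∑' x : KQ K, ind (x.out ∈ (a c).1⁻¹ ∧ x.out ≠ 0) *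
        G (FractionalIdeal.spanSingleton (𝓞 K)⁰ x.out * (a c).1) =
      idx K * ∑' l : (Ideal (𝓞 K))⁰, G l.1 := by
  rw [Finset.sum_congr rfl fun c _ => (class_sum (a c) hG).tsum_eq, ← Finset.mul_sum,
    ← Summable.tsum_finsetSum]
  · congr 1
    refine tsum_congr fun l => ?_
    obtain ⟨c, hc⟩ := ha.2 (ClassGroup.mk0 l)
    rw [Finset.sum_eq_single c]
    · rw [ind, if_pos hc.symm, one_mul]
    · intro c' _ hc'
      rw [ind, if_neg fun h => hc' (ha.1 (h.symm.trans hc.symm)), zero_mul]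
    · intro h
      exact absurd (Finset.mem_univ c) h
  · intro c _
    refine Summable.of_norm_bounded hG.norm fun l => ?_
    rw [norm_mul]
    exact mul_le_of_le_one_left (norm_nonneg _) (zetaSum_norm_ind _)

theorem zetaSum_coef {I : FI K} (hI : I ≠ 0) {g : K → ℂ} {B c : ℝ} (hc : 0 < c)
    (hg : ∀ x ∈ I, ‖g x‖ ≤ B) :
    ZCoef (fun x : KQ K => ind (x.out ∈ I ∧ x.out ≠ 0) * g x.out) fun x => c * nK x.out := by
  refine ⟨fun x hx => ?_, fun σ hσ => ?_⟩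
  · have h1 : x.out ∈ I ∧ x.out ≠ 0 := by
      by_contra h
      exact hx (by rw [ind, if_neg h, zero_mul])
    exact mul_pos hc (nK_pos h1.2)
  · refine Summable.of_nonneg_of_le
      (fun x => mul_nonneg (norm_nonneg _)
        (Real.rpow_nonneg (mul_nonneg hc.le (nK_nonneg _)) _)) (fun x => ?_)
      ((summable_KQ_rpow hI hσ).mul_left (B * c ^ (-σ)))
    by_cases h : x.out ∈ I ∧ x.out ≠ 0
    · rw [ind, if_pos h, one_mul, norm_one, one_mul, Real.mul_rpow hc.le (nK_nonneg _),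
        ← mul_assoc]
      exact mul_le_mul_of_nonneg_right
        (mul_le_mul_of_nonneg_right (hg _ h.1) (Real.rpow_nonneg hc.le _))
        (Real.rpow_nonneg (nK_nonneg _) _)
    · rw [ind, if_neg h]
      simp

theorem hecke_cont {I J : FI K} (hJ : J ≠ 0) (hJI : J ≤ I) {T : Finset K} (hT : Reps I J T)
    {f : K → ℂ} (hf : ∀ x ∈ I, ∀ y ∈ J, f (x + y) = f x)
    (hu : ∀ u ∈ EU K, ∀ x ∈ I, f (((u : R K) : K) * x) = f x) :
    ∃ Z : ℂ → ℂ, Differentiable ℂ Z ∧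
      Z 1 = (c0 K * VV K / (FractionalIdeal.absNorm J : ℚ) : ℝ) * ∑ x ∈ T, f x ∧
      ∀ s : ℂ, 1 < s.re → Z s = (s - 1) *
        ∑' x : KQ K, ind (x.out ∈ I ∧ x.out ≠ 0) * f x.out * (nK x.out : ℂ) ^ (-s) := by
  have hI : I ≠ 0 := fun h => hJ (le_antisymm (h ▸ hJI) (FractionalIdeal.zero_le _))
  have h1 : ∀ x ∈ I, ‖f x‖ ≤ ∑ x ∈ T, ‖f x‖ := fun x hx => by
    obtain ⟨y, ⟨hy, hxy⟩, -⟩ := hT.2 x hx
    have e := hf y (hT.1 y hy) (x - y) hxy
    rw [add_sub_cancel] at e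
    rw [e]
    exact Finset.single_le_sum (f := fun x => ‖f x‖) (fun _ _ => norm_nonneg _) hy
  have h2 : ∀ ξ ∈ dl J, ‖∑ x ∈ T, f x * eTr (x * ξ)‖ ≤ ∑ x ∈ T, ‖f x‖ := fun ξ _ =>
    (norm_sum_le _ _).trans_eq (Finset.sum_congr rfl fun x _ => by
      rw [norm_mul, norm_eTr, mul_one])
  have ha := zetaSum_coef hI one_pos h1
  simp only [one_mul] at ha
  have hb := zetaSum_coef (dl_ne_zero hJ) (c := (4 * π ^ 2) ^ rr K) (by positivity) h2
  have hN := absNorm_FI_pos hJ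
  have hε : ((c0 K / (FractionalIdeal.absNorm J : ℚ) : ℝ) : ℂ) ≠ 0 :=
    Complex.ofReal_ne_zero.2 (div_pos c0_pos hN).ne'
  obtain ⟨Z, z1, z2, z3⟩ := fe_cont (A := VV K * f 0) (B := VV K * ∑ x ∈ T, f x) rr_pos zKer_KK
    ha hb hε fun Y hY => by
      have h := HP hJ hJI hT hf hu hY
      unfold zS
      simp only [mul_one_div]
      rw [h]
      congr 1
      · push_cast
        ring
      · congr 1
        refine tsum_congr fun ξ => ?_
        rw [mul_right_comm _ Y]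
  refine ⟨Z, z1, ?_, z3⟩
  rw [z2]
  push_cast
  ring

end Vale.Agent.P016.N0
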